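import Vale.Agent.P141.H609.Z3
import Vale.Agent.P141.H958.Theta

/-!
# P141, line W: the step engine for arbitrary node matrices

Three families of matrices `FA`, `FB`, `FC` (cyclic: `tr (h FA h FB h FC)`), node dependent, with
caps `cA`, `cB`, `cC`.  `RP x y F H` is the raw pair sum of `F` and `H` saturated at the levels
`x`, `y`.  `sched`, `stageN`: first the third function is lowered to `θ τ`, then the highest of
`(s_A, s_B, s_C / θ)` is the centre of the step.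
-/

namespace Vale.Agent.P141.H609

open Finset Matrix Vale.Agent.P075 Vale.Agent.P141.PL Vale.Agent.P141.PL.H588
open Vale.Agent.P141.PL.H804 Vale.Agent.P141.H958

noncomputable section

/-- A family of matrices at the nodes. -/
abbrev NM := (k : ℕ) → Pt → Matrix (Ix k) (Ix k) ℝ

/-- The saturated Gram matrix (columns) in raw units. -/
theorem satC_mono {n : Type*} [Fintype n] [DecidableEq n] (F : Matrix n n ℝ) {x x' u : ℝ}
    (hx : 0 < x) (hxx : x ≤ x') (hu : 0 ≤ u) :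
    (x' ^ 2 • phi (gramC ((x' ^ 2)⁻¹ * u) F) - x ^ 2 • phi (gramC ((x ^ 2)⁻¹ * u) F)).PosSemidef := by
  have hx' : 0 < x' := hx.trans_le hxx
  have hX : (gramC ((x ^ 2)⁻¹ * u) F).PosSemidef := gramC_psd (by positivity) F
  set θ : ℝ := x ^ 2 / x' ^ 2 with hθ
  have h0 : 0 ≤ θ := by positivity
  have h1 : θ ≤ 1 := by
    rw [hθ, div_le_one (by positivity)]
    exact pow_le_pow_left₀ hx.le hxx 2
  have h2 := (phi_smul_ge hX h0 h1).smul (by positivity : 0 ≤ x' ^ 2)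
  have e1 : θ • gramC ((x ^ 2)⁻¹ * u) F = gramC ((x' ^ 2)⁻¹ * u) F := by
    rw [gramC, gramC, smul_smul]
    congr 1
    rw [hθ]
    field_simp
  rw [e1, smul_sub, smul_smul] at h2
  rwa [show x' ^ 2 * θ = x ^ 2 by rw [hθ]; field_simp] at h2

theorem satR_mono {n : Type*} [Fintype n] [DecidableEq n] (F : Matrix n n ℝ) {x x' u : ℝ}
    (hx : 0 < x) (hxx : x ≤ x') (hu : 0 ≤ u) :
    (x' ^ 2 • phi (gramR ((x' ^ 2)⁻¹ * u) F) - x ^ 2 • phi (gramR ((x ^ 2)⁻¹ * u) F)).PosSemidef := by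
  have h := satC_mono Fᵀ hx hxx hu
  rwa [gramC_transpose, gramC_transpose] at h

/-- The raw pair sum at the levels `x`, `y`. -/
def RP (N : ℕ) (s : ℕ → Finset Pt) (x y : ℝ) (F H : NM) : ℝ :=
  ∑ k ∈ Icc 1 N, ∑ m ∈ s k, x ^ 2 * y ^ 2 *
    (4 ^ k * M2 (hd k) ((x ^ 2)⁻¹ * (4 ^ k)⁻¹) ((y ^ 2)⁻¹ * (4 ^ k)⁻¹) (F k m) (H k m))

/-- The form with the three indices. -/
def UN (N : ℕ) (s : ℕ → Finset Pt) (cA cB cC : ℝ) (FA FB FC : NM) (a b e : ℕ) : ℝ :=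
  ∑ k ∈ Icc 1 N, ∑ m ∈ s k, |(2 ^ k : ℝ)⁻¹ *
    T3 (hd k) (rg ((cA ^ 2)⁻¹ * (4 ^ k)⁻¹) (FA k m) a) (rg ((cB ^ 2)⁻¹ * (4 ^ k)⁻¹) (FB k m) b)
      (rg ((cC ^ 2)⁻¹ * (4 ^ k)⁻¹) (FC k m) e)|

section

variable {N : ℕ} {s : ℕ → Finset Pt} {cA cB cC : ℝ} {FA FB FC F H : NM}

theorem RP_nonneg {x y : ℝ} : 0 ≤ RP N s x y F H :=
  sum_nonneg fun k _ => sum_nonneg fun m _ => mul_nonneg (by positivity)
    (mul_nonneg (by positivity) (M2_nonneg (hd_symm _) (by positivity) (by positivity) _ _))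

theorem RP_mono {x x' y y' : ℝ} (hx : 0 < x) (hy : 0 < y) (hxx : x ≤ x') (hyy : y ≤ y') :
    RP N s x y F H ≤ RP N s x' y' F H := by
  refine sum_le_sum fun k _ => sum_le_sum fun m _ => ?_
  have hu : (0 : ℝ) ≤ (4 ^ k)⁻¹ := by positivity
  have h1 := satC_mono (F k m) hx hxx hu
  have h2 := satR_mono (H k m) hy hyy hu
  have hx' := hx.trans_le hxx
  have hy' := hy.trans_le hyy
  set P := phi (gramC ((x ^ 2)⁻¹ * (4 ^ k)⁻¹) (F k m))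
  set P' := phi (gramC ((x' ^ 2)⁻¹ * (4 ^ k)⁻¹) (F k m))
  set Q := phi (gramR ((y ^ 2)⁻¹ * (4 ^ k)⁻¹) (H k m)) with hQ
  set Q' := phi (gramR ((y' ^ 2)⁻¹ * (4 ^ k)⁻¹) (H k m)) with hQ'
  have pQ : (y ^ 2 • Q).PosSemidef :=
    (phi_psd (gramR_psd (by positivity) _)).smul (by positivity)
  have pP' : (x' ^ 2 • P').PosSemidef :=
    (phi_psd (gramC_psd (by positivity) _)).smul (by positivity)
  have i1 : ((x ^ 2 • P) * (hd k * (y ^ 2 • Q) * hd k)).trace ≤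
      ((x' ^ 2 • P') * (hd k * (y ^ 2 • Q) * hd k)).trace :=
    trace_mul_le_left (psd_conj_symm pQ (hd_symm k)) h1
  have i2 : ((x' ^ 2 • P') * (hd k * (y ^ 2 • Q) * hd k)).trace ≤
      ((x' ^ 2 • P') * (hd k * (y' ^ 2 • Q') * hd k)).trace := by
    refine trace_mul_le_right pP' ?_
    have := psd_conj_symm h2 (hd_symm k)
    rwa [Matrix.mul_sub, Matrix.sub_mul] at this
  have i3 := i1.trans i2
  have e : ∀ (p q : ℝ) (X Y : Matrix (Ix k) (Ix k) ℝ),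
      ((p • X) * (hd k * (q • Y) * hd k)).trace = p * q * (X * (hd k * Y * hd k)).trace := by
    intro p q X Y
    simp only [Matrix.mul_smul, Matrix.smul_mul, trace_smul, smul_eq_mul]
    ring
  rw [e, e] at i3
  have i4 := mul_le_mul_of_nonneg_left i3 (by positivity : (0 : ℝ) ≤ 4 ^ k)
  rw [M2, M2]
  linarith

/-- The raw pair sum is at most the one with the raw Gram matrix of `F`. -/
theorem RP_le_lin {x y : ℝ} (hx : 0 < x) :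
    RP N s x y F H ≤ ∑ k ∈ Icc 1 N, ∑ m ∈ s k, y ^ 2 *
      (((F k m)ᵀ * F k m) *
        (hd k * phi (gramR ((y ^ 2)⁻¹ * (4 ^ k)⁻¹) (H k m)) * hd k)).trace := by
  refine sum_le_sum fun k _ => sum_le_sum fun m _ => ?_
  have hX : (gramC ((x ^ 2)⁻¹ * (4 ^ k)⁻¹) (F k m)).PosSemidef := gramC_psd (by positivity) _
  have pQ : (phi (gramR ((y ^ 2)⁻¹ * (4 ^ k)⁻¹) (H k m))).PosSemidef :=
    phi_psd (gramR_psd (by positivity) _)
  have h1 : (gramC ((x ^ 2)⁻¹ * (4 ^ k)⁻¹) (F k m) -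
      phi (gramC ((x ^ 2)⁻¹ * (4 ^ k)⁻¹) (F k m))).PosSemidef := phi_le_self hX
  have i1 := trace_mul_le_left (psd_conj_symm pQ (hd_symm k)) h1
  rw [M2]
  have e1 : (gramC ((x ^ 2)⁻¹ * (4 ^ k)⁻¹) (F k m) *
      (hd k * phi (gramR ((y ^ 2)⁻¹ * (4 ^ k)⁻¹) (H k m)) * hd k)).trace =
      (x ^ 2)⁻¹ * (4 ^ k)⁻¹ * (((F k m)ᵀ * F k m) *
        (hd k * phi (gramR ((y ^ 2)⁻¹ * (4 ^ k)⁻¹) (H k m)) * hd k)).trace := by
    rw [gramC, Matrix.smul_mul, trace_smul, smul_eq_mul]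
  rw [e1] at i1
  have i2 := mul_le_mul_of_nonneg_left i1 (by positivity : (0 : ℝ) ≤ x ^ 2 * y ^ 2 * 4 ^ k)
  refine le_trans (le_of_eq ?_) (i2.trans (le_of_eq ?_))
  · ring
  · field_simp

/-- The raw pair sum is at most the one with the raw Gram matrix of `H`. -/
theorem RP_le_lin' {x y : ℝ} (hy : 0 < y) :
    RP N s x y F H ≤ ∑ k ∈ Icc 1 N, ∑ m ∈ s k, x ^ 2 *
      (phi (gramC ((x ^ 2)⁻¹ * (4 ^ k)⁻¹) (F k m)) *
        (hd k * (H k m * (H k m)ᵀ) * hd k)).trace := by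
  refine sum_le_sum fun k _ => sum_le_sum fun m _ => ?_
  have hX : (gramR ((y ^ 2)⁻¹ * (4 ^ k)⁻¹) (H k m)).PosSemidef := gramR_psd (by positivity) _
  have pP : (phi (gramC ((x ^ 2)⁻¹ * (4 ^ k)⁻¹) (F k m))).PosSemidef :=
    phi_psd (gramC_psd (by positivity) _)
  have h1 := psd_conj_symm (phi_le_self hX) (hd_symm k)
  rw [Matrix.mul_sub, Matrix.sub_mul] at h1
  have i1 := trace_mul_le_right pP h1
  rw [M2]
  have e1 : (phi (gramC ((x ^ 2)⁻¹ * (4 ^ k)⁻¹) (F k m)) *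
      (hd k * gramR ((y ^ 2)⁻¹ * (4 ^ k)⁻¹) (H k m) * hd k)).trace =
      (y ^ 2)⁻¹ * (4 ^ k)⁻¹ * (phi (gramC ((x ^ 2)⁻¹ * (4 ^ k)⁻¹) (F k m)) *
        (hd k * (H k m * (H k m)ᵀ) * hd k)).trace := by
    rw [gramR]
    simp only [Matrix.mul_smul, Matrix.smul_mul, trace_smul, smul_eq_mul]
  rw [e1] at i1
  have i2 := mul_le_mul_of_nonneg_left i1 (by positivity : (0 : ℝ) ≤ x ^ 2 * y ^ 2 * 4 ^ k)
  refine le_trans (le_of_eq ?_) (i2.trans (le_of_eq ?_))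
  · ring
  · field_simp

theorem UN_nonneg (a b e : ℕ) : 0 ≤ UN N s cA cB cC FA FB FC a b e :=
  sum_nonneg fun _ _ => sum_nonneg fun _ _ => abs_nonneg _

theorem UN_cyc (a b e : ℕ) :
    UN N s cA cB cC FA FB FC a b e = UN N s cB cC cA FB FC FA b e a := by
  unfold UN
  refine sum_congr rfl fun k _ => sum_congr rfl fun m _ => ?_
  rw [T3_cyc]

/-- **A-step**: centre the first function, two raw pair sums. -/
theorem UN_A (hA : 0 < cA) (hB : 0 < cB) (hC : 0 < cC)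
    (capA : ∀ k ∈ Icc 1 N, ∀ m ∈ s k, (1 - gramC ((cA ^ 2)⁻¹ * (4 ^ k)⁻¹) (FA k m)).PosSemidef)
    (capB : ∀ k ∈ Icc 1 N, ∀ m ∈ s k, (1 - gramC ((cB ^ 2)⁻¹ * (4 ^ k)⁻¹) (FB k m)).PosSemidef)
    (capC : ∀ k ∈ Icc 1 N, ∀ m ∈ s k, (1 - gramC ((cC ^ 2)⁻¹ * (4 ^ k)⁻¹) (FC k m)).PosSemidef)
    (a b e : ℕ) {x y : ℝ}
    (hx : RP N s (cC / 2 ^ (e - 1)) (cA / 2 ^ (a - 1)) FC FA ≤ x)
    (hy : RP N s (cA / 2 ^ (a - 1)) (cB / 2 ^ (b - 1)) FA FB ≤ y) :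
    UN N s cA cB cC FA FB FC a b e ≤ UN N s cA cB cC FA FB FC (a + 1) b e +
      6 * ((cA / 2 ^ (a - 1))⁻¹ * √(x * y)) := by
  have h₀ : 0 < (cA ^ 2)⁻¹ := by positivity
  have h₁ : 0 < (cB ^ 2)⁻¹ := by positivity
  have h₂ : 0 < (cC ^ 2)⁻¹ := by positivity
  have a0 := lv_pos hA a
  have a1 := lv_pos hB b
  have a2 := lv_pos hC e
  have hk4 : ∀ k : ℕ, (0 : ℝ) < (4 ^ k)⁻¹ := fun k => by positivity
  set xA := cA / 2 ^ (a - 1) with hxA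
  set xB := cB / 2 ^ (b - 1) with hxB
  set xC := cC / 2 ^ (e - 1) with hxC
  have pA : 0 < xA := by positivity
  have pB : 0 < xB := by positivity
  have pC : 0 < xC := by positivity
  have vA : lv cA a = (xA ^ 2)⁻¹ := lv_inv hA a
  have vB : lv cB b = (xB ^ 2)⁻¹ := lv_inv hB b
  have vC : lv cC e = (xC ^ 2)⁻¹ := lv_inv hC e
  unfold UN
  refine diff_le _ _ (fun k m => (2 ^ k : ℝ)⁻¹ *
    T3 (hd k) (pc ((cA ^ 2)⁻¹ * (4 ^ k)⁻¹) (FA k m) a) (rg ((cB ^ 2)⁻¹ * (4 ^ k)⁻¹) (FB k m) b)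
      (rg ((cC ^ 2)⁻¹ * (4 ^ k)⁻¹) (FC k m) e)) (fun k m => ?_) ?_
  · rw [pc_eq, T3_sub_left]
    ring
  · refine (core2s _ (fun k m => xC ^ 2 * xA ^ 2 * (4 ^ k * M2 (hd k) ((xC ^ 2)⁻¹ * (4 ^ k)⁻¹)
        ((xA ^ 2)⁻¹ * (4 ^ k)⁻¹) (FC k m) (FA k m)))
      (fun k m => xA ^ 2 * xB ^ 2 * (4 ^ k * M2 (hd k) ((xA ^ 2)⁻¹ * (4 ^ k)⁻¹)
        ((xB ^ 2)⁻¹ * (4 ^ k)⁻¹) (FA k m) (FB k m))) (w := xA⁻¹) (by positivity)
      (fun k m => mul_nonneg (by positivity) (mul_nonneg (by positivity)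
        (M2_nonneg (hd_symm _) (by positivity) (by positivity) _ _)))
      (fun k m => mul_nonneg (by positivity) (mul_nonneg (by positivity)
        (M2_nonneg (hd_symm _) (by positivity) (by positivity) _ _))) ?_ hx hy)
    intro k hk m hm
    have hb := T3_st_sq_le (hd_symm k) (hd_sq k) (mul_pos h₀ (hk4 k)) (mul_pos h₁ (hk4 k))
      (mul_pos h₂ (hk4 k)) (capA k hk m hm) (capB k hk m hm) (capC k hk m hm) a b e
    simp only [lw_mul'] at hb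
    have hc := scale_sq a0 a1 a2 hb
    refine hc.trans (le_of_eq ?_)
    change 36 * (lv cA a * lv cB b * lv cC e)⁻¹ * (4 ^ k * M2 (hd k) (lv cC e * (4 ^ k)⁻¹)
      (lv cA a * (4 ^ k)⁻¹) (FC k m) (FA k m) * (4 ^ k * M2 (hd k) (lv cA a * (4 ^ k)⁻¹)
      (lv cB b * (4 ^ k)⁻¹) (FA k m) (FB k m))) = _
    rw [vA, vB, vC]
    generalize M2 (hd k) ((xC ^ 2)⁻¹ * (4 ^ k)⁻¹) ((xA ^ 2)⁻¹ * (4 ^ k)⁻¹) (FC k m) (FA k m) = M
    generalize M2 (hd k) ((xA ^ 2)⁻¹ * (4 ^ k)⁻¹) ((xB ^ 2)⁻¹ * (4 ^ k)⁻¹) (FA k m) (FB k m) = M'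
    field_simp

theorem UN_B (hA : 0 < cA) (hB : 0 < cB) (hC : 0 < cC)
    (capA : ∀ k ∈ Icc 1 N, ∀ m ∈ s k, (1 - gramC ((cA ^ 2)⁻¹ * (4 ^ k)⁻¹) (FA k m)).PosSemidef)
    (capB : ∀ k ∈ Icc 1 N, ∀ m ∈ s k, (1 - gramC ((cB ^ 2)⁻¹ * (4 ^ k)⁻¹) (FB k m)).PosSemidef)
    (capC : ∀ k ∈ Icc 1 N, ∀ m ∈ s k, (1 - gramC ((cC ^ 2)⁻¹ * (4 ^ k)⁻¹) (FC k m)).PosSemidef)
    (a b e : ℕ) {x y : ℝ}
    (hx : RP N s (cA / 2 ^ (a - 1)) (cB / 2 ^ (b - 1)) FA FB ≤ x)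
    (hy : RP N s (cB / 2 ^ (b - 1)) (cC / 2 ^ (e - 1)) FB FC ≤ y) :
    UN N s cA cB cC FA FB FC a b e ≤ UN N s cA cB cC FA FB FC a (b + 1) e +
      6 * ((cB / 2 ^ (b - 1))⁻¹ * √(x * y)) := by
  rw [UN_cyc, UN_cyc (b := b + 1)]
  exact UN_A hB hC hA capB capC capA b e a hx hy

theorem UN_C (hA : 0 < cA) (hB : 0 < cB) (hC : 0 < cC)
    (capA : ∀ k ∈ Icc 1 N, ∀ m ∈ s k, (1 - gramC ((cA ^ 2)⁻¹ * (4 ^ k)⁻¹) (FA k m)).PosSemidef)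
    (capB : ∀ k ∈ Icc 1 N, ∀ m ∈ s k, (1 - gramC ((cB ^ 2)⁻¹ * (4 ^ k)⁻¹) (FB k m)).PosSemidef)
    (capC : ∀ k ∈ Icc 1 N, ∀ m ∈ s k, (1 - gramC ((cC ^ 2)⁻¹ * (4 ^ k)⁻¹) (FC k m)).PosSemidef)
    (a b e : ℕ) {x y : ℝ}
    (hx : RP N s (cB / 2 ^ (b - 1)) (cC / 2 ^ (e - 1)) FB FC ≤ x)
    (hy : RP N s (cC / 2 ^ (e - 1)) (cA / 2 ^ (a - 1)) FC FA ≤ y) :
    UN N s cA cB cC FA FB FC a b e ≤ UN N s cA cB cC FA FB FC a b (e + 1) +
      6 * ((cC / 2 ^ (e - 1))⁻¹ * √(x * y)) := by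
  rw [UN_cyc, UN_cyc (e := e + 1), UN_cyc, UN_cyc (b := e + 1)]
  exact UN_A hC hA hB capC capA capB e a b hx hy

/-- Decay in the sum of the three indices. -/
theorem UN_tail (hA : 0 < cA) (hB : 0 < cB) (hC : 0 < cC)
    (capA : ∀ k ∈ Icc 1 N, ∀ m ∈ s k, (1 - gramC ((cA ^ 2)⁻¹ * (4 ^ k)⁻¹) (FA k m)).PosSemidef)
    (capB : ∀ k ∈ Icc 1 N, ∀ m ∈ s k, (1 - gramC ((cB ^ 2)⁻¹ * (4 ^ k)⁻¹) (FB k m)).PosSemidef)
    (capC : ∀ k ∈ Icc 1 N, ∀ m ∈ s k, (1 - gramC ((cC ^ 2)⁻¹ * (4 ^ k)⁻¹) (FC k m)).PosSemidef) :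
    ∃ K : ℝ, 0 ≤ K ∧ ∀ a b e : ℕ,
      UN N s cA cB cC FA FB FC a b e ≤ K * (2 ^ (a + b + e))⁻¹ := by
  have h₀ : 0 < (cA ^ 2)⁻¹ := by positivity
  have h₁ : 0 < (cB ^ 2)⁻¹ := by positivity
  have h₂ : 0 < (cC ^ 2)⁻¹ := by positivity
  have q : ∀ k : ℕ, (0 : ℝ) < (4 ^ k)⁻¹ := fun k => by positivity
  set κ : ℝ → ℕ → ℝ := fun x k =>
    √(4 * ((x ^ 2)⁻¹ * (4 ^ k)⁻¹)⁻¹ * (Fintype.card (Ix k) : ℝ)) with hκ
  set κ' : ℝ → ℕ → ℝ := fun x k => √(4 * ((x ^ 2)⁻¹ * (4 ^ k)⁻¹)⁻¹) with hκ'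
  have nκ : ∀ x k, 0 ≤ κ x k := fun x k => Real.sqrt_nonneg _
  have nκ' : ∀ x k, 0 ≤ κ' x k := fun x k => Real.sqrt_nonneg _
  refine ⟨∑ k ∈ Icc 1 N, ∑ m ∈ s k, (2 ^ k : ℝ)⁻¹ * (κ' cA k * (κ cB k * κ cC k)),
    sum_nonneg fun k _ => sum_nonneg fun m _ => ?_, fun a b e => ?_⟩
  · have := nκ' cA k
    have := nκ cB k
    have := nκ cC k
    positivity
  unfold UN
  rw [sum_mul]
  refine sum_le_sum fun k hk => ?_
  rw [sum_mul]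
  refine sum_le_sum fun m hm => ?_
  have h2k : (0 : ℝ) < (2 ^ k)⁻¹ := by positivity
  rw [abs_mul, abs_of_pos h2k, mul_assoc ((2 ^ k : ℝ)⁻¹)]
  refine mul_le_mul_of_nonneg_left ?_ h2k.le
  have dB := hs_rg_decay (mul_pos h₁ (q k)) (capB k hk m hm) b
  have dC := hs_rg_decay (mul_pos h₂ (q k)) (capC k hk m hm) e
  have oA := rg_op (mul_pos h₀ (q k)) (capA k hk m hm) a
  have dA : √(4 * ((4 : ℝ) ^ a * ((cA ^ 2)⁻¹ * (4 ^ k)⁻¹))⁻¹) = κ' cA k * (2 ^ a)⁻¹ := by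
    have h4 : ((4 : ℝ) ^ a)⁻¹ = ((2 ^ a)⁻¹) ^ 2 := by
      rw [inv_pow, ← pow_mul, mul_comm a 2, pow_mul]; norm_num
    have e1 : 4 * ((4 : ℝ) ^ a * ((cA ^ 2)⁻¹ * (4 ^ k)⁻¹))⁻¹ =
        (4 * ((cA ^ 2)⁻¹ * (4 ^ k)⁻¹)⁻¹) * ((2 ^ a)⁻¹) ^ 2 := by
      rw [mul_inv, h4]
      ring
    rw [e1, Real.sqrt_mul (by positivity), Real.sqrt_sq (by positivity)]
  have h := T3_op_le (hd_symm k) (hd_sq k) (by positivity :
    (0 : ℝ) ≤ 4 * ((4 : ℝ) ^ a * ((cA ^ 2)⁻¹ * (4 ^ k)⁻¹))⁻¹) oA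
    (le_refl ((rg ((cB ^ 2)⁻¹ * (4 ^ k)⁻¹) (FB k m) b)ᵀ *
      rg ((cB ^ 2)⁻¹ * (4 ^ k)⁻¹) (FB k m) b).trace)
    (le_refl ((rg ((cC ^ 2)⁻¹ * (4 ^ k)⁻¹) (FC k m) e)ᵀ *
      rg ((cC ^ 2)⁻¹ * (4 ^ k)⁻¹) (FC k m) e).trace)
  refine h.trans ?_
  rw [dA]
  have m1 := mul_le_mul dB dC (Real.sqrt_nonneg _) (by positivity)
  have m2 := mul_le_mul_of_nonneg_left m1 (mul_nonneg (nκ' cA k) (by positivity :
    (0 : ℝ) ≤ (2 ^ a)⁻¹))
  refine m2.trans (le_of_eq ?_)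
  rw [hκ]
  simp only
  rw [pow_add, pow_add, mul_inv, mul_inv]
  ring

end

/-- **The unbalanced schedule**: the third index is raised until its level is at most `θ τ`, then
the highest of the three levels (the third divided by `θ`) is lowered. -/
theorem sched {f : ℕ → ℕ → ℕ → ℝ} {K cA cB cC θ τ κ κ' : ℝ} (hA : 0 < cA) (hB : 0 < cB)
    (hC : 0 < cC) (hθ : 0 < θ) (hτA : cA ≤ τ) (hτB : cB ≤ τ) (hκ : 0 ≤ κ) (hκ' : 0 ≤ κ')
    (ht : ∀ a b e, f a b e ≤ K * (2 ^ (a + b + e))⁻¹) {L₀ : ℕ}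
    (hL : cC / 2 ^ (L₀ - 1) ≤ θ * τ)
    (sA : ∀ a b e, cB / 2 ^ (b - 1) ≤ cA / 2 ^ (a - 1) →
      cC / 2 ^ (e - 1) ≤ θ * (cA / 2 ^ (a - 1)) → f a b e ≤ f (a + 1) b e + κ * (cA / 2 ^ (a - 1)))
    (sB : ∀ a b e, cA / 2 ^ (a - 1) ≤ cB / 2 ^ (b - 1) →
      cC / 2 ^ (e - 1) ≤ θ * (cB / 2 ^ (b - 1)) → f a b e ≤ f a (b + 1) e + κ * (cB / 2 ^ (b - 1)))
    (sC : ∀ a b e, cC / 2 ^ (e - 1) ≤ θ * τ → θ * (cA / 2 ^ (a - 1)) ≤ cC / 2 ^ (e - 1) →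
      θ * (cB / 2 ^ (b - 1)) ≤ cC / 2 ^ (e - 1) →
      f a b e ≤ f a b (e + 1) + κ * (cC / 2 ^ (e - 1) / θ))
    (sC' : ∀ a b e, θ * τ < cC / 2 ^ (e - 1) → f a b e ≤ f a b (e + 1) + κ') :
    f 0 0 0 ≤ 9 * κ * τ + κ' * L₀ := by
  have hτ : 0 < τ := hA.trans_le hτA
  have main := ind3 (f := f) (κA := fun a => κ * (cA / 2 ^ (a - 1)))
    (κB := fun b => κ * (cB / 2 ^ (b - 1)))
    (κC := fun e => if cC / 2 ^ (e - 1) ≤ θ * τ then (κ / θ) * (cC / 2 ^ (e - 1)) else κ')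
    (fun j => by positivity) (fun j => by positivity)
    (fun j => by
      split_ifs
      · positivity
      · exact hκ') ht (a₀ := 0) (b₀ := 0) (e₀ := 0) (fun a b e _ _ _ => ?_)
    (SA := 3 * κ * τ) (SB := 3 * κ * τ) (SC := κ' * L₀ + (κ / θ) * (3 * (θ * τ)))
    (fun L => ?_) (fun L => ?_) (fun L => ?_)
  · refine main.trans (le_of_eq ?_)
    field_simp
    ring
  · by_cases h1 : cC / 2 ^ (e - 1) ≤ θ * τ
    · simp only [if_pos h1]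
      have e1 : κ * (cC / 2 ^ (e - 1) / θ) = (κ / θ) * (cC / 2 ^ (e - 1)) := by ring
      rcases le_total (cA / 2 ^ (a - 1)) (cB / 2 ^ (b - 1)) with h2 | h2
      · rcases le_total (cC / 2 ^ (e - 1)) (θ * (cB / 2 ^ (b - 1))) with h3 | h3
        · exact Or.inr (Or.inl (sB a b e h2 h3))
        · refine Or.inr (Or.inr ?_)
          rw [← e1]
          exact sC a b e h1 ((mul_le_mul_of_nonneg_left h2 hθ.le).trans h3) h3
      · rcases le_total (cC / 2 ^ (e - 1)) (θ * (cA / 2 ^ (a - 1))) with h3 | h3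
        · exact Or.inl (sA a b e h2 h3)
        · refine Or.inr (Or.inr ?_)
          rw [← e1]
          exact sC a b e h1 h3 ((mul_le_mul_of_nonneg_left h2 hθ.le).trans h3)
    · simp only [if_neg h1]
      exact Or.inr (Or.inr (sC' a b e (not_le.1 h1)))
  · rw [← mul_sum]
    have h1 := lev_sum hA.le 0 L
    simp only [Nat.zero_sub, pow_zero, div_one] at h1
    have h2 := mul_le_mul_of_nonneg_left (h1.trans (mul_le_mul_of_nonneg_left hτA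
      (by norm_num : (0 : ℝ) ≤ 3))) hκ
    linarith
  · rw [← mul_sum]
    have h1 := lev_sum hB.le 0 L
    simp only [Nat.zero_sub, pow_zero, div_one] at h1
    have h2 := mul_le_mul_of_nonneg_left (h1.trans (mul_le_mul_of_nonneg_left hτB
      (by norm_num : (0 : ℝ) ≤ 3))) hκ
    linarith
  · have h := cost_sum hC.le (by positivity : 0 ≤ θ * τ) (by positivity : 0 ≤ κ / θ) hκ' hL 0 L
    simpa only [Nat.sub_zero] using h

section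

variable {N : ℕ} {s : ℕ → Finset Pt} {cA cB cC : ℝ} {FA FB FC : NM}

/-- **The stage sum**: three raw pair sums below the height `τ` (third function at `θ` times the
height), and above the product of the two pair sums of the third function. -/
theorem stageN (hA : 0 < cA) (hB : 0 < cB) (hC : 0 < cC)
    (capA : ∀ k ∈ Icc 1 N, ∀ m ∈ s k, (1 - gramC ((cA ^ 2)⁻¹ * (4 ^ k)⁻¹) (FA k m)).PosSemidef)
    (capB : ∀ k ∈ Icc 1 N, ∀ m ∈ s k, (1 - gramC ((cB ^ 2)⁻¹ * (4 ^ k)⁻¹) (FB k m)).PosSemidef)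
    (capC : ∀ k ∈ Icc 1 N, ∀ m ∈ s k, (1 - gramC ((cC ^ 2)⁻¹ * (4 ^ k)⁻¹) (FC k m)).PosSemidef)
    {θ τ P₀ PA PB κ' : ℝ} (hθ : 0 < θ) (hτA : cA ≤ τ) (hτB : cB ≤ τ) (hP₀ : 0 ≤ P₀)
    (hPA : 0 ≤ PA) (hPB : 0 ≤ PB) (hκ' : 0 ≤ κ')
    (hAB : ∀ h, 0 < h → h ≤ τ → RP N s h h FA FB ≤ P₀ * h ^ 2)
    (hBC : ∀ h, 0 < h → h ≤ τ → RP N s h (θ * h) FB FC ≤ PB * h ^ 2)
    (hCA : ∀ h, 0 < h → h ≤ τ → RP N s (θ * h) h FC FA ≤ PA * h ^ 2)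
    (hT : ∀ x, θ * τ ≤ x → x ≤ cC → √(RP N s cB x FB FC * RP N s x cA FC FA) ≤ κ' * x)
    {L₀ : ℕ} (hL : cC / 2 ^ (L₀ - 1) ≤ θ * τ) :
    UN N s cA cB cC FA FB FC 0 0 0 ≤
      54 * (√(P₀ * PA) + √(P₀ * PB) + √(PA * PB) / θ) * τ + 6 * κ' * L₀ := by
  obtain ⟨K, _, hK⟩ := UN_tail (FA := FA) (FB := FB) (FC := FC) hA hB hC capA capB capC
  set κ : ℝ := 6 * (√(P₀ * PA) + √(P₀ * PB) + √(PA * PB) / θ) with hκ
  have n1 : 0 ≤ √(P₀ * PA) := Real.sqrt_nonneg _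
  have n2 : 0 ≤ √(P₀ * PB) := Real.sqrt_nonneg _
  have n3 : 0 ≤ √(PA * PB) / θ := by positivity
  have κ0 : 0 ≤ κ := by positivity
  have key : ∀ {h P P' x y : ℝ}, 0 < h → 0 ≤ P → 0 ≤ P' → 0 ≤ x → 0 ≤ y → x ≤ P * h ^ 2 →
      y ≤ P' * h ^ 2 → √(x * y) ≤ √(P * P') * h ^ 2 := by
    intro h P P' x y hh hP hP' hx0 hy0 hx hy
    have e : √(P * P') * h ^ 2 = √((P * P') * (h ^ 2) ^ 2) := by
      rw [Real.sqrt_mul (mul_nonneg hP hP') ((h ^ 2) ^ 2), Real.sqrt_sq (by positivity)]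
    rw [e]
    refine Real.sqrt_le_sqrt ((mul_le_mul hx hy hy0 (by positivity)).trans (le_of_eq ?_))
    ring
  have lvA : ∀ a : ℕ, cA / 2 ^ (a - 1) ≤ cA := fun a => div_le_self hA.le (one_le_pow₀ (by norm_num))
  have lvB : ∀ a : ℕ, cB / 2 ^ (a - 1) ≤ cB := fun a => div_le_self hB.le (one_le_pow₀ (by norm_num))
  have lvC : ∀ a : ℕ, cC / 2 ^ (a - 1) ≤ cC := fun a => div_le_self hC.le (one_le_pow₀ (by norm_num))
  have main := sched (f := UN N s cA cB cC FA FB FC) (θ := θ) (τ := τ) (κ := κ) (κ' := 6 * κ')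
    hA hB hC hθ hτA hτB κ0 (by positivity) hK hL (fun a b e h1 h2 => ?_) (fun a b e h1 h2 => ?_)
    (fun a b e h0 h1 h2 => ?_) (fun a b e h0 => ?_)
  · refine main.trans (le_of_eq ?_)
    rw [hκ]
    ring
  · set h := cA / 2 ^ (a - 1) with hh
    have ph : 0 < h := by positivity
    have pB : 0 < cB / 2 ^ (b - 1) := by positivity
    have pC : 0 < cC / 2 ^ (e - 1) := by positivity
    have hτ : h ≤ τ := (lvA a).trans hτA
    have r1 : RP N s (cC / 2 ^ (e - 1)) h FC FA ≤ PA * h ^ 2 :=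
      (RP_mono pC ph h2 le_rfl).trans (hCA h ph hτ)
    have r2 : RP N s h (cB / 2 ^ (b - 1)) FA FB ≤ P₀ * h ^ 2 :=
      (RP_mono ph pB le_rfl h1).trans (hAB h ph hτ)
    refine (UN_A hA hB hC capA capB capC a b e le_rfl le_rfl).trans (add_le_add le_rfl ?_)
    rw [← hh]
    have k1 := key ph hPA hP₀ RP_nonneg RP_nonneg r1 r2
    rw [mul_comm PA P₀] at k1
    have k2 := mul_le_mul_of_nonneg_left k1 (by positivity : 0 ≤ 6 * h⁻¹)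
    have k3 : 6 * h⁻¹ * (√(P₀ * PA) * h ^ 2) = 6 * √(P₀ * PA) * h := by field_simp
    rw [k3] at k2
    have k4 : 6 * √(P₀ * PA) * h ≤ κ * h := by
      refine mul_le_mul_of_nonneg_right ?_ ph.le
      rw [hκ]
      linarith
    linarith
  · set h := cB / 2 ^ (b - 1) with hh
    have ph : 0 < h := by positivity
    have pA : 0 < cA / 2 ^ (a - 1) := by positivity
    have pC : 0 < cC / 2 ^ (e - 1) := by positivity
    have hτ : h ≤ τ := (lvB b).trans hτB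
    have r1 : RP N s (cA / 2 ^ (a - 1)) h FA FB ≤ P₀ * h ^ 2 :=
      (RP_mono pA ph h1 le_rfl).trans (hAB h ph hτ)
    have r2 : RP N s h (cC / 2 ^ (e - 1)) FB FC ≤ PB * h ^ 2 :=
      (RP_mono ph pC le_rfl h2).trans (hBC h ph hτ)
    refine (UN_B hA hB hC capA capB capC a b e le_rfl le_rfl).trans (add_le_add le_rfl ?_)
    rw [← hh]
    have k1 := key ph hP₀ hPB RP_nonneg RP_nonneg r1 r2
    have k2 := mul_le_mul_of_nonneg_left k1 (by positivity : 0 ≤ 6 * h⁻¹)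
    have k3 : 6 * h⁻¹ * (√(P₀ * PB) * h ^ 2) = 6 * √(P₀ * PB) * h := by field_simp
    rw [k3] at k2
    have k4 : 6 * √(P₀ * PB) * h ≤ κ * h := by
      refine mul_le_mul_of_nonneg_right ?_ ph.le
      rw [hκ]
      linarith
    linarith
  · set x := cC / 2 ^ (e - 1) with hx
    have px : 0 < x := by positivity
    set h := x / θ with hh
    have ph : 0 < h := by positivity
    have ex : x = θ * h := by rw [hh]; field_simp
    have hτ : h ≤ τ := by rw [hh, div_le_iff₀ hθ]; linarith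
    have pA : 0 < cA / 2 ^ (a - 1) := by positivity
    have pB : 0 < cB / 2 ^ (b - 1) := by positivity
    have g1 : cA / 2 ^ (a - 1) ≤ h := by rw [hh, le_div_iff₀ hθ]; linarith
    have g2 : cB / 2 ^ (b - 1) ≤ h := by rw [hh, le_div_iff₀ hθ]; linarith
    have r1 : RP N s (cB / 2 ^ (b - 1)) x FB FC ≤ PB * h ^ 2 :=
      (RP_mono pB px g2 ex.le).trans (hBC h ph hτ)
    have r2 : RP N s x (cA / 2 ^ (a - 1)) FC FA ≤ PA * h ^ 2 :=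
      (RP_mono px pA ex.le g1).trans (hCA h ph hτ)
    refine (UN_C hA hB hC capA capB capC a b e le_rfl le_rfl).trans (add_le_add le_rfl ?_)
    rw [← hx]
    have k1 := key ph hPB hPA RP_nonneg RP_nonneg r1 r2
    rw [mul_comm PB PA] at k1
    have k2 := mul_le_mul_of_nonneg_left k1 (by positivity : 0 ≤ 6 * x⁻¹)
    have k3 : 6 * x⁻¹ * (√(PA * PB) * h ^ 2) = 6 * (√(PA * PB) / θ) * h := by
      rw [ex]
      field_simp
    rw [k3] at k2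
    have k4 : 6 * (√(PA * PB) / θ) * h ≤ κ * h := by
      refine mul_le_mul_of_nonneg_right ?_ ph.le
      rw [hκ]
      linarith
    linarith
  · set x := cC / 2 ^ (e - 1) with hx
    have px : 0 < x := by positivity
    have pA : 0 < cA / 2 ^ (a - 1) := by positivity
    have pB : 0 < cB / 2 ^ (b - 1) := by positivity
    refine (UN_C hA hB hC capA capB capC a b e le_rfl le_rfl).trans (add_le_add le_rfl ?_)
    rw [← hx]
    have r1 : RP N s (cB / 2 ^ (b - 1)) x FB FC ≤ RP N s cB x FB FC :=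
      RP_mono pB px (lvB b) le_rfl
    have r2 : RP N s x (cA / 2 ^ (a - 1)) FC FA ≤ RP N s x cA FC FA :=
      RP_mono px pA le_rfl (lvA a)
    have k1 : √(RP N s (cB / 2 ^ (b - 1)) x FB FC * RP N s x (cA / 2 ^ (a - 1)) FC FA) ≤ κ' * x :=
      (Real.sqrt_le_sqrt (mul_le_mul r1 r2 RP_nonneg RP_nonneg)).trans (hT x h0.le (lvC e))
    have k2 := mul_le_mul_of_nonneg_left k1 (by positivity : 0 ≤ 6 * x⁻¹)
    have k3 : 6 * x⁻¹ * (κ' * x) = 6 * κ' := by field_simp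
    rw [k3] at k2
    linarith

end

end

end Vale.Agent.P141.H609
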