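import Vale.Agent.P141.H609.AStep
import Vale.Agent.P141.H338.Lab2

/-!
# P141, line W: the lowering against an arbitrary matrix with the pair sum of paths

`lower2` with the pair sum of `A` (fourth powers) and `C` (squares) from `pairE42`, without and
with labels on the second variable of `C`.
-/

namespace Vale.Agent.P141.H609

open Finset Matrix Vale.Agent.P075 Vale.Agent.P141.PL Vale.Agent.P141.PL.H588
open Vale.Agent.P141.PL.H804 Vale.Agent.P141.H736 Vale.Agent.P141.H958 Vale.Agent.P141.H338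

noncomputable section

open scoped Classical

section

variable {N : ℕ} {R S T : ℤ} {c : ℕ → ℤ} {Q Q' : ℕ → ℤ → ℤ → Prop} {F H : ℕ → ℤ → ℤ → ℝ}
  {G D cP : ℝ}

/-- **Balanced pair estimate** for paths, fourth powers against squares, no logarithm. -/
theorem pairE42_bal (hc : Pl c) (hP : 1 ≤ cP) (hF : S4E N R S Q F G cP)
    (hH : L2E N T S Q' H D) (hG : 0 < G) (hD : 0 < D) {μ ν : ℝ} (hμ : 0 < μ) (hν : 0 < ν) :
    prs N R S T c (wp μ F) (wp ν H) ≤ 8800 * cP * max (ν * D) √(μ ^ 2 * G * (ν * D)) := by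
  set a := μ ^ 2 * G with ha
  set b := ν * D with hb
  have ha0 : 0 < a := by positivity
  have hb0 : 0 < b := by positivity
  rcases le_total a b with hab | hab
  · have h2 := pairE42 hc hP (hF.smul hμ.le) (hH.smul hν.le)
    rw [← ha, ← hb] at h2
    refine h2.trans ?_
    have h6 := le_max_left b √(a * b)
    have h7 : 4400 * cP * (a + b) ≤ 8800 * cP * b := by nlinarith
    exact h7.trans (mul_le_mul_of_nonneg_left h6 (by positivity))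
  · set θ := √(b / a) with hθ
    have hθ0 : 0 < θ := Real.sqrt_pos.2 (by positivity)
    have hθ1 : θ ≤ 1 := Real.sqrt_le_one.mpr ((div_le_one ha0).2 hab)
    have hθ2 : θ ^ 2 = b / a := Real.sq_sqrt (by positivity)
    have h1 := prs_theta_le N T S R c hμ.le hθ0.le hθ1 (wp ν H) F
    rw [prs_comm N T S R c (wp ν H) (wp μ F), prs_comm N T S R c (wp ν H) (wp (θ * μ) F)] at h1
    have h2 := pairE42 hc hP (hF.smul (mul_nonneg hθ0.le hμ.le)) (hH.smul hν.le)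
    have e : (θ * μ) ^ 2 * G = b := by
      rw [mul_pow, hθ2, mul_assoc, ← ha]
      field_simp
    rw [e, ← hb] at h2
    have h3 : prs N R S T c (wp μ F) (wp ν H) ≤ (8800 * cP * b) / θ := by
      rw [le_div_iff₀ hθ0]
      linarith
    refine h3.trans ?_
    rw [mul_div_assoc, hθ, div_sqrt_div hb0 ha0, mul_comm b a]
    exact mul_le_mul_of_nonneg_left (le_max_right _ _) (by positivity)

end

section

variable {N : ℕ} {R : Pt} {c : ℕ → ℤ} {A C : ℕ → ℤ → ℤ → ℝ} {cA cC : ℝ}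
  {s : ℕ → Finset Pt} {W : (k : ℕ) → Pt → Matrix (Ix k) (Ix k) ℝ}
  {QA QC : ℕ → ℤ → ℤ → Prop} {GA EC cP : ℝ}

/-- **REGION 1**: arbitrary `W`, paths `A` (fourth powers) and `C` (squares). -/
theorem region1 (hc : Pl c) (hs : ∀ k ∈ Icc 1 N, s k ⊆ bx3 N R k (c k)) (hA : 0 < cA)
    (hC : 0 < cC) (capC : ∀ k ∈ Icc 1 N, ∀ m ∈ s k, Cap k m.1 m.2.2 cC (C k)) (hP : 1 ≤ cP)
    (sA : S4E N R.1 R.2.1 QA A GA cP) (sC : L2E N R.1 R.2.2 QC C EC) (hGA : 0 < GA)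
    (hEC : 0 < EC) {w : ℝ}
    (hw : ∑ k ∈ Icc 1 N, ∑ m ∈ s k, (4 ^ k : ℝ)⁻¹ * (W k m * (W k m)ᵀ).trace ≤ w)
    {ρ σ κC Z : ℝ} (hρ : 0 < ρ) (hσ : 0 < σ) (hκC : 0 ≤ κC)
    (hZ : ∀ a e, cA / 2 ^ (a - 1) < σ → UW N s cA cC A C W a e ≤ Z)
    (hV : ∀ a e, σ ≤ cA / 2 ^ (a - 1) → ρ * (cA / 2 ^ (a - 1)) < cC / 2 ^ (e - 1) →
      VW N s cA cC A C W a e ≤ κC) {LA LC : ℕ} (lA : cA / 2 ^ (LA - 1) < σ)
    (lC : cC / 2 ^ (LC - 1) ≤ ρ * σ) :
    ∑ k ∈ Icc 1 N, ∑ m ∈ s k, |(2 ^ k : ℝ)⁻¹ *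
        (W k m * hd k * bl k (C k) m.1 m.2.2).trace| ≤
      6 * √(w * (8800 * cP * max EC (ρ / σ * √(GA * EC)))) * LA + κC * LC + Z := by
  refine lower2 hs hA hC capC (κ := 8800 * cP) (by positivity) hw (fun a e => ?_) hρ hσ hκC hZ hV
    lA lC
  refine (pairE42_bal hc hP sA.swap sC.swap hGA hEC (lv_pos hA a) (lv_pos hC e)).trans ?_
  rw [lv_sq, lv_one]

end

section labels

variable {N L : ℕ} {R : Pt} {c : ℕ → ℤ} {A : ℕ → ℤ → ℤ → ℝ} {C : ℕ → ℤ → ℤ → ℤ → ℝ}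
  {cA cC : ℝ} {s : ℕ → Finset Pt} {W : (k : ℕ) → Pt → Matrix (Ix k) (Ix k) ℝ}
  {QA QC : ℕ → ℤ → ℤ → Prop} {GA EC cP : ℝ}

/-- sums over the nodes on the fine grid -/
theorem sum_shs (N L : ℕ) (s : ℕ → Finset Pt) (f : ℕ → Pt → ℝ) :
    ∑ k ∈ Icc 1 (N + L), ∑ m ∈ shs L s k, f k m =
      ∑ k ∈ Icc 1 N, ∑ m ∈ s k, f (k + L) m := by
  rw [sum_Icc_shift N L]
  · refine sum_congr rfl fun k hk => ?_
    rw [shs_add s (mem_Icc.1 hk).1]
  · intro k hk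
    unfold shs
    rw [if_neg (by omega), sum_empty]

/-- **REGION 1 with labels** (`L` digits, label on the second variable of `C`), arbitrary `W`. -/
theorem region1_lab (hc : Pl c) (hs : ∀ k ∈ Icc 1 N, s k ⊆ bx3 N R k (c k)) (hA : 0 < cA)
    (hC : 0 < cC) (capC : ∀ k ∈ Icc 1 N, ∀ m ∈ s k, CapR L k m.1 m.2.2 cC (C k)) (hP : 1 ≤ cP)
    (sA : S4E N R.1 R.2.1 QA A GA cP) (hC0 : C 0 = 0)
    (pC : ∀ l ∈ lbs L, Path N R.1 R.2.2 QC (fun k => C k l))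
    (oC : ∑ l ∈ lbs L, pwr N R.1 R.2.2 QC (fun k => C k l) ≤ EC) (hGA : 0 < GA)
    (hEC : 0 < EC) {w : ℝ}
    (hw : ∑ k ∈ Icc 1 N, ∑ m ∈ s k,
      (4 ^ (k + L) : ℝ)⁻¹ * (W (k + L) m * (W (k + L) m)ᵀ).trace ≤ w)
    {ρ σ κC Z : ℝ} (hρ : 0 < ρ) (hσ : 0 < σ) (hκC : 0 ≤ κC)
    (hZ : ∀ a e, cA / 2 ^ (a - 1) < σ → UW (N + L) (shs L s) cA cC
      (shF L fun k => dup L (A k)) (shF L fun k => encR L (C k)) W a e ≤ Z)
    (hV : ∀ a e, σ ≤ cA / 2 ^ (a - 1) → ρ * (cA / 2 ^ (a - 1)) < cC / 2 ^ (e - 1) →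
      VW (N + L) (shs L s) cA cC
        (shF L fun k => dup L (A k)) (shF L fun k => encR L (C k)) W a e ≤ κC)
    {LA LC : ℕ} (lA : cA / 2 ^ (LA - 1) < σ) (lC : cC / 2 ^ (LC - 1) ≤ ρ * σ) :
    ∑ k ∈ Icc 1 N, ∑ m ∈ s k, |(2 ^ (k + L) : ℝ)⁻¹ *
        (W (k + L) m * hd (k + L) * bl (k + L) (encR L (C k)) m.1 m.2.2).trace| ≤
      6 * √(w * (8800 * cP * (4 ^ L * max EC (ρ / σ * √(GA * EC))))) * LA + κC * LC + Z := by
  have hP0 : 0 ≤ cP := by linarith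
  have h := region1 (W := W) (shc_pl (L := L) hc) (shs_sub (L := L) hs) hA hC
    (cap_shF (p := fun m => m.1) (q := fun m => m.2.2) fun k hk m hm =>
      cap_encR (capC k hk m hm)) hP (S4E_dup (L := L) hP0 sA) (L2E_encR hC0 pC oC)
    (by positivity) (by positivity)
    (w := w) (by rw [sum_shs N L s fun k m => (4 ^ k : ℝ)⁻¹ * (W k m * (W k m)ᵀ).trace]; exact hw)
    hρ hσ hκC hZ hV lA lC
  rw [sum_shs N L s fun k m => |(2 ^ k : ℝ)⁻¹ *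
    (W k m * hd k * bl k (shF L (fun k => encR L (C k)) k) m.1 m.2.2).trace|] at h
  simp only [shF_add] at h
  refine h.trans (le_of_eq ?_)
  have e : √(4 ^ L * GA * (4 ^ L * EC)) = 4 ^ L * √(GA * EC) := sqrt_four_pow L GA EC
  rw [e, mul_max_of_nonneg _ _ (by positivity : (0 : ℝ) ≤ 4 ^ L),
    show ρ / σ * (4 ^ L * √(GA * EC)) = 4 ^ L * (ρ / σ * √(GA * EC)) by ring]

end labels

end

end Vale.Agent.P141.H609
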