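import Vale.Agent.P141.H609.Z2
import Vale.Agent.P141.H958.PairsE

/-!
# P141, line W: lowering the three functions with a node operator

`z3`: paths `A`, `B`, `C` with square energies, `S` a contraction at every node.  The function with
the highest level is the centre of the step.  Above `σ₀` the pair `(C, S B)` is bounded by its
uncapped sum `Q`, below `σ₀` by `κ` times the square of the level, so nothing depends on the number
of levels below `σ₀`.
-/

namespace Vale.Agent.P141.H609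

open Finset Matrix Vale.Agent.P075 Vale.Agent.P141.PL Vale.Agent.P141.PL.H588
open Vale.Agent.P141.PL.H804 Vale.Agent.P141.H958

noncomputable section

/-! ### geometric sums of the levels -/

theorem lev_pos {x : ℝ} (hx : 0 < x) (a : ℕ) : 0 < x / 2 ^ (a - 1) := by positivity

theorem lev_anti {x : ℝ} (hx : 0 ≤ x) {i j : ℕ} (h : i ≤ j) :
    x / 2 ^ (j - 1) ≤ x / 2 ^ (i - 1) :=
  div_le_div_of_nonneg_left hx (by positivity)
    (pow_le_pow_right₀ (by norm_num) (by omega))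

theorem lev_sum_succ {x : ℝ} (a L : ℕ) :
    ∑ j ∈ range L, x / 2 ^ ((a + 1 + j) - 1) ≤ 2 * (x / 2 ^ ((a + 1) - 1)) -
      x / 2 ^ ((a + 1) - 1) * 2 * (2 ^ L)⁻¹ := by
  induction L with
  | zero => simp; linarith
  | succ L ih =>
    rw [sum_range_succ]
    have e : x / 2 ^ ((a + 1 + L) - 1) = x / 2 ^ ((a + 1) - 1) * (2 ^ L)⁻¹ := by
      rw [show a + 1 + L - 1 = a + L by omega, show a + 1 - 1 = a by omega, pow_add]
      field_simp
    rw [e]
    have e2 : ((2 : ℝ) ^ (L + 1))⁻¹ = (2 ^ L)⁻¹ / 2 := by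
      rw [pow_succ]
      field_simp
    rw [e2]
    linarith

theorem lev_sum {x : ℝ} (hx : 0 ≤ x) (a L : ℕ) :
    ∑ j ∈ range L, x / 2 ^ ((a + j) - 1) ≤ 3 * (x / 2 ^ (a - 1)) := by
  cases a with
  | succ a =>
    refine (lev_sum_succ a L).trans ?_
    have h1 : 0 ≤ x / 2 ^ ((a + 1) - 1) := by positivity
    have h2 : 0 ≤ x / 2 ^ ((a + 1) - 1) * 2 * ((2 : ℝ) ^ L)⁻¹ := by positivity
    linarith
  | zero =>
    cases L with
    | zero => simp; positivity
    | succ L =>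
      rw [sum_range_succ']
      have h1 := lev_sum_succ (x := x) 0 L
      have h2 : 0 ≤ x / 2 ^ ((0 + 1) - 1) * 2 * ((2 : ℝ) ^ L)⁻¹ := by positivity
      have h3 : ∑ j ∈ range L, x / 2 ^ ((0 + (j + 1)) - 1) =
          ∑ j ∈ range L, x / 2 ^ ((0 + 1 + j) - 1) :=
        sum_congr rfl fun j _ => by rw [show 0 + (j + 1) = 0 + 1 + j by ring]
      rw [h3]
      simp only [zero_add, Nat.sub_self, pow_zero, div_one, Nat.zero_sub, add_zero] at *
      linarith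

/-- The sum of the costs: `y s` below `σ`, `z` above. -/
theorem cost_sum {x σ y z : ℝ} (hx : 0 ≤ x) (hσ : 0 ≤ σ) (hy : 0 ≤ y) (hz : 0 ≤ z) {L₀ : ℕ}
    (hL : x / 2 ^ (L₀ - 1) ≤ σ) (a L : ℕ) :
    ∑ j ∈ range L, (if x / 2 ^ ((a + j) - 1) ≤ σ then y * (x / 2 ^ ((a + j) - 1)) else z) ≤
      z * (L₀ - a : ℕ) + y * (3 * σ) := by
  induction L generalizing a with
  | zero => simp; positivity
  | succ L ih =>
    by_cases h : x / 2 ^ (a - 1) ≤ σ
    · have h1 : ∀ j ∈ range (L + 1), (if x / 2 ^ ((a + j) - 1) ≤ σ then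
          y * (x / 2 ^ ((a + j) - 1)) else z) = y * (x / 2 ^ ((a + j) - 1)) := fun j _ =>
        if_pos ((lev_anti hx (Nat.le_add_right a j)).trans h)
      rw [sum_congr rfl h1, ← mul_sum]
      have h2 := lev_sum hx a (L + 1)
      have h3 := mul_le_mul_of_nonneg_left (h2.trans (mul_le_mul_of_nonneg_left h
        (by norm_num : (0 : ℝ) ≤ 3))) hy
      have h4 : 0 ≤ z * ((L₀ - a : ℕ) : ℝ) := by positivity
      linarith
    · have ha : a < L₀ := by
        by_contra h1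
        exact h ((lev_anti hx (not_lt.1 h1)).trans hL)
      rw [sum_range_succ', add_zero, if_neg h]
      have h3 : ∑ j ∈ range L, (if x / 2 ^ ((a + (j + 1)) - 1) ≤ σ then
          y * (x / 2 ^ ((a + (j + 1)) - 1)) else z) =
          ∑ j ∈ range L, (if x / 2 ^ ((a + 1 + j) - 1) ≤ σ then
          y * (x / 2 ^ ((a + 1 + j) - 1)) else z) :=
        sum_congr rfl fun j _ => by rw [show a + (j + 1) = a + 1 + j by ring]
      rw [h3]
      have h4 := ih (a + 1)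
      have h5 : ((L₀ - a : ℕ) : ℝ) = (L₀ - (a + 1) : ℕ) + 1 := by
        rw [show L₀ - a = (L₀ - (a + 1)) + 1 by omega]
        push_cast
        ring
      rw [h5]
      linarith

theorem lv_inv {x : ℝ} (hx : 0 < x) (a : ℕ) : lv x a = ((x / 2 ^ (a - 1)) ^ 2)⁻¹ := by
  rw [← inv_lv hx a, inv_inv]

/-- The cost of a step when the centre (level `y`) is not below the other function (level `x`). -/
theorem highest_cost {x y DA DB D q : ℝ} (hx : 0 < x) (hxy : x ≤ y) (hDB : 0 ≤ DB)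
    (hD : DA + DB ≤ D) (hq : 0 ≤ q) :
    x * √(550 * ((x ^ 2)⁻¹ * DA + (y ^ 2)⁻¹ * DB) * q) ≤ √(550 * D * q) := by
  have hy : 0 < y := hx.trans_le hxy
  rw [← Real.sqrt_sq hx.le, ← Real.sqrt_mul (by positivity)]
  rw [Real.sqrt_sq hx.le]
  refine Real.sqrt_le_sqrt ?_
  have e : x ^ 2 * (550 * ((x ^ 2)⁻¹ * DA + (y ^ 2)⁻¹ * DB) * q) =
      550 * (DA + x ^ 2 / y ^ 2 * DB) * q := by
    field_simp
  rw [e]
  have h1 : x ^ 2 / y ^ 2 ≤ 1 := by
    rw [div_le_one (by positivity)]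
    exact pow_le_pow_left₀ hx.le hxy 2
  have h0 : 0 ≤ x ^ 2 / y ^ 2 := by positivity
  have h2 : DA + x ^ 2 / y ^ 2 * DB ≤ D := by nlinarith
  nlinarith [mul_le_mul_of_nonneg_right h2 hq]

/-- The cost of the `A`-step when `A` is the highest function. -/
theorem highest_cost' {x y z DA DB DC D : ℝ} (hx : 0 < x) (hy : 0 < y) (hz : 0 < z)
    (hyx : y ≤ x) (hzx : z ≤ x) (hDA : 0 ≤ DA) (hDB : 0 ≤ DB) (hDC : 0 ≤ DC)
    (hD : DA + DB ≤ D) (hD' : DA + DC ≤ D) :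
    x * y * z * √(550 * ((x ^ 2)⁻¹ * DA + (y ^ 2)⁻¹ * DB) *
      (550 * ((x ^ 2)⁻¹ * DA + (z ^ 2)⁻¹ * DC))) ≤ 550 * D * x := by
  have hD0 : 0 ≤ D := by linarith
  have e : x * y * z * √(550 * ((x ^ 2)⁻¹ * DA + (y ^ 2)⁻¹ * DB) *
      (550 * ((x ^ 2)⁻¹ * DA + (z ^ 2)⁻¹ * DC))) =
      x * √((550 * (y ^ 2 / x ^ 2 * DA + DB)) * (550 * (z ^ 2 / x ^ 2 * DA + DC))) := by
    rw [show x * y * z = x * (y * z) by ring, mul_assoc x (y * z)]
    congr 1
    have hyz : 0 ≤ y * z := by positivity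
    conv_lhs => rw [← Real.sqrt_sq hyz, ← Real.sqrt_mul (sq_nonneg _)]
    congr 1
    field_simp
  rw [e]
  have h1 : y ^ 2 / x ^ 2 ≤ 1 := by
    rw [div_le_one (by positivity)]
    exact pow_le_pow_left₀ hy.le hyx 2
  have h2 : z ^ 2 / x ^ 2 ≤ 1 := by
    rw [div_le_one (by positivity)]
    exact pow_le_pow_left₀ hz.le hzx 2
  have h1' : 0 ≤ y ^ 2 / x ^ 2 := by positivity
  have h2' : 0 ≤ z ^ 2 / x ^ 2 := by positivity
  have h3 : 550 * (y ^ 2 / x ^ 2 * DA + DB) ≤ 550 * D := by nlinarith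
  have h4 : 550 * (z ^ 2 / x ^ 2 * DA + DC) ≤ 550 * D := by nlinarith
  have h5 : √((550 * (y ^ 2 / x ^ 2 * DA + DB)) * (550 * (z ^ 2 / x ^ 2 * DA + DC))) ≤
      550 * D := by
    rw [show 550 * D = √((550 * D) * (550 * D)) by rw [Real.sqrt_mul_self (by positivity)]]
    refine Real.sqrt_le_sqrt (mul_le_mul h3 h4 (by positivity) (by positivity))
  calc x * √((550 * (y ^ 2 / x ^ 2 * DA + DB)) * (550 * (z ^ 2 / x ^ 2 * DA + DC)))
      ≤ x * (550 * D) := mul_le_mul_of_nonneg_left h5 hx.le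
    _ = 550 * D * x := by ring

section

variable {N : ℕ} {R : Pt} {c : ℕ → ℤ} {A B C : ℕ → ℤ → ℤ → ℝ} {cA cB cC : ℝ}
  {s : ℕ → Finset Pt} {S : (k : ℕ) → Pt → Matrix (Ix k) (Ix k) ℝ}
  {QA QB QC : ℕ → ℤ → ℤ → Prop} {DA DB DC : ℝ}

/-- The static pair `(A, B)` at two levels. -/
theorem prs_AB (hc : Pl c) (hA : 0 < cA) (hB : 0 < cB) (eA : L2E N R.1 R.2.1 QA A DA)
    (eB : L2E N R.2.1 R.2.2 QB B DB) (a b : ℕ) :
    prs N R.1 R.2.1 R.2.2 c (wp (lv cA a) A) (wp (lv cB b) (sp B)) ≤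
      550 * (((cA / 2 ^ (a - 1)) ^ 2)⁻¹ * DA + ((cB / 2 ^ (b - 1)) ^ 2)⁻¹ * DB) := by
  have h := pairE22 hc (eA.smul (lv_pos hA a).le) (eB.swap.smul (lv_pos hB b).le)
  rwa [lv_inv hA, lv_inv hB] at h ⊢

/-- The static pair `(A, C)` at two levels. -/
theorem prs_AC (hc : Pl c) (hA : 0 < cA) (hC : 0 < cC) (eA : L2E N R.1 R.2.1 QA A DA)
    (eC : L2E N R.1 R.2.2 QC C DC) (a e : ℕ) :
    prs N R.2.1 R.1 R.2.2 c (wp (lv cA a) (sp A)) (wp (lv cC e) (sp C)) ≤
      550 * (((cA / 2 ^ (a - 1)) ^ 2)⁻¹ * DA + ((cC / 2 ^ (e - 1)) ^ 2)⁻¹ * DC) := by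
  have h := pairE22 hc (eA.swap.smul (lv_pos hA a).le) (eC.swap.smul (lv_pos hC e).le)
  rwa [lv_inv hA, lv_inv hC] at h ⊢

/-- The left factors at a later index through the one at an earlier index. -/
theorem lo_fac {n : Type*} [Fintype n] [DecidableEq n] {μ : ℝ} (hμ : 0 ≤ μ) (F : Matrix n n ℝ)
    {a₀ a : ℕ} (h : a₀ ≤ a) :
    ∃ L : Matrix n n ℝ, (1 - Lᵀ * L).PosSemidef ∧ lo μ F a = L * lo μ F a₀ := by
  cases a₀ with
  | zero => exact ⟨lo μ F a, one_sub_lo_sq hμ F a, by simp [lo]⟩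
  | succ i =>
    obtain ⟨j, rfl⟩ : ∃ j, a = j + 1 := ⟨a - 1, by omega⟩
    have hij : i ≤ j := by omega
    have hX := gramR_psd (show 0 ≤ 4 ^ i * μ by positivity) F
    set X := gramR (4 ^ i * μ) F with hXd
    set c : ℝ := 4 ^ (j - i) with hc
    have c1 : 1 ≤ c := one_le_pow₀ (by norm_num)
    have c0 : 0 < c := by linarith
    have e1 : gramR (4 ^ j * μ) F = c • X := by
      rw [hXd, gramR, gramR, smul_smul, hc]
      congr 1
      rw [← mul_assoc, ← pow_add]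
      congr 2
      omega
    have hcX : (c • X).PosSemidef := hX.smul c0.le
    set θ : ℝ := (c - 1) / c with hθ
    have θ0 : 0 ≤ θ := div_nonneg (by linarith) c0.le
    have θ1 : θ ≤ 1 := by rw [hθ, div_le_one c0]; linarith
    have pL : (1 - θ • phi (c • X)).PosSemidef := by
      have e : 1 - θ • phi (c • X) = (1 - phi (c • X)) + (1 - θ) • phi (c • X) := by module
      rw [e]
      exact (one_sub_phi_psd hcX).add ((phi_psd hcX).smul (by linarith))
    have pL1 : (1 - (1 - θ • phi (c • X))).PosSemidef := by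
      rw [sub_sub_cancel]
      exact (phi_psd hcX).smul θ0
    refine ⟨1 - θ • phi (c • X), ?_, ?_⟩
    · rw [psd_isSymm pL]
      have h2 := sq_le_self pL pL1
      have h3 := h2.add pL1
      convert h3 using 1
      abel
    · simp only [lo]
      rw [e1, ← hXd]
      have h1 : res (c • X) * (c • X) = phi (c • X) := res_mul_phi hcX
      have h2 : (1 : Matrix n n ℝ) - θ • phi (c • X) = res (c • X) * (1 + X) := by
        have h3 : res (c • X) * X = c⁻¹ • phi (c • X) := by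
          rw [← h1, Matrix.mul_smul, smul_smul, inv_mul_cancel₀ c0.ne', one_smul]
        rw [Matrix.mul_add, Matrix.mul_one, h3]
        have h4 : (1 : Matrix n n ℝ) = res (c • X) + phi (c • X) := by
          rw [phi]
          abel
        have h5 : θ = 1 - c⁻¹ := by rw [hθ]; field_simp
        rw [h5]
        conv_lhs => rw [h4]
        module
      rw [h2, Matrix.mul_assoc, one_add_mul_res hX, Matrix.mul_one]

/-- The pair sum decreases in both indices. -/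
theorem LP_anti {b₀ b e₀ e : ℕ} (hb : b₀ ≤ b) (he : e₀ ≤ e) :
    LP N s cB cC B C S b e ≤ LP N s cB cC B C S b₀ e₀ := by
  refine sum_le_sum fun k _ => sum_le_sum fun m _ =>
    mul_le_mul_of_nonneg_left ?_ (by positivity)
  have h₁ : 0 ≤ (cB ^ 2)⁻¹ * ((4 : ℝ) ^ k)⁻¹ := by positivity
  have h₂ : 0 ≤ (cC ^ 2)⁻¹ * ((4 : ℝ) ^ k)⁻¹ := by positivity
  obtain ⟨L, hL, eL⟩ := lo_fac h₂ (bl k (C k) m.1 m.2.2) he
  obtain ⟨M, hM, eM⟩ := lo_fac h₁ (bl k (B k) m.2.1 m.2.2) hb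
  have h := trace_contr_le (Z := ZL cB cC B C S b₀ e₀ k m) hL hM
  have e1 : ZL cB cC B C S b e k m = L * ZL cB cC B C S b₀ e₀ k m * Mᵀ := by
    rw [ZL, CL, BL, ← lo_mul h₂, ← lo_mul h₁ (bl k (B k) m.2.1 m.2.2) b, eL, eM, ZL, CL, BL,
      ← lo_mul h₂, ← lo_mul h₁ (bl k (B k) m.2.1 m.2.2) b₀]
    simp only [transpose_mul, Matrix.mul_assoc]
  rw [e1]
  exact h

/-- **Lowering of the three functions with a node operator**: the highest function is the
centre; the gain is only needed from the starting level `e₀` of `C` on. -/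
theorem z3' (hc : Pl c) (hs : ∀ k ∈ Icc 1 N, s k ⊆ bx3 N R k (c k)) (hA : 0 < cA) (hB : 0 < cB)
    (hC : 0 < cC)
    (capA : ∀ k ∈ Icc 1 N, ∀ m ∈ s k, Cap k m.1 m.2.1 cA (A k))
    (capB : ∀ k ∈ Icc 1 N, ∀ m ∈ s k, Cap k m.2.1 m.2.2 cB (B k))
    (capC : ∀ k ∈ Icc 1 N, ∀ m ∈ s k, Cap k m.1 m.2.2 cC (C k))
    (hS : ∀ k ∈ Icc 1 N, ∀ m ∈ s k, (1 - (S k m)ᵀ * S k m).PosSemidef)
    (eA : L2E N R.1 R.2.1 QA A DA) (eB : L2E N R.2.1 R.2.2 QB B DB)
    (eC : L2E N R.1 R.2.2 QC C DC) {D Q κ σ σ₀ : ℝ} (hD : DA + DB ≤ D) (hD' : DA + DC ≤ D)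
    (a₀ e₀ : ℕ) (hQ : LP N s cB cC B C S 0 e₀ ≤ Q) (hκ0 : 0 ≤ κ) (hσ₀ : 0 ≤ σ₀)
    (hκ : ∀ b e, cB / 2 ^ (b - 1) ≤ σ₀ → cC / 2 ^ (e - 1) ≤ σ₀ →
      LP N s cB cC B C S b e ≤ κ * max (cB / 2 ^ (b - 1)) (cC / 2 ^ (e - 1)) ^ 2)
    {LB LC : ℕ} (lB : cB / 2 ^ (LB - 1) ≤ σ₀) (lC : cC / 2 ^ (LC - 1) ≤ σ₀)
    (ha : cA / 2 ^ (a₀ - 1) ≤ σ) :
    U3 N s cA cB cC A B C S a₀ 0 e₀ ≤
      9900 * D * σ + 6 * √(550 * D * Q) * (LB + LC) + 36 * √(550 * D * κ) * σ₀ := by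
  have nDA : 0 ≤ DA := (pwr_nonneg ..).trans eA.own
  have nDB : 0 ≤ DB := (pwr_nonneg ..).trans eB.own
  have nDC : 0 ≤ DC := (pwr_nonneg ..).trans eC.own
  have nD : 0 ≤ D := by linarith
  have nQ : 0 ≤ Q := (LP_nonneg 0 e₀).trans hQ
  set y : ℝ := 6 * √(550 * D * κ) with hy
  set z : ℝ := 6 * √(550 * D * Q) with hz
  have y0 : 0 ≤ y := by positivity
  have z0 : 0 ≤ z := by positivity
  set κA : ℕ → ℝ := fun a => 3300 * D * (cA / 2 ^ (a - 1)) with hκA
  set κB : ℕ → ℝ := fun b => if cB / 2 ^ (b - 1) ≤ σ₀ then y * (cB / 2 ^ (b - 1)) else z with hκB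
  set κC : ℕ → ℝ := fun e => if cC / 2 ^ (e - 1) ≤ σ₀ then y * (cC / 2 ^ (e - 1)) else z with hκC
  have nA : ∀ j, 0 ≤ κA j := fun j => by positivity
  have nB : ∀ j, 0 ≤ κB j := fun j => by
    simp only [hκB]
    split_ifs
    · positivity
    · exact z0
  have nC : ∀ j, 0 ≤ κC j := fun j => by
    simp only [hκC]
    split_ifs
    · positivity
    · exact z0
  obtain ⟨K, _, hK⟩ := U3_tail (S := S) hA hB hC capA capB capC hS
  have kap : ∀ {x q : ℝ}, 0 ≤ x → q ≤ κ * x ^ 2 → 6 * √(550 * D * q) ≤ y * x := by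
    intro x q hx hq
    have h1 : √(550 * D * q) ≤ √(550 * D * κ) * x := by
      conv_rhs => rw [← Real.sqrt_sq hx, ← Real.sqrt_mul (by positivity)]
      refine Real.sqrt_le_sqrt ?_
      nlinarith [mul_le_mul_of_nonneg_left hq (by positivity : 0 ≤ 550 * D)]
    rw [hy]
    linarith
  have kap' : ∀ {q : ℝ}, q ≤ Q → 6 * √(550 * D * q) ≤ z := by
    intro q hq
    rw [hz]
    refine mul_le_mul_of_nonneg_left (Real.sqrt_le_sqrt ?_) (by norm_num)
    exact mul_le_mul_of_nonneg_left hq (by positivity)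
  have main := ind3 (f := U3 N s cA cB cC A B C S) nA nB nC hK (a₀ := a₀) (b₀ := 0) (e₀ := e₀)
    (fun a b e _ _ he => ?_) (SA := 9900 * D * σ) (SB := z * LB + y * (3 * σ₀))
    (SC := z * LC + y * (3 * σ₀)) (fun L => ?_) (fun L => ?_) (fun L => ?_)
  · refine main.trans (le_of_eq ?_)
    rw [hy, hz]
    ring
  · set xA := cA / 2 ^ (a - 1) with hxA
    set xB := cB / 2 ^ (b - 1) with hxB
    set xC := cC / 2 ^ (e - 1) with hxC
    have pA : 0 < xA := by positivity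
    have pB : 0 < xB := by positivity
    have pC : 0 < xC := by positivity
    have p1 := prs_AB hc hA hB eA eB a b
    have p2 := prs_AC hc hA hC eA eC a e
    rw [← hxA, ← hxB] at p1
    rw [← hxA, ← hxC] at p2
    by_cases h1 : xB ≤ xA ∧ xC ≤ xA
    · left
      refine (z2A hs hA hB hC capA capB capC hS a b e p1 p2).trans (add_le_add le_rfl ?_)
      have h2 := highest_cost' pA pB pC h1.1 h1.2 nDA nDB nDC hD hD'
      rw [← hxA, ← hxB, ← hxC, hκA]
      simp only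
      rw [← hxA]
      linarith
    · rw [not_and_or, not_le, not_le] at h1
      rcases le_or_gt xC xB with h2 | h2
      · right; left
        have hAB : xA ≤ xB := by
          rcases h1 with h1 | h1
          · exact h1.le
          · exact (h1.trans_le h2).le
        have nq := LP_nonneg (N := N) (s := s) (cB := cB) (cC := cC) (B := B) (C := C) (S := S)
          (b + 1) e
        refine (z2 hs hA hB capA capB a b e p1 (le_refl _)).trans (add_le_add le_rfl ?_)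
        have h3 := highest_cost pA hAB nDB hD nq
        rw [← hxA, hκB]
        simp only
        rw [← hxB]
        have h4 := mul_le_mul_of_nonneg_left h3 (by norm_num : (0 : ℝ) ≤ 6)
        split_ifs with h5
        · refine h4.trans (kap pB.le ?_)
          have h6 : cB / 2 ^ (b + 1 - 1) ≤ xB := lev_anti hB.le (Nat.le_succ b)
          refine (hκ (b + 1) e (h6.trans h5) (h2.trans h5)).trans ?_
          refine mul_le_mul_of_nonneg_left ?_ hκ0
          exact pow_le_pow_left₀ (le_max_of_le_right pC.le) (max_le h6 h2) 2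
        · exact h4.trans (kap' ((LP_anti (Nat.zero_le _) he).trans hQ))
      · right; right
        have hAC : xA ≤ xC := by
          rcases h1 with h1 | h1
          · exact (h1.trans h2).le
          · exact h1.le
        have nq := LP_nonneg (N := N) (s := s) (cB := cB) (cC := cC) (B := B) (C := C) (S := S)
          b (e + 1)
        refine (z2C hs hA hC capA capC a b e p2 (le_refl _)).trans (add_le_add le_rfl ?_)
        have h3 := highest_cost pA hAC nDC hD' nq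
        rw [← hxA, hκC]
        simp only
        rw [← hxC]
        have h4 := mul_le_mul_of_nonneg_left h3 (by norm_num : (0 : ℝ) ≤ 6)
        split_ifs with h5
        · refine h4.trans (kap pC.le ?_)
          have h6 : cC / 2 ^ (e + 1 - 1) ≤ xC := lev_anti hC.le (Nat.le_succ e)
          refine (hκ b (e + 1) (h2.le.trans h5) (h6.trans h5)).trans ?_
          refine mul_le_mul_of_nonneg_left ?_ hκ0
          exact pow_le_pow_left₀ (le_max_of_le_left pB.le) (max_le h2.le h6) 2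
        · exact h4.trans (kap' ((LP_anti (Nat.zero_le _) (he.trans (Nat.le_succ e))).trans hQ))
  · rw [hκA]
    simp only
    rw [← mul_sum]
    have h1 := lev_sum hA.le a₀ L
    have h2 := h1.trans (mul_le_mul_of_nonneg_left ha (by norm_num : (0 : ℝ) ≤ 3))
    have h3 := mul_le_mul_of_nonneg_left h2 (by positivity : 0 ≤ 3300 * D)
    linarith
  · have h := cost_sum hB.le hσ₀ y0 z0 lB 0 L
    simpa only [Nat.sub_zero] using h
  · refine (cost_sum hC.le hσ₀ y0 z0 lC e₀ L).trans ?_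
    have h1 : ((LC - e₀ : ℕ) : ℝ) ≤ LC := by exact_mod_cast Nat.sub_le LC e₀
    have h2 := mul_le_mul_of_nonneg_left h1 z0
    linarith

/-- `z3'` with the uncut pair sum. -/
theorem z3 (hc : Pl c) (hs : ∀ k ∈ Icc 1 N, s k ⊆ bx3 N R k (c k)) (hA : 0 < cA) (hB : 0 < cB)
    (hC : 0 < cC)
    (capA : ∀ k ∈ Icc 1 N, ∀ m ∈ s k, Cap k m.1 m.2.1 cA (A k))
    (capB : ∀ k ∈ Icc 1 N, ∀ m ∈ s k, Cap k m.2.1 m.2.2 cB (B k))
    (capC : ∀ k ∈ Icc 1 N, ∀ m ∈ s k, Cap k m.1 m.2.2 cC (C k))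
    (hS : ∀ k ∈ Icc 1 N, ∀ m ∈ s k, (1 - (S k m)ᵀ * S k m).PosSemidef)
    (eA : L2E N R.1 R.2.1 QA A DA) (eB : L2E N R.2.1 R.2.2 QB B DB)
    (eC : L2E N R.1 R.2.2 QC C DC) {D Q κ σ σ₀ : ℝ} (hD : DA + DB ≤ D) (hD' : DA + DC ≤ D)
    (hQ : LP N s cB cC B C S 0 0 ≤ Q) (hκ0 : 0 ≤ κ) (hσ₀ : 0 ≤ σ₀)
    (hκ : ∀ b e, cB / 2 ^ (b - 1) ≤ σ₀ → cC / 2 ^ (e - 1) ≤ σ₀ →
      LP N s cB cC B C S b e ≤ κ * max (cB / 2 ^ (b - 1)) (cC / 2 ^ (e - 1)) ^ 2)
    {LB LC : ℕ} (lB : cB / 2 ^ (LB - 1) ≤ σ₀) (lC : cC / 2 ^ (LC - 1) ≤ σ₀) (a₀ e₀ : ℕ)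
    (ha : cA / 2 ^ (a₀ - 1) ≤ σ) :
    U3 N s cA cB cC A B C S a₀ 0 e₀ ≤
      9900 * D * σ + 6 * √(550 * D * Q) * (LB + LC) + 36 * √(550 * D * κ) * σ₀ :=
  z3' hc hs hA hB hC capA capB capC hS eA eB eC hD hD' a₀ e₀ ((LP_le_zero 0 e₀).trans hQ) hκ0 hσ₀
    hκ lB lC ha

end

end

end Vale.Agent.P141.H609
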