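import Vale.Agent.P141.H433.LoW
import Vale.Agent.P141.H433.TailL

/-!
# The crude bound of the pair sum of `b` and the stack (hub `x1`), row traces of the nodes

`H433.lo_RP`, `H433.lo_RP_lab` with the heights replaced by `wf`, `wh` of `H433.LoW`; `x0` fixed.
-/

set_option linter.unusedSectionVars false

namespace Vale.Agent.P141.H609.RPW

open Finset Matrix Vale.Agent.P075 Vale.Agent.P141.PL Vale.Agent.P141.PL.H804
open Vale.Agent.P141.H958 Vale.Agent.P141.H103 Vale.Agent.P141.H609 Vale.Agent.P141.H822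
open Vale.Agent.P141.H338 Vale.Agent.P141.H747 Vale.Agent.P141.H433
open Vale.Agent.P141.PL.H588 (Xg hd Pl)

noncomputable section

open scoped Classical

/-! ### scaling of the numbers -/

section scale

variable {L : ℕ} {U : ℕ → ℤ → ℤ → Matrix (Ix L) (Ix L) ℝ} {F H : ℤ → ℤ → ℝ}

theorem rt_scl (σ : ℝ) (F : ℤ → ℤ → ℝ) (a : ℕ) (n x : ℤ) :
    H433.rt L (scl σ F) a n x = (σ ^ 2)⁻¹ * H433.rt L F a n x := by
  unfold H433.rt
  exact trace_scl ..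

theorem GW_smul (N : ℕ) (R S T : ℤ) (k : ℕ) (c : ℤ) (t : ℝ) (g : ℤ → ℤ → ℤ → ℝ) :
    GW N R S T k c (fun n n' m => t * g n n' m) = t * GW N R S T k c g := by
  unfold GW
  simp only [mul_sum]
  refine sum_congr rfl fun m _ => sum_congr rfl fun n _ => ?_
  split_ifs <;> ring

theorem wf_scl (σ : ℝ) (k : ℕ) : wf U (scl σ F) (scl σ H) k =
    fun n n' m => (σ ^ 2)⁻¹ * wf U F H k n n' m := by
  funext n n' m
  unfold wf
  simp only [rt_scl]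
  rw [mul_left_comm, mul_sum (a := (σ ^ 2)⁻¹)]
  congr 1
  exact sum_congr rfl fun x _ => by ring

theorem wh_scl (σ : ℝ) (N : ℕ) (S T : ℤ) (k : ℕ) :
    wh U (scl σ H) N S T k = (σ ^ 2)⁻¹ * wh U H N S T k := by
  unfold wh
  simp only [rt_scl]
  rw [mul_sum (a := (σ ^ 2)⁻¹)]
  refine sum_congr rfl fun r _ => ?_
  rw [mul_left_comm (σ ^ 2)⁻¹, mul_left_comm (σ ^ 2)⁻¹, mul_sum (a := (σ ^ 2)⁻¹)]
  refine congrArg (fun t : ℝ => (3 / 4 : ℝ) ^ r * (2 ^ (k + 1) * t)) (sum_congr rfl fun x _ => ?_)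
  rw [mul_sum (a := (σ ^ 2)⁻¹)]
  exact sum_congr rfl fun j _ => by ring

end scale

section raw

variable {L N : ℕ} {R : Pt} {c : ℕ → ℤ} {B C : ℕ → ℤ → ℤ → ℝ}
  {s : ℕ → Finset Pt} {U : ℕ → ℤ → ℤ → Matrix (Ix L) (Ix L) ℝ}

/-- **The crude bound of the pair sum with the stack, row traces of the nodes.** -/
theorem lo_RP_W {QB QC : ℕ → ℤ → ℤ → Prop} (hc : Pl c) (hs0 : ∀ k ≤ L, s k = ∅)
    (hs : ∀ k < N, s (L + (k + 1)) ⊆ bx3 (L + N) R (L + (k + 1)) (c (k + 1)))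
    {h ε w : ℝ} (hh : 0 < h) (hε : 0 < ε) (hε1 : ε ≤ 1) (hw : 0 < w) {FC : NM}
    (hFC : ∀ k < N, ∀ m ∈ s (L + (k + 1)), FC (L + (k + 1)) m =
      w • (DU U (k + 1) (k + 1) m.1 m.2.2 * (bl (L + (k + 1)) (C (L + (k + 1))) m.1 m.2.2)ᵀ))
    (hU : ∀ k < N, ∀ m ∈ s (L + (k + 1)),
      ((DU U (k + 1) (k + 1) m.1 m.2.2 * (bl (L + (k + 1)) (C (L + (k + 1))) m.1 m.2.2)ᵀ)ᵀ *
        (DU U (k + 1) (k + 1) m.1 m.2.2 * (bl (L + (k + 1)) (C (L + (k + 1))) m.1 m.2.2)ᵀ) -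
        (ε / w) ^ 2 • ((bl (L + (k + 1)) (C (L + (k + 1))) m.1 m.2.2)ᵀᵀ *
          (bl (L + (k + 1)) (C (L + (k + 1))) m.1 m.2.2)ᵀ)).PosSemidef)
    (hUc : ∀ k x n, Ct (U k x n)) {DB DC : ℝ} (eB : L2E (L + N) R.2.1 R.2.2 QB B DB)
    (eC : L2E (L + N) R.1 R.2.2 QC C DC) :
    RP (L + N) s h h (fun k m => bl k (B k) m.2.1 m.2.2) FC ≤
      10 ^ 4 * (w ^ 2 * (ε ^ 2)⁻¹) * (DB + DC + 4 ^ L *
        (∑ k ∈ range N, GW N R.2.1 R.2.2 R.1 (k + 1) (c (k + 1))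
          (wf U (B (L + (k + 1))) (C (L + (k + 1))) k) +
        ∑ k ∈ range N, wh U (C (L + (k + 1))) N R.2.2 R.1 k)) * h ^ 2 := by
  have h1 := RP_le_GW (c := c) (B := B) hs0 hs hh hε hε1 hw hFC hU
  obtain ⟨σ, hσ⟩ : ∃ σ : ℝ, σ = h / ε := ⟨_, rfl⟩
  rw [← hσ] at h1
  have σ0 : 0 < σ := by rw [hσ]; positivity
  have wz : ∀ {F : ℕ → ℤ → ℤ → ℝ}, F 0 = 0 → wp (σ ^ 2)⁻¹ F 0 = 0 := fun h => wp_zero _ h
  have w0 : (0 : ℝ) ≤ (σ ^ 2)⁻¹ := by positivity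
  have h2 := lo_pathW (L := L) (N := N) hc hUc
    (F := wp (σ ^ 2)⁻¹ B) (H := wp (σ ^ 2)⁻¹ C) (D := (σ ^ 2)⁻¹ * DB) (D' := (σ ^ 2)⁻¹ * DC)
    ⟨path_wp (σ ^ 2)⁻¹ eB.path, wz eB.zero, by
      rw [pwr_wp w0]; exact mul_le_mul_of_nonneg_left eB.own w0⟩
    ⟨path_wp (σ ^ 2)⁻¹ eC.path, wz eC.zero, by
      rw [pwr_wp w0]; exact mul_le_mul_of_nonneg_left eC.own w0⟩
  refine h1.trans ?_
  have h3 : ∑ k ∈ range N, GW N R.2.1 R.2.2 R.1 (k + 1) (c (k + 1))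
        (H433.mt U (scl σ (B (L + (k + 1)))) (scl σ (C (L + (k + 1)))) k) ≤
      10 ^ 4 * (((4 : ℝ) ^ L)⁻¹ * ((σ ^ 2)⁻¹ * DB + (σ ^ 2)⁻¹ * DC) +
        ∑ k ∈ range N, GW N R.2.1 R.2.2 R.1 (k + 1) (c (k + 1))
          (wf U (scl σ (B (L + (k + 1)))) (scl σ (C (L + (k + 1)))) k) +
        ∑ k ∈ range N, wh U (scl σ (C (L + (k + 1)))) N R.2.2 R.1 k) := h2
  simp only [wf_scl, wh_scl, GW_smul, ← mul_sum] at h3
  refine (mul_le_mul_of_nonneg_left (mul_le_mul_of_nonneg_left (mul_le_mul_of_nonneg_left h3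
    (by positivity : (0 : ℝ) ≤ 4 ^ L)) (by positivity)) (by positivity)).trans (le_of_eq ?_)
  rw [hσ, div_pow]
  field_simp
  ring

end raw

/-! ### the bound in label letters -/

section fin

variable {κ : Type*} [Fintype κ] [DecidableEq κ] {L N : ℕ} {R : Pt} {c : ℕ → ℤ}
  {b : ℕ → ℤ → ℤ → κ ⊕ κ → ℝ} {C : ℕ → ℤ → ℤ → κ → ℝ} {s : ℕ → Finset Pt} {e : κ ⊕ κ → ℤ}
  {V : ℕ → ℤ → ℤ → Matrix κ κ ℝ} {QB QC : ℕ → ℤ → ℤ → Prop}

/-- the encoded slot of `b` -/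
def eb (L : ℕ) (e : κ ⊕ κ → ℤ) (b : ℕ → ℤ → ℤ → κ ⊕ κ → ℝ) : ℕ → ℤ → ℤ → ℝ :=
  shF L fun k => encR L fun l y x => cu e (b k x y) l

/-- the encoded slot of `(C ; 0)` -/
def ec (L : ℕ) (e : κ ⊕ κ → ℤ) (C : ℕ → ℤ → ℤ → κ → ℝ) : ℕ → ℤ → ℤ → ℝ :=
  shF L fun k => encR L fun l z x => cu e (Sum.elim (C k z x) (0 : κ → ℝ)) l

/-- the embedded multiplier -/
def um (L : ℕ) (e : κ ⊕ κ → ℤ) (ε K : ℝ) (V : ℕ → ℤ → ℤ → Matrix κ κ ℝ) :
    ℕ → ℤ → ℤ → Matrix (Ix L) (Ix L) ℝ := fun k x n => emb L e (sm ε K (V k x n))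

/-- **The crude bound of the pair sum of `b` and the stack, label letters, row traces.** -/
theorem lo_RP_labW (he : Function.Injective e) (hm : ∀ i, e i ∈ lbs L) (hc : Pl c)
    (hs : ∀ k ∈ Icc 1 N, s k ⊆ bx3 N R k (c k)) (hV : ∀ k x n, Ct (V k x n))
    {h ε K : ℝ} (hh : 0 < h) (hε : 0 < ε) (hε1 : ε ≤ 1) (hK : 0 ≤ K) (b0 : b 0 = 0) (C0 : C 0 = 0)
    (pB : ∀ l ∈ lbs L, H736.Path N R.2.1 R.2.2 QB (fun k y x => cu e (b k x y) l))
    (pC : ∀ l ∈ lbs L, H736.Path N R.1 R.2.2 QC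
      (fun k z x => cu e (Sum.elim (C k z x) (0 : κ → ℝ)) l)) {DB DC : ℝ}
    (oB : ∑ l ∈ lbs L, pwr N R.2.1 R.2.2 QB (fun k y x => cu e (b k x y) l) ≤ DB)
    (oC : ∑ l ∈ lbs L, pwr N R.1 R.2.2 QC
      (fun k z x => cu e (Sum.elim (C k z x) (0 : κ → ℝ)) l) ≤ DC) :
    RP (N + L) (sL L s) h h (fun k m => bl k (gB L e b k) m.2.1 m.2.2)
        (fun k m => (bl k (gC L e (stk ε K V C) k) m.1 m.2.2)ᵀ) ≤
      10 ^ 4 * ((ε + K) ^ 2 * (ε ^ 2)⁻¹) * (4 ^ L * (DB + DC) + 4 ^ L *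
        (∑ k ∈ range N, GW N R.2.1 R.2.2 R.1 (k + 1) (c (k + 1))
          (wf (um L e ε K V) (eb L e b (L + (k + 1))) (ec L e C (L + (k + 1))) k) +
        ∑ k ∈ range N, wh (um L e ε K V) (ec L e C (L + (k + 1))) N R.2.2 R.1 k)) *
        h ^ 2 := by
  have w0 : 0 < ε + K := by linarith
  set Ch : ℕ → ℤ → ℤ → ℤ → ℝ := fun k l z x => cu e (Sum.elim (C k z x) (0 : κ → ℝ)) l with hCh
  have Ch0 : Ch 0 = 0 := by
    funext l z x
    rw [hCh]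
    simp only [C0]
    unfold cu
    refine sum_eq_zero fun i _ => ?_
    rcases i with i | i <;> simp
  have B0 : (fun (k : ℕ) (l y x : ℤ) => cu e (b k x y) l) 0 = 0 := by
    funext l y x
    simp only [b0]
    unfold cu
    refine sum_eq_zero fun i _ => ?_
    simp
  have hsh : ∀ (A : ℕ → ℤ → ℤ → ℤ → ℝ) (k : ℕ), (shF L fun k => encR L (A k)) (L + k) =
      encR L (A k) := by
    intro A k
    rw [Nat.add_comm L k]
    exact shF_add L (fun k => encR L (A k)) k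
  have lB := L2E_encR (L := L) B0 pB oB
  have lC := L2E_encR (L := L) Ch0 pC oC
  rw [Nat.add_comm N L] at lB lC
  rw [gB_shF b0, Nat.add_comm N L]
  -- the matrix of the stack at a node
  have hU0 : ∀ k, k < N → ∀ m : Pt,
      DU (um L e ε K V) (k + 1) (k + 1) m.1 m.2.2 =
      bl (L + (k + 1)) (kV L e fun x => sm ε K (V (k + 1) x m.1)) m.2.2 m.2.2 := by
    intro k _ m
    rw [bl_kV]
    rfl
  have hFC : ∀ k < N, ∀ m ∈ sL L s (L + (k + 1)),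
      (bl (L + (k + 1)) (gC L e (stk ε K V C) (L + (k + 1))) m.1 m.2.2)ᵀ =
      (ε + K) • (DU (um L e ε K V) (k + 1) (k + 1) m.1 m.2.2 *
        (bl (L + (k + 1)) ((shF L fun k => encR L (Ch k)) (L + (k + 1))) m.1 m.2.2)ᵀ) := by
    intro k hk m _
    rw [hU0 k hk m, hsh, hCh]
    rw [bl_kV_mul he hm (fun x => sm ε K (V (k + 1) x m.1))
      (fun z x => Sum.elim (C (k + 1) z x) (0 : κ → ℝ)) (k + 1) m.1 m.2.2,
      ← transpose_smul, ← enc_scal]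
    congr 1
    unfold gC
    rw [Nat.add_sub_cancel_left]
    refine enc_congr (k + 1) m.1 m.2.2 fun z hz x => ?_
    rw [stk_eq w0.ne', (mem_iv.1 hz)]
  have hU : ∀ k < N, ∀ m ∈ sL L s (L + (k + 1)),
      ((DU (um L e ε K V) (k + 1) (k + 1) m.1 m.2.2 *
          (bl (L + (k + 1)) ((shF L fun k => encR L (Ch k)) (L + (k + 1))) m.1 m.2.2)ᵀ)ᵀ *
        (DU (um L e ε K V) (k + 1) (k + 1) m.1 m.2.2 *
          (bl (L + (k + 1)) ((shF L fun k => encR L (Ch k)) (L + (k + 1))) m.1 m.2.2)ᵀ) -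
        (ε / (ε + K)) ^ 2 •
          ((bl (L + (k + 1)) ((shF L fun k => encR L (Ch k)) (L + (k + 1))) m.1 m.2.2)ᵀᵀ *
          (bl (L + (k + 1)) ((shF L fun k => encR L (Ch k)) (L + (k + 1))) m.1 m.2.2)ᵀ)).PosSemidef
      := by
    intro k hk m _
    have p1 : DL L (fun _ => emb L e (H433.pj κ)) (k + 1) m.2.2 *
        (bl (L + (k + 1)) ((shF L fun k => encR L (Ch k)) (L + (k + 1))) m.1 m.2.2)ᵀ =
        (bl (L + (k + 1)) ((shF L fun k => encR L (Ch k)) (L + (k + 1))) m.1 m.2.2)ᵀ := by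
      rw [hsh, hCh, ← bl_kV, bl_kV_mul he hm (fun _ => H433.pj κ)
        (fun z x => Sum.elim (C (k + 1) z x) (0 : κ → ℝ)) (k + 1) m.1 m.2.2]
      congr 2
      funext p q
      simp only [encR_apply]
      congr 2
      unfold H433.pj
      rw [fromBlocks_mulVec]
      simp
    have p2 : ((DL L (fun x => emb L e (sm ε K (V (k + 1) x m.1))) (k + 1) m.2.2)ᵀ *
        DL L (fun x => emb L e (sm ε K (V (k + 1) x m.1))) (k + 1) m.2.2 -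
        (ε / (ε + K)) ^ 2 • DL L (fun _ => emb L e (H433.pj κ)) (k + 1) m.2.2).PosSemidef := by
      rw [DL_transpose, DL_mul, DL_smul, DL_sub]
      refine DL_psd (fun x => ?_) _ _
      rw [emb_transpose, emb_mul he hm, emb_smul, emb_sub]
      exact emb_psd (sm_ge hε hK _)
    exact gram_ge p1 p2
  have q := lo_RP_W (L := L) (N := N) (R := R) (s := sL L s) (c := c)
    (U := um L e ε K V)
    (B := shF L fun k => encR L fun l y x => cu e (b k x y) l)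
    (C := shF L fun k => encR L (Ch k))
    (FC := fun k m => (bl k (gC L e (stk ε K V C) k) m.1 m.2.2)ᵀ) hc
    (fun k hk => by
      unfold sL
      rw [if_neg (by omega)])
    (fun k hk m hm' => by
      unfold sL at hm'
      rw [if_pos (by omega), Nat.add_sub_cancel_left] at hm'
      have h1 := hs (k + 1) (mem_Icc.2 ⟨by omega, by omega⟩) hm'
      unfold bx3 at h1 ⊢
      rwa [Nat.add_sub_add_left])
    hh hε hε1 w0 hFC hU (fun k x n => emb_ct he hm (sm_ct hε hK (hV k x n))) lB lC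
  refine q.trans (le_of_eq ?_)
  rw [mul_add (4 ^ L : ℝ) DB DC]
  rfl

/-- the cost of the embedded multiplier -/
theorem vd_um (he : Function.Injective e) (hm : ∀ i, e i ∈ lbs L) {ε K : ℝ} (hε : 0 < ε)
    (hK : 0 ≤ K) (V : ℕ → ℤ → ℤ → Matrix κ κ ℝ) (k : ℕ) (x j : ℤ) :
    vd (um L e ε K V) k x j ≤ vk V k x j := by
  unfold um
  rw [vd_emb he hm]
  exact vk_sm hε hK V k x j

/-- row traces of the encoded slots -/
theorem rt_eb (b : ℕ → ℤ → ℤ → κ ⊕ κ → ℝ) (k a : ℕ) (n x : ℤ) :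
    H433.rt L (eb L e b (L + k)) a n x = ((2 : ℝ) ^ a)⁻¹ * ∑ y ∈ iv a n, ∑ l ∈ lbs L,
      cu e (b k x y) l ^ 2 := by
  unfold H433.rt eb
  rw [Nat.add_comm L k, shF_add, H822.trace_encR]

theorem rt_ec (C : ℕ → ℤ → ℤ → κ → ℝ) (k a : ℕ) (n x : ℤ) :
    H433.rt L (ec L e C (L + k)) a n x = ((2 : ℝ) ^ a)⁻¹ * ∑ z ∈ iv a n, ∑ l ∈ lbs L,
      cu e (Sum.elim (C k z x) (0 : κ → ℝ)) l ^ 2 := by
  unfold H433.rt ec
  rw [Nat.add_comm L k, shF_add, H822.trace_encR]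

end fin

end

end Vale.Agent.P141.H609.RPW
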