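import Vale.Agent.P141.H609.HZG

/-!
# P141, line (A): regions 1 and 3 of the gap part, with labels

`tzX` on the fine grid: `A` has no label, `B` and `C` have `L` label digits on their common
variable; all sums are written over the original scales `k`, the blocks at the scale `k + L`.
-/

namespace Vale.Agent.P141.H609

open Finset Matrix Vale.Agent.P075 Vale.Agent.P141.PL Vale.Agent.P141.PL.H588
open Vale.Agent.P141.PL.H804 Vale.Agent.P141.H736 Vale.Agent.P141.H958 Vale.Agent.P141.H338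
open Vale.Agent.P141.H576
open Vale.Agent.P141.H971 (Fam0 FamR)

noncomputable section

open scoped Classical

theorem of_shs {N L : ℕ} {s : ℕ → Finset Pt} {P : ℕ → Pt → Prop}
    (h : ∀ k ∈ Icc 1 N, ∀ m ∈ s k, P (k + L) m) :
    ∀ k ∈ Icc 1 (N + L), ∀ m ∈ shs L s k, P k m := by
  intro k hk m hm
  unfold shs at hm
  split_ifs at hm with h1
  · obtain ⟨j, rfl⟩ : ∃ j, k = j + L := ⟨k - L, by omega⟩
    rw [Nat.add_sub_cancel] at hm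
    rw [mem_Icc] at hk
    exact h j (mem_Icc.2 (by omega)) m hm
  · exact absurd hm (notMem_empty m)

/-- The pair sum on the fine grid. -/
theorem PH_lab (N L : ℕ) (s : ℕ → Finset Pt) (cC : ℝ) (C : ℕ → ℤ → ℤ → ℤ → ℝ)
    (Y : (k : ℕ) → Pt → Matrix (Ix k) (Ix k) ℝ) (e : ℕ) :
    PH (N + L) (shs L s) cC (shF L fun k => encR L (C k)) Y e =
      (cC / 2 ^ (e - 1)) ^ 2 * ∑ k ∈ Icc 1 N, ∑ m ∈ s k,
        (phi (gramC (lv cC e * (4 ^ (k + L))⁻¹) (bl (k + L) (encR L (C k)) m.1 m.2.2)) *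
          (Y (k + L) m * (Y (k + L) m)ᵀ)).trace := by
  unfold PH
  rw [sum_shs N L s fun k m => (phi (gramC (lv cC e * (4 ^ k)⁻¹)
    (bl k (shF L (fun k => encR L (C k)) k) m.1 m.2.2)) * (Y k m * (Y k m)ᵀ)).trace]
  simp only [shF_add]

/-- The light matrix on the fine grid. -/
theorem YL_lab (L : ℕ) (cB : ℝ) (B : ℕ → ℤ → ℤ → ℤ → ℝ)
    (S : (k : ℕ) → Pt → Matrix (Ix k) (Ix k) ℝ) (k : ℕ) (m : Pt) :
    YL cB (shF L fun k => encR L (B k)) S 0 (k + L) m =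
      hd (k + L) * S (k + L) m * (bl (k + L) (encR L (B k)) m.2.1 m.2.2)ᵀ * hd (k + L) := by
  simp only [YL, BL, rg, shF_add]

/-- The pair sum `LP` on the fine grid. -/
theorem LP_lab (N L : ℕ) (s : ℕ → Finset Pt) (cB cC : ℝ) (B C : ℕ → ℤ → ℤ → ℝ)
    (S : (k : ℕ) → Pt → Matrix (Ix k) (Ix k) ℝ) (b e : ℕ) :
    LP (N + L) (shs L s) cB cC B C S b e =
      ∑ k ∈ Icc 1 N, ∑ m ∈ s k, (4 ^ (k + L) : ℝ)⁻¹ *
        (ZL cB cC B C S b e (k + L) m * (ZL cB cC B C S b e (k + L) m)ᵀ).trace := by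
  unfold LP
  exact sum_shs N L s fun k m => (4 ^ k : ℝ)⁻¹ *
    (ZL cB cC B C S b e k m * (ZL cB cC B C S b e k m)ᵀ).trace

variable {N L : ℕ} {R : Pt} {X : Finset ℤ} {c : ℤ → ℕ → ℤ} {A : ℤ → ℕ → ℤ → ℤ → ℝ}
  {B C : ℤ → ℕ → ℤ → ℤ → ℤ → ℝ} {cA cB cC : ℝ} {s : ℤ → ℕ → Finset Pt}
  {S YF : ℤ → (k : ℕ) → Pt → Matrix (Ix k) (Ix k) ℝ} {QA QB QC : ℤ → ℕ → ℤ → ℤ → Prop}
  {GA DA DB DC cP : ℝ}

/-- **Regions 1 and 3 with labels, family**: the gap part, all hypotheses. -/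
theorem tzX_lab (hc : ∀ i ∈ X, Pl (c i))
    (hs : ∀ i ∈ X, ∀ k ∈ Icc 1 N, s i k ⊆ bx3 N R k (c i k)) (hA : 0 < cA)
    (hB : 0 < cB) (hC : 0 < cC)
    (capA : ∀ i ∈ X, ∀ k ∈ Icc 1 N, ∀ m ∈ s i k, Cap k m.1 m.2.1 cA (A i k))
    (capB : ∀ i ∈ X, ∀ k ∈ Icc 1 N, ∀ m ∈ s i k, CapR L k m.2.1 m.2.2 cB (B i k))
    (capC : ∀ i ∈ X, ∀ k ∈ Icc 1 N, ∀ m ∈ s i k, CapR L k m.1 m.2.2 cC (C i k)) (hP : 1 ≤ cP)
    (hS : ∀ i ∈ X, ∀ k ∈ Icc 1 N, ∀ m ∈ s i k,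
      (1 - (S i (k + L) m)ᵀ * S i (k + L) m).PosSemidef)
    (fA : Fam0 N R.1 R.2.1 X QA A cP GA DA)
    (hB0 : ∀ i ∈ X, B i 0 = 0)
    (pB : ∀ i ∈ X, ∀ l ∈ lbs L, Path N R.2.1 R.2.2 (QB i) (fun k => B i k l))
    (oB : ∑ i ∈ X, ∑ l ∈ lbs L, pwr N R.2.1 R.2.2 (QB i) (fun k => B i k l) ≤ DB)
    (hC0 : ∀ i ∈ X, C i 0 = 0)
    (pC : ∀ i ∈ X, ∀ l ∈ lbs L, Path N R.1 R.2.2 (QC i) (fun k => C i k l))
    (oC : ∑ i ∈ X, ∑ l ∈ lbs L, pwr N R.1 R.2.2 (QC i) (fun k => C i k l) ≤ DC)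
    (hGA : 0 < GA) (hDC : 0 < DC) {D Q κ σ ρ σ₀ v w κC : ℝ} {qL qF : ℕ → ℝ}
    (hD : DA + DB ≤ D) (hD' : DA + DC ≤ D) (hσ : 0 < σ) (hρ : 0 < ρ) (hκC : 0 ≤ κC)
    (hv : ∑ i ∈ X, ∑ k ∈ Icc 1 N, ∑ m ∈ s i k, (4 ^ (k + L) : ℝ)⁻¹ *
      (((hd (k + L) * S i (k + L) m * (bl (k + L) (encR L (B i k)) m.2.1 m.2.2)ᵀ * hd (k + L) +
          YF i (k + L) m) * (bl (k + L) (dup L (A i k)) m.1 m.2.1)ᵀ) *
        ((hd (k + L) * S i (k + L) m * (bl (k + L) (encR L (B i k)) m.2.1 m.2.2)ᵀ * hd (k + L) +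
          YF i (k + L) m) * (bl (k + L) (dup L (A i k)) m.1 m.2.1)ᵀ)ᵀ).trace ≤ v)
    (hw : ∑ i ∈ X, ∑ k ∈ Icc 1 N, ∑ m ∈ s i k,
      (YF i (k + L) m * (YF i (k + L) m)ᵀ).trace ≤ w)
    (hqL : ∀ e, ∑ i ∈ X, (cC / 2 ^ (e - 1)) ^ 2 * ∑ k ∈ Icc 1 N, ∑ m ∈ s i k,
      (phi (gramC (lv cC e * (4 ^ (k + L))⁻¹) (bl (k + L) (encR L (C i k)) m.1 m.2.2)) *
        ((hd (k + L) * S i (k + L) m * (bl (k + L) (encR L (B i k)) m.2.1 m.2.2)ᵀ * hd (k + L)) *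
        (hd (k + L) * S i (k + L) m * (bl (k + L) (encR L (B i k)) m.2.1 m.2.2)ᵀ *
          hd (k + L))ᵀ)).trace ≤ qL e)
    (hqF : ∀ e, ρ * σ < cC / 2 ^ (e - 1) → ∑ i ∈ X, (cC / 2 ^ (e - 1)) ^ 2 *
      ∑ k ∈ Icc 1 N, ∑ m ∈ s i k,
      (phi (gramC (lv cC e * (4 ^ (k + L))⁻¹) (bl (k + L) (encR L (C i k)) m.1 m.2.2)) *
        (YF i (k + L) m * (YF i (k + L) m)ᵀ)).trace ≤ qF e)
    (hκq : ∀ e, ρ * σ < cC / 2 ^ (e - 1) → 6 * (√(qL e) + √(qF e)) *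
      √(8800 * cP * (4 ^ L * max (DC / ρ ^ 2) (√(GA * DC) / (cC / 2 ^ (e - 1))))) ≤ κC)
    (hQ : ∀ e, cC / 2 ^ (e - 1) ≤ ρ * σ → 4 * qL e ≤ Q) (hκ0 : 0 ≤ κ) (hσ₀ : 0 ≤ σ₀)
    (hκ : ∀ b e, cB / 2 ^ (b - 1) ≤ σ₀ → cC / 2 ^ (e - 1) ≤ σ₀ →
      ∑ i ∈ X, LP (N + L) (shs L (s i)) cB cC (shF L fun k => encR L (B i k))
        (shF L fun k => encR L (C i k)) (S i) b e ≤
        κ * max (cB / 2 ^ (b - 1)) (cC / 2 ^ (e - 1)) ^ 2)
    {LA LB LC LC' : ℕ} (lA : cA / 2 ^ (LA - 1) < σ) (lB : cB / 2 ^ (LB - 1) ≤ σ₀)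
    (lC : cC / 2 ^ (LC - 1) ≤ σ₀) (lC' : cC / 2 ^ (LC' - 1) ≤ ρ * σ) :
    ∑ i ∈ X, ∑ k ∈ Icc 1 N, ∑ m ∈ s i k, |(2 ^ (k + L) : ℝ)⁻¹ *
        (((hd (k + L) * S i (k + L) m * (bl (k + L) (encR L (B i k)) m.2.1 m.2.2)ᵀ * hd (k + L) +
          YF i (k + L) m) * (bl (k + L) (dup L (A i k)) m.1 m.2.1)ᵀ) * hd (k + L) *
          bl (k + L) (encR L (C i k)) m.1 m.2.2).trace| ≤
      6 * √(v * (8800 * cP * (4 ^ L * max DC (ρ / σ * √(GA * DC))))) * LA + κC * LC' +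
        (κC * LC' + 150 * √(w * (4 ^ L * ((ρ * σ) ^ 2 * DA + σ ^ 2 * DC))) +
          (9900 * (4 ^ L * D) * σ + 6 * √(550 * (4 ^ L * D) * Q) * (LB + LC) +
            36 * √(550 * (4 ^ L * D) * κ) * σ₀)) := by
  have hP0 : 0 ≤ cP := by linarith
  have h4 : (0 : ℝ) < 4 ^ L := by positivity
  have sA : ∀ i ∈ X, S4E N R.1 R.2.1 (QA i) (A i) (own4 N R.1 R.2.1 (QA i) (A i)) cP := fun i hi =>
    ⟨fA.path i hi, fA.zero i hi, le_rfl, fA.pack i hi⟩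
  have eA : ∀ i ∈ X, L2E N R.1 R.2.1 (QA i) (A i) (pwr N R.1 R.2.1 (QA i) (A i)) := fun i hi =>
    ⟨fA.path i hi, fA.zero i hi, le_rfl⟩
  have key := tzX (N := N + L) (R := R) (X := X) (c := fun i => shc L (c i))
    (s := fun i => shs L (s i)) (A := fun i => shF L fun k => dup L (A i k))
    (B := fun i => shF L fun k => encR L (B i k)) (C := fun i => shF L fun k => encR L (C i k))
    (cA := cA) (cB := cB) (cC := cC) (cP := cP) (S := S) (YF := YF)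
    (GA := 4 ^ L * GA) (DA := 4 ^ L * DA) (DB := 4 ^ L * DB) (DC := 4 ^ L * DC)
    (D := 4 ^ L * D) (Q := Q) (κ := κ) (σ := σ) (ρ := ρ) (σ₀ := σ₀) (v := v) (w := w)
    (κC := κC) (qL := qL) (qF := qF) (LA := LA) (LB := LB) (LC := LC) (LC' := LC')
    (fun i hi => shc_pl (L := L) (hc i hi)) (fun i hi => shs_sub (L := L) (hs i hi)) hA hB hC
    (fun i hi => cap_shF (p := fun m => m.1) (q := fun m => m.2.1) fun k hk m hm =>
      cap_dup (capA i hi k hk m hm))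
    (fun i hi => cap_shF (p := fun m => m.2.1) (q := fun m => m.2.2) fun k hk m hm =>
      cap_encR (capB i hi k hk m hm))
    (fun i hi => cap_shF (p := fun m => m.1) (q := fun m => m.2.2) fun k hk m hm =>
      cap_encR (capC i hi k hk m hm)) hP
    (fun i hi => of_shs (P := fun k m => (1 - (S i k m)ᵀ * S i k m).PosSemidef) (hS i hi))
    (fun i hi => S4E_dup (L := L) hP0 (sA i hi)) (fun i hi => L2E_dup (L := L) (eA i hi))
    (fun i hi => L2E_encR (hB0 i hi) (pB i hi) le_rfl)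
    (fun i hi => L2E_encR (hC0 i hi) (pC i hi) le_rfl)
    (by rw [← mul_sum]; exact mul_le_mul_of_nonneg_left fA.own h4.le)
    (by rw [← mul_sum]; exact mul_le_mul_of_nonneg_left fA.pow h4.le)
    (by rw [← mul_sum]; exact mul_le_mul_of_nonneg_left oB h4.le)
    (by rw [← mul_sum]; exact mul_le_mul_of_nonneg_left oC h4.le)
    (by positivity) (by positivity)
    (by rw [← mul_add]; exact mul_le_mul_of_nonneg_left hD h4.le)
    (by rw [← mul_add]; exact mul_le_mul_of_nonneg_left hD' h4.le) hσ hρ hκC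
    (by
      refine le_trans (le_of_eq ?_) hv
      refine sum_congr rfl fun i _ => ?_
      rw [sum_shs N L (s i) fun k m => (4 ^ k : ℝ)⁻¹ *
        (((YL cB (shF L fun k => encR L (B i k)) (S i) 0 k m + YF i k m) *
          (bl k (shF L (fun k => dup L (A i k)) k) m.1 m.2.1)ᵀ) *
        ((YL cB (shF L fun k => encR L (B i k)) (S i) 0 k m + YF i k m) *
          (bl k (shF L (fun k => dup L (A i k)) k) m.1 m.2.1)ᵀ)ᵀ).trace]
      simp only [shF_add, YL_lab])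
    (by
      refine le_trans (le_of_eq ?_) hw
      exact sum_congr rfl fun i _ =>
        sum_shs N L (s i) fun k m => (YF i k m * (YF i k m)ᵀ).trace)
    (fun e => by
      refine le_trans (le_of_eq ?_) (hqL e)
      refine sum_congr rfl fun i _ => ?_
      rw [PH_lab]
      simp only [YL_lab])
    (fun e he => by
      refine le_trans (le_of_eq ?_) (hqF e he)
      exact sum_congr rfl fun i _ => PH_lab ..)
    (fun e he => by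
      refine le_trans (le_of_eq ?_) (hκq e he)
      rw [sqrt_four_pow L GA DC, mul_max_of_nonneg _ _ h4.le]
      congr 4
      · ring
      · ring)
    hQ hκ0 hσ₀ hκ lA lB lC lC'
  have e2 : ∀ i, ∑ k ∈ Icc 1 (N + L), ∑ m ∈ shs L (s i) k, |(2 ^ k : ℝ)⁻¹ *
        (((YL cB (shF L fun k => encR L (B i k)) (S i) 0 k m + YF i k m) *
          (bl k (shF L (fun k => dup L (A i k)) k) m.1 m.2.1)ᵀ) * hd k *
          bl k (shF L (fun k => encR L (C i k)) k) m.1 m.2.2).trace| =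
      ∑ k ∈ Icc 1 N, ∑ m ∈ s i k, |(2 ^ (k + L) : ℝ)⁻¹ *
        (((hd (k + L) * S i (k + L) m * (bl (k + L) (encR L (B i k)) m.2.1 m.2.2)ᵀ * hd (k + L) +
          YF i (k + L) m) * (bl (k + L) (dup L (A i k)) m.1 m.2.1)ᵀ) * hd (k + L) *
          bl (k + L) (encR L (C i k)) m.1 m.2.2).trace| := by
    intro i
    rw [sum_shs N L (s i) fun k m => |(2 ^ k : ℝ)⁻¹ *
        (((YL cB (shF L fun k => encR L (B i k)) (S i) 0 k m + YF i k m) *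
          (bl k (shF L (fun k => dup L (A i k)) k) m.1 m.2.1)ᵀ) * hd k *
          bl k (shF L (fun k => encR L (C i k)) k) m.1 m.2.2).trace|]
    simp only [shF_add, YL_lab]
  simp only [e2] at key
  refine key.trans (le_of_eq ?_)
  rw [sqrt_four_pow L GA DC, mul_max_of_nonneg _ _ h4.le,
    show ρ / σ * (4 ^ L * √(GA * DC)) = 4 ^ L * (ρ / σ * √(GA * DC)) by ring,
    show (ρ * σ) ^ 2 * (4 ^ L * DA) + σ ^ 2 * (4 ^ L * DC) =
      4 ^ L * ((ρ * σ) ^ 2 * DA + σ ^ 2 * DC) by ring]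

end

end Vale.Agent.P141.H609
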