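import Vale.Agent.P141.H958.Step

/-!
# P141, line W: lowering two of the three functions against an arbitrary third matrix

The third object of the form is an ARBITRARY matrix `W` at every node (no product `B h A`).
`lo μ F a` is the left factor of the regularisation `rg μ F a = lo μ F a * F`; `bw μ F a` is the
band `lo μ F a - lo μ F (a + 1)`.  Raising `a` costs `(∑ |W|²)^(1/2) (s_C² prs)^(1/2)`.
-/

namespace Vale.Agent.P141.H609

open Finset Matrix Vale.Agent.P075 Vale.Agent.P141.PL Vale.Agent.P141.PL.H588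
open Vale.Agent.P141.PL.H804 Vale.Agent.P141.H958

noncomputable section

section mat

variable {n : Type*} [Fintype n] [DecidableEq n]

/-- The left factor of the regularisations of `F` from the weight `μ` on. -/
def lo (μ : ℝ) (F : Matrix n n ℝ) : ℕ → Matrix n n ℝ
  | 0 => 1
  | (a + 1) => res (gramR (4 ^ a * μ) F)

/-- The bands. -/
def bw (μ : ℝ) (F : Matrix n n ℝ) (a : ℕ) : Matrix n n ℝ := lo μ F a - lo μ F (a + 1)

theorem lo_mul {μ : ℝ} (hμ : 0 ≤ μ) (F : Matrix n n ℝ) (a : ℕ) :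
    lo μ F a * F = rg μ F a := by
  cases a with
  | zero => simp [lo, rg]
  | succ a => exact (push (by positivity) F).symm

theorem lo_symm {μ : ℝ} (hμ : 0 ≤ μ) (F : Matrix n n ℝ) (a : ℕ) : (lo μ F a)ᵀ = lo μ F a := by
  cases a with
  | zero => simp [lo]
  | succ a => exact res_symm (gramR_psd (by positivity) F)

/-- The band is dominated by the saturated Gram matrix at the level. -/
theorem bw_sq {μ : ℝ} (hμ : 0 ≤ μ) (F : Matrix n n ℝ) (a : ℕ) :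
    ((3 : ℝ) • phi (gramR (lw μ a) F) - bw μ F a * bw μ F a).PosSemidef := by
  cases a with
  | zero =>
    have hX := gramR_psd hμ F
    have e : bw μ F 0 = phi (gramR μ F) := by simp [bw, lo, phi]
    have e2 : lw μ 0 = μ := by simp [lw]
    rw [e, e2]
    have e3 : (3 : ℝ) • phi (gramR μ F) - phi (gramR μ F) * phi (gramR μ F) =
        (2 : ℝ) • phi (gramR μ F) + (phi (gramR μ F) - phi (gramR μ F) * phi (gramR μ F)) := by
      module
    rw [e3]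
    exact ((phi_psd hX).smul (by norm_num : (0 : ℝ) ≤ 2)).add (phi_sub_sq_psd hX)
  | succ a =>
    have h4 : 0 ≤ 4 ^ a * μ := by positivity
    have hX := gramR_psd h4 F
    have e4 : gramR (4 ^ (a + 1) * μ) F = (4 : ℝ) • gramR (4 ^ a * μ) F := by
      rw [gramR, gramR, smul_smul]
      congr 1
      ring
    have e2 : lw μ (a + 1) = 4 ^ a * μ := by simp [lw]
    have e : bw μ F (a + 1) = res (gramR (4 ^ a * μ) F) - res ((4 : ℝ) • gramR (4 ^ a * μ) F) := by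
      simp only [bw, lo, e4]
    rw [e, e2]
    set X := gramR (4 ^ a * μ) F with hXd
    have h3 : ((3 : ℝ) • X).PosSemidef := hX.smul (by norm_num : (0 : ℝ) ≤ 3)
    have hX4 : ((4 : ℝ) • X).PosSemidef := hX.smul (by norm_num : (0 : ℝ) ≤ 4)
    have hw0 : (res X - res ((4 : ℝ) • X)).PosSemidef := by
      have h := res_anti hX h3
      rwa [show X + (3 : ℝ) • X = (4 : ℝ) • X by module] at h
    have hw1 : (1 - (res X - res ((4 : ℝ) • X))).PosSemidef := by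
      have h := (one_sub_res_psd hX).add (res_psd hX4)
      rwa [show 1 - res X + res ((4 : ℝ) • X) = 1 - (res X - res ((4 : ℝ) • X)) by abel] at h
    have h1 := sq_le_self hw0 hw1
    have h2 := phi_four hX
    have e3 : (3 : ℝ) • phi X - (res X - res ((4 : ℝ) • X)) * (res X - res ((4 : ℝ) • X)) =
        ((4 : ℝ) • phi X - phi ((4 : ℝ) • X)) + ((res X - res ((4 : ℝ) • X)) -
          (res X - res ((4 : ℝ) • X)) * (res X - res ((4 : ℝ) • X))) := by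
      simp only [phi]
      module
    rw [e3]
    exact h2.add h1

/-- One node: the band of `F` against an arbitrary `W` and the lowered `H`. -/
theorem band_sq_le {r : Matrix n n ℝ} (hr : rᵀ = r) {μ ν : ℝ} (hμ : 0 < μ) (hν : 0 < ν)
    {F H : Matrix n n ℝ} (k : (1 - gramC ν H).PosSemidef) (W : Matrix n n ℝ) (a e : ℕ) :
    (W * bw μ F a * r * rg ν H e).trace ^ 2 ≤
      12 * (lw ν e)⁻¹ * ((W * Wᵀ).trace * M2 r (lw ν e) (lw μ a) Hᵀ F) := by
  have hl := lw_pos hν e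
  have hb : (bw μ F a)ᵀ = bw μ F a := by
    rw [bw, transpose_sub, lo_symm hμ.le, lo_symm hμ.le]
  have h1 := trace_mul_sq_le W (bw μ F a * r * rg ν H e)
  rw [show W * (bw μ F a * r * rg ν H e) = W * bw μ F a * r * rg ν H e by
    simp only [Matrix.mul_assoc]] at h1
  refine h1.trans ?_
  have hW0 : 0 ≤ (W * Wᵀ).trace := (psd_mul_transpose W).trace_nonneg
  have e1 : lw ν e * ((bw μ F a * r * rg ν H e) * (bw μ F a * r * rg ν H e)ᵀ).trace =
      ((bw μ F a * bw μ F a) * (r * gramR (lw ν e) (rg ν H e) * r)).trace := by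
    rw [transpose_mul, transpose_mul, hr, hb, gramR]
    rw [show bw μ F a * r * rg ν H e * ((rg ν H e)ᵀ * (r * bw μ F a)) =
      (bw μ F a * r * rg ν H e * (rg ν H e)ᵀ * r) * bw μ F a by
        simp only [Matrix.mul_assoc], trace_mul_comm]
    simp only [Matrix.mul_smul, Matrix.smul_mul, trace_smul, smul_eq_mul, Matrix.mul_assoc]
  have i1 : ((bw μ F a * bw μ F a) * (r * gramR (lw ν e) (rg ν H e) * r)).trace ≤
      (((3 : ℝ) • phi (gramR (lw μ a) F)) * (r * gramR (lw ν e) (rg ν H e) * r)).trace :=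
    trace_mul_le_left (psd_conj_symm (gramR_psd hl.le _) hr) (bw_sq hμ.le F a)
  have i2 : (phi (gramR (lw μ a) F) * (r * gramR (lw ν e) (rg ν H e) * r)).trace ≤
      (phi (gramR (lw μ a) F) * (r * ((4 : ℝ) • phi (gramR (lw ν e) H)) * r)).trace := by
    refine trace_mul_le_right (phi_psd (gramR_psd (lw_pos hμ a).le F)) ?_
    have := psd_conj_symm (rg_adc hν.le k e).2 hr
    rwa [Matrix.mul_sub, Matrix.sub_mul] at this
  rw [Matrix.smul_mul, trace_smul, smul_eq_mul] at i1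
  rw [Matrix.mul_smul, Matrix.smul_mul, Matrix.mul_smul, trace_smul, smul_eq_mul] at i2
  have e2 : (phi (gramR (lw μ a) F) * (r * phi (gramR (lw ν e) H) * r)).trace =
      M2 r (lw ν e) (lw μ a) Hᵀ F := by
    rw [M2, gramC_transpose, tr_rot]
  rw [e2] at i2
  have i3 : lw ν e * ((bw μ F a * r * rg ν H e) * (bw μ F a * r * rg ν H e)ᵀ).trace ≤
      12 * M2 r (lw ν e) (lw μ a) Hᵀ F := by
    rw [e1]
    linarith
  have i4 : ((bw μ F a * r * rg ν H e) * (bw μ F a * r * rg ν H e)ᵀ).trace ≤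
      12 * (lw ν e)⁻¹ * M2 r (lw ν e) (lw μ a) Hᵀ F := by
    generalize ((bw μ F a * r * rg ν H e) * (bw μ F a * r * rg ν H e)ᵀ).trace = T at i3 ⊢
    have e5 : T = (lw ν e)⁻¹ * (lw ν e * T) := by
      rw [← mul_assoc, inv_mul_cancel₀ hl.ne', one_mul]
    rw [e5]
    refine (mul_le_mul_of_nonneg_left i3 (inv_nonneg.2 hl.le)).trans (le_of_eq ?_)
    ring
  calc (W * Wᵀ).trace * ((bw μ F a * r * rg ν H e) * (bw μ F a * r * rg ν H e)ᵀ).trace ≤
      (W * Wᵀ).trace * (12 * (lw ν e)⁻¹ * M2 r (lw ν e) (lw μ a) Hᵀ F) :=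
        mul_le_mul_of_nonneg_left i4 hW0
    _ = _ := by ring

end mat

/-- The sum of the absolute values of the forms with the indices `a`, `e` and an arbitrary third
matrix `W`.  Common vertex of `A` and `C`: the first. -/
def UW (N : ℕ) (s : ℕ → Finset Pt) (cA cC : ℝ) (A C : ℕ → ℤ → ℤ → ℝ)
    (W : (k : ℕ) → Pt → Matrix (Ix k) (Ix k) ℝ) (a e : ℕ) : ℝ :=
  ∑ k ∈ Icc 1 N, ∑ m ∈ s k, |(2 ^ k : ℝ)⁻¹ *
    (W k m * lo ((cA ^ 2)⁻¹ * (4 ^ k)⁻¹) (bl k (A k) m.1 m.2.1) a * hd k *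
      rg ((cC ^ 2)⁻¹ * (4 ^ k)⁻¹) (bl k (C k) m.1 m.2.2) e).trace|

/-- The charge of raising `e`: the piece `e` of `C` against `W` and the lowered `A`. -/
def VW (N : ℕ) (s : ℕ → Finset Pt) (cA cC : ℝ) (A C : ℕ → ℤ → ℤ → ℝ)
    (W : (k : ℕ) → Pt → Matrix (Ix k) (Ix k) ℝ) (a e : ℕ) : ℝ :=
  ∑ k ∈ Icc 1 N, ∑ m ∈ s k, |(2 ^ k : ℝ)⁻¹ *
    (W k m * lo ((cA ^ 2)⁻¹ * (4 ^ k)⁻¹) (bl k (A k) m.1 m.2.1) a * hd k *
      pc ((cC ^ 2)⁻¹ * (4 ^ k)⁻¹) (bl k (C k) m.1 m.2.2) e).trace|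

section

variable {N : ℕ} {R : Pt} {c : ℕ → ℤ} {A C : ℕ → ℤ → ℤ → ℝ} {cA cC : ℝ}
  {s : ℕ → Finset Pt} {W : (k : ℕ) → Pt → Matrix (Ix k) (Ix k) ℝ}

/-- **The A-step**: arbitrary `W`. -/
theorem a_step (hs : ∀ k ∈ Icc 1 N, s k ⊆ bx3 N R k (c k)) (hA : 0 < cA) (hC : 0 < cC)
    (capC : ∀ k ∈ Icc 1 N, ∀ m ∈ s k, Cap k m.1 m.2.2 cC (C k)) (a e : ℕ) {w r : ℝ}
    (hw : ∑ k ∈ Icc 1 N, ∑ m ∈ s k, (4 ^ k : ℝ)⁻¹ * (W k m * (W k m)ᵀ).trace ≤ w)
    (hr : prs N R.2.1 R.1 R.2.2 c (wp (lv cA a) (sp A)) (wp (lv cC e) (sp C)) ≤ r) :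
    UW N s cA cC A C W a e ≤ UW N s cA cC A C W (a + 1) e +
      6 * (cC / 2 ^ (e - 1) * √(w * r)) := by
  have h₀ : 0 < (cA ^ 2)⁻¹ := by positivity
  have h₂ : 0 < (cC ^ 2)⁻¹ := by positivity
  have a0 := lv_pos hA a
  have a2 := lv_pos hC e
  have hq : ∀ k : ℕ, (0 : ℝ) < (4 ^ k)⁻¹ := fun k => by positivity
  set P : ℕ → Pt → ℝ := fun k m => (4 ^ k : ℝ)⁻¹ * (W k m * (W k m)ᵀ).trace with hP
  set Q : ℕ → Pt → ℝ := fun k m => 4 ^ k * M2 (hd k) (lv cC e * (4 ^ k)⁻¹)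
    (lv cA a * (4 ^ k)⁻¹) (bl k (C k) m.1 m.2.2)ᵀ (bl k (A k) m.1 m.2.1) with hQ
  have nP : ∀ k m, 0 ≤ P k m := fun k m =>
    mul_nonneg (hq k).le (psd_mul_transpose (W k m)).trace_nonneg
  have nQ : ∀ k m, 0 ≤ Q k m := fun k m => mul_nonneg (by positivity)
    (M2_nonneg (hd_symm _) (mul_nonneg a2.le (hq _).le) (mul_nonneg a0.le (hq _).le) _ _)
  have hQ' : ∑ k ∈ Icc 1 N, ∑ m ∈ s k, Q k m ≤ r := by
    refine le_trans (sum_le_sum fun k hk => sum_le_sum_of_subset_of_nonneg (hs k hk)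
      fun m _ _ => nQ k m) ((le_of_eq ?_).trans hr)
    exact sum_congr rfl fun k _ => (mnk_one N R k (c k) a0.le a2.le (A k) (C k)).symm
  set D : ℕ → Pt → ℝ := fun k m => (2 ^ k : ℝ)⁻¹ *
    (W k m * bw ((cA ^ 2)⁻¹ * (4 ^ k)⁻¹) (bl k (A k) m.1 m.2.1) a * hd k *
      rg ((cC ^ 2)⁻¹ * (4 ^ k)⁻¹) (bl k (C k) m.1 m.2.2) e).trace with hD
  have hD2 : ∀ k ∈ Icc 1 N, ∀ m ∈ s k, D k m ^ 2 ≤
      36 * (cC / 2 ^ (e - 1)) ^ 2 * (P k m * Q k m) := by
    intro k hk m hm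
    have hk2 := cap_one hC (capC k hk m hm)
    have hb := band_sq_le (hd_symm k) (mul_pos h₀ (hq k)) (mul_pos h₂ (hq k))
      (F := bl k (A k) m.1 m.2.1) hk2 (W k m) a e
    simp only [lw_mul'] at hb
    have h4 : (4 : ℝ) ^ k = (2 ^ k) ^ 2 := by rw [← pow_mul, mul_comm, pow_mul]; norm_num
    have hi := inv_lv hC e
    have hpq : 0 ≤ P k m * Q k m := mul_nonneg (nP k m) (nQ k m)
    have hsq : 0 ≤ (cC / 2 ^ (e - 1)) ^ 2 := sq_nonneg _
    have key : D k m ^ 2 ≤ 12 * (cC / 2 ^ (e - 1)) ^ 2 * (P k m * Q k m) := by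
      rw [hD]
      simp only
      rw [mul_pow]
      refine (mul_le_mul_of_nonneg_left hb (by positivity)).trans (le_of_eq ?_)
      rw [← hi, hP, hQ]
      simp only
      change _ * (12 * (lv cC e * (4 ^ k)⁻¹)⁻¹ * _) = _
      have h2 : (2 : ℝ) ^ k ≠ 0 := by positivity
      have h3 : lv cC e ≠ 0 := a2.ne'
      rw [h4]
      change ((2 ^ k)⁻¹) ^ 2 * (12 * (lv cC e * ((2 ^ k) ^ 2)⁻¹)⁻¹ * ((W k m * (W k m)ᵀ).trace *
        M2 (hd k) (lv cC e * ((2 ^ k) ^ 2)⁻¹) (lv cA a * ((2 ^ k) ^ 2)⁻¹)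
          (bl k (C k) m.1 m.2.2)ᵀ (bl k (A k) m.1 m.2.1))) = _
      generalize M2 (hd k) (lv cC e * ((2 ^ k) ^ 2)⁻¹) (lv cA a * ((2 ^ k) ^ 2)⁻¹)
          (bl k (C k) m.1 m.2.2)ᵀ (bl k (A k) m.1 m.2.1) = M
      field_simp
    refine key.trans ?_
    nlinarith [mul_nonneg hsq hpq]
  set S : Finset (Σ _ : ℕ, Pt) := (Icc 1 N).sigma s with hS
  have sig : ∀ M : ℕ → Pt → ℝ, ∑ k ∈ Icc 1 N, ∑ m ∈ s k, M k m = ∑ i ∈ S, M i.1 i.2 :=
    fun M => by rw [hS, Finset.sum_sigma]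
  have hw' : ∑ k ∈ Icc 1 N, ∑ m ∈ s k, P k m ≤ w := hw
  rw [sig] at hQ' hw'
  have hfin : ∑ k ∈ Icc 1 N, ∑ m ∈ s k, |D k m| ≤ 6 * (cC / 2 ^ (e - 1) * √(w * r)) := by
    rw [sig fun k m => |D k m|]
    exact core2 S (fun i => D i.1 i.2) (fun i => P i.1 i.2) (fun i => Q i.1 i.2) (by positivity)
      (fun i _ => nP _ _) (fun i _ => nQ _ _)
      (fun i hi => hD2 i.1 (Finset.mem_sigma.1 (hS ▸ hi)).1 i.2 (Finset.mem_sigma.1 (hS ▸ hi)).2)
      hw' hQ'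
  refine le_trans ?_ (add_le_add le_rfl hfin)
  unfold UW
  rw [← sum_add_distrib]
  refine sum_le_sum fun k _ => ?_
  rw [← sum_add_distrib]
  refine sum_le_sum fun m _ => ?_
  refine le_trans (le_of_eq ?_) (abs_add_le _ _)
  congr 1
  rw [hD]
  simp only
  rw [← mul_add, ← trace_add]
  congr 2
  rw [bw]
  noncomm_ring

/-- **The C-step**. -/
theorem c_step (a e : ℕ) :
    UW N s cA cC A C W a e ≤ UW N s cA cC A C W a (e + 1) + VW N s cA cC A C W a e := by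
  unfold UW VW
  rw [← sum_add_distrib]
  refine sum_le_sum fun k _ => ?_
  rw [← sum_add_distrib]
  refine sum_le_sum fun m _ => ?_
  refine le_trans (le_of_eq ?_) (abs_add_le _ _)
  congr 1
  rw [← mul_add, ← trace_add]
  congr 2
  rw [pc_eq]
  noncomm_ring

/-- The two-index induction. -/
theorem ind2 {U : ℕ → ℕ → ℝ} {κA κC Z : ℝ} (hκA : 0 ≤ κA) (hκC : 0 ≤ κC) {LA LC : ℕ}
    (h : ∀ a e, U a e ≤ Z ∨ (a < LA ∧ U a e ≤ U (a + 1) e + κA) ∨
      (e < LC ∧ U a e ≤ U a (e + 1) + κC)) :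
    U 0 0 ≤ κA * LA + κC * LC + Z := by
  have main : ∀ n a e : ℕ, (LA - a) + (LC - e) ≤ n →
      U a e ≤ κA * (LA - a : ℕ) + κC * (LC - e : ℕ) + Z := by
    intro n
    induction n with
    | zero =>
      intro a e hn
      rcases h a e with h1 | ⟨h1, _⟩ | ⟨h1, _⟩
      · have : 0 ≤ κA * (LA - a : ℕ) := by positivity
        have : 0 ≤ κC * (LC - e : ℕ) := by positivity
        linarith
      · omega
      · omega
    | succ n ih =>
      intro a e hn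
      rcases h a e with h1 | ⟨h1, h2⟩ | ⟨h1, h2⟩
      · have : 0 ≤ κA * (LA - a : ℕ) := by positivity
        have : 0 ≤ κC * (LC - e : ℕ) := by positivity
        linarith
      · have h3 := ih (a + 1) e (by omega)
        have h4 : ((LA - a : ℕ) : ℝ) = (LA - (a + 1) : ℕ) + 1 := by
          rw [show LA - a = (LA - (a + 1)) + 1 by omega]
          push_cast
          ring
        rw [h4]
        linarith
      · have h3 := ih a (e + 1) (by omega)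
        have h4 : ((LC - e : ℕ) : ℝ) = (LC - (e + 1) : ℕ) + 1 := by
          rw [show LC - e = (LC - (e + 1)) + 1 by omega]
          push_cast
          ring
        rw [h4]
        linarith
  exact main (LA + LC) 0 0 (by omega)

/-- **Lowering of `A` and `C` against an arbitrary `W`**: `a` is raised when
`s_C ≤ ρ s_A`, otherwise `e`; stop when `s_A < σ`. -/
theorem lower2 (hs : ∀ k ∈ Icc 1 N, s k ⊆ bx3 N R k (c k)) (hA : 0 < cA) (hC : 0 < cC)
    (capC : ∀ k ∈ Icc 1 N, ∀ m ∈ s k, Cap k m.1 m.2.2 cC (C k)) {w κ GA EC : ℝ}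
    (hκ : 0 ≤ κ)
    (hw : ∑ k ∈ Icc 1 N, ∑ m ∈ s k, (4 ^ k : ℝ)⁻¹ * (W k m * (W k m)ᵀ).trace ≤ w)
    (hr : ∀ a e, prs N R.2.1 R.1 R.2.2 c (wp (lv cA a) (sp A)) (wp (lv cC e) (sp C)) ≤
      κ * max (4 ^ (e - 1) * (EC / cC ^ 2))
        √(16 ^ (a - 1) * (GA / cA ^ 4) * (4 ^ (e - 1) * (EC / cC ^ 2))))
    {ρ σ κC Z : ℝ} (hρ : 0 < ρ) (hσ : 0 < σ) (hκC : 0 ≤ κC)
    (hZ : ∀ a e, cA / 2 ^ (a - 1) < σ → UW N s cA cC A C W a e ≤ Z)
    (hV : ∀ a e, σ ≤ cA / 2 ^ (a - 1) → ρ * (cA / 2 ^ (a - 1)) < cC / 2 ^ (e - 1) →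
      VW N s cA cC A C W a e ≤ κC) {LA LC : ℕ} (lA : cA / 2 ^ (LA - 1) < σ)
    (lC : cC / 2 ^ (LC - 1) ≤ ρ * σ) :
    ∑ k ∈ Icc 1 N, ∑ m ∈ s k, |(2 ^ k : ℝ)⁻¹ *
        (W k m * hd k * bl k (C k) m.1 m.2.2).trace| ≤
      6 * √(w * (κ * max EC (ρ / σ * √(GA * EC)))) * LA + κC * LC + Z := by
  have h0 : ∑ k ∈ Icc 1 N, ∑ m ∈ s k, |(2 ^ k : ℝ)⁻¹ *
      (W k m * hd k * bl k (C k) m.1 m.2.2).trace| = UW N s cA cC A C W 0 0 := by
    unfold UW
    simp only [lo, rg, Matrix.mul_one]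
  have hw0 : 0 ≤ w := le_trans (sum_nonneg fun k _ => sum_nonneg fun m _ =>
    mul_nonneg (by positivity) (psd_mul_transpose (W k m)).trace_nonneg) hw
  rw [h0]
  refine ind2 (U := UW N s cA cC A C W) (by positivity) hκC fun a e => ?_
  by_cases h1 : cA / 2 ^ (a - 1) < σ
  · exact Or.inl (hZ a e h1)
  rw [not_lt] at h1
  have mono : ∀ {x : ℝ}, 0 ≤ x → ∀ {i j : ℕ}, i ≤ j → x / 2 ^ (j - 1) ≤ x / 2 ^ (i - 1) :=
    fun hx i j hij => div_le_div_of_nonneg_left hx (by positivity)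
      (pow_le_pow_right₀ (by norm_num) (by omega))
  by_cases h2 : ρ * (cA / 2 ^ (a - 1)) < cC / 2 ^ (e - 1)
  · refine Or.inr (Or.inr ⟨?_, (c_step a e).trans (add_le_add le_rfl (hV a e h1 h2))⟩)
    by_contra h3
    have h4 := mono hC.le (not_lt.1 h3)
    have h5 := mul_le_mul_of_nonneg_left h1 hρ.le
    linarith
  · rw [not_lt] at h2
    refine Or.inr (Or.inl ⟨?_, ?_⟩)
    · by_contra h3
      have h4 := mono hA.le (not_lt.1 h3)
      linarith
    · refine (a_step hs hA hC capC a e hw (hr a e)).trans (add_le_add le_rfl ?_)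
      refine mul_le_mul_of_nonneg_left ?_ (by norm_num)
      set sA : ℝ := cA / 2 ^ (a - 1) with hsA
      set sC : ℝ := cC / 2 ^ (e - 1) with hsC
      have pA : 0 < sA := by positivity
      have pC : 0 < sC := by positivity
      have e1 : sC * √(w * (κ * max (4 ^ (e - 1) * (EC / cC ^ 2))
          √(16 ^ (a - 1) * (GA / cA ^ 4) * (4 ^ (e - 1) * (EC / cC ^ 2))))) =
          √(w * (κ * (sC ^ 2 * max (4 ^ (e - 1) * (EC / cC ^ 2))
          √(16 ^ (a - 1) * (GA / cA ^ 4) * (4 ^ (e - 1) * (EC / cC ^ 2)))))) := by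
        conv_lhs => rw [← Real.sqrt_sq pC.le, ← Real.sqrt_mul (sq_nonneg _)]
        congr 1
        ring
      rw [e1]
      refine Real.sqrt_le_sqrt (mul_le_mul_of_nonneg_left
        (mul_le_mul_of_nonneg_left ?_ hκ) hw0)
      rw [mul_max_of_nonneg _ _ (sq_nonneg sC)]
      have hp2 : ∀ j : ℕ, (4 : ℝ) ^ j = (2 ^ j) ^ 2 := fun j => by
        rw [← pow_mul, mul_comm j 2, pow_mul]; norm_num
      have hp4 : ∀ j : ℕ, (16 : ℝ) ^ j = (2 ^ j) ^ 4 := fun j => by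
        rw [← pow_mul, mul_comm j 4, pow_mul]; norm_num
      have q1 : sC ^ 2 * (4 ^ (e - 1) * (EC / cC ^ 2)) = EC := by
        rw [hsC, hp2]
        field_simp
      refine max_le_max (le_of_eq q1) ?_
      have q2 : sC ^ 2 * √(16 ^ (a - 1) * (GA / cA ^ 4) * (4 ^ (e - 1) * (EC / cC ^ 2))) =
          sC / sA ^ 2 * √(GA * EC) := by
        have q3 : 16 ^ (a - 1) * (GA / cA ^ 4) * (4 ^ (e - 1) * (EC / cC ^ 2)) =
            ((sA ^ 2 * sC)⁻¹) ^ 2 * (GA * EC) := by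
          rw [hsA, hsC, hp2, hp4]
          field_simp
        rw [q3, Real.sqrt_mul (sq_nonneg _), Real.sqrt_sq (by positivity)]
        field_simp
      rw [q2]
      refine mul_le_mul_of_nonneg_right ?_ (Real.sqrt_nonneg _)
      rw [div_le_div_iff₀ (by positivity) hσ]
      calc sC * σ ≤ (ρ * sA) * sA := mul_le_mul h2 h1 hσ.le (by positivity)
        _ = ρ * sA ^ 2 := by ring

end

end

end Vale.Agent.P141.H609
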