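import Vale.Agent.P141.H609.AStep

/-!
# P141, line W: the charge of lowering `C` when the third matrix is `Y Aᵀ`

`VW` for `W = Y Aᵀ`: centre `C`, pair `(A, C)` as pair sum, the pair `(C, Y)` as an abstract sum.
The second form has the pair `(C, Y)` for every matrix `D` dominated by the block of `C` and
capped at the level.
-/

namespace Vale.Agent.P141.H609

open Finset Matrix Vale.Agent.P075 Vale.Agent.P141.PL Vale.Agent.P141.PL.H588
open Vale.Agent.P141.PL.H804 Vale.Agent.P141.H958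

noncomputable section

section mat

variable {n : Type*} [Fintype n] [DecidableEq n]

/-- One node: the piece of `H` against `Y (F_a)ᵀ`. -/
theorem piece_sq_le {r : Matrix n n ℝ} (hr : rᵀ = r) {μ ν : ℝ} (hμ : 0 < μ) (hν : 0 < ν)
    {F H : Matrix n n ℝ} (kF : (1 - gramC μ F).PosSemidef) (kH : (1 - gramC ν H).PosSemidef)
    (Y : Matrix n n ℝ) (a e : ℕ) :
    (Y * Fᵀ * lo μ F a * r * pc ν H e).trace ^ 2 ≤
      9 * (lw μ a * lw ν e)⁻¹ * ((phi (gramC (lw ν e) H) * (Y * Yᵀ)).trace *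
        M2 r (lw ν e) (lw μ a) Hᵀ F) := by
  have l0 := lw_pos hμ a
  have l1 := lw_pos hν e
  obtain ⟨P, B, hD, hP, hBs, hB⟩ := pc_fac hν kH e
  have e0 : Fᵀ * lo μ F a = (rg μ F a)ᵀ := by
    rw [← lo_mul hμ.le, transpose_mul, lo_symm hμ.le]
  have e1 : (Y * Fᵀ * lo μ F a * r * pc ν H e).trace =
      ((B * Y) * ((rg μ F a)ᵀ * r * P)).trace := by
    rw [hD, show Y * Fᵀ * lo μ F a * r * (P * B) = (Y * (Fᵀ * lo μ F a) * r * P) * B by
      simp only [Matrix.mul_assoc], trace_mul_comm, e0]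
    simp only [Matrix.mul_assoc]
  rw [e1]
  refine (trace_mul_sq_le _ _).trans ?_
  have nY : 0 ≤ ((B * Y) * (B * Y)ᵀ).trace := (psd_mul_transpose _).trace_nonneg
  have nV : 0 ≤ (((rg μ F a)ᵀ * r * P) * ((rg μ F a)ᵀ * r * P)ᵀ).trace :=
    (psd_mul_transpose _).trace_nonneg
  have s1 : ((B * Y) * (B * Y)ᵀ).trace ≤
      9 / 4 * (phi (gramC (lw ν e) H) * (Y * Yᵀ)).trace := by
    have q1 : ((B * Y) * (B * Y)ᵀ).trace = ((B * B) * (Y * Yᵀ)).trace := by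
      rw [transpose_mul, hBs, show B * Y * (Yᵀ * B) = (B * (Y * Yᵀ)) * B by
        simp only [Matrix.mul_assoc], trace_mul_comm]
      simp only [Matrix.mul_assoc]
    have q2 := trace_mul_le_left (psd_mul_transpose Y) hB
    rw [Matrix.smul_mul, trace_smul, smul_eq_mul] at q2
    rw [q1]
    exact q2
  have s2 : lw μ a * lw ν e * (((rg μ F a)ᵀ * r * P) * ((rg μ F a)ᵀ * r * P)ᵀ).trace ≤
      4 * M2 r (lw ν e) (lw μ a) Hᵀ F := by
    have q1 : lw μ a * lw ν e * (((rg μ F a)ᵀ * r * P) * ((rg μ F a)ᵀ * r * P)ᵀ).trace =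
        (gramR (lw μ a) (rg μ F a) * (r * gramR (lw ν e) P * r)).trace := by
      rw [transpose_mul, transpose_mul, transpose_transpose, hr, gramR, gramR,
        show (rg μ F a)ᵀ * r * P * (Pᵀ * (r * rg μ F a)) =
          ((rg μ F a)ᵀ * (r * P * Pᵀ * r)) * rg μ F a by simp only [Matrix.mul_assoc],
        trace_mul_comm]
      simp only [Matrix.mul_smul, Matrix.smul_mul, trace_smul, smul_eq_mul, Matrix.mul_assoc]
      ring
    have q2 : (gramR (lw μ a) (rg μ F a) * (r * gramR (lw ν e) P * r)).trace ≤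
        (((4 : ℝ) • phi (gramR (lw μ a) F)) * (r * gramR (lw ν e) P * r)).trace :=
      trace_mul_le_left (psd_conj_symm (gramR_psd l1.le _) hr) (rg_adc hμ.le kF a).2
    have q3 : (phi (gramR (lw μ a) F) * (r * gramR (lw ν e) P * r)).trace ≤
        (phi (gramR (lw μ a) F) * (r * phi (gramR (lw ν e) H) * r)).trace := by
      refine trace_mul_le_right (phi_psd (gramR_psd l0.le F)) ?_
      have := psd_conj_symm hP hr
      rwa [Matrix.mul_sub, Matrix.sub_mul] at this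
    rw [Matrix.smul_mul, trace_smul, smul_eq_mul] at q2
    have q4 : (phi (gramR (lw μ a) F) * (r * phi (gramR (lw ν e) H) * r)).trace =
        M2 r (lw ν e) (lw μ a) Hᵀ F := by
      rw [M2, gramC_transpose, tr_rot]
    rw [q4] at q3
    rw [q1]
    linarith
  have hM : 0 ≤ M2 r (lw ν e) (lw μ a) Hᵀ F := M2_nonneg hr l1.le l0.le _ _
  generalize ((B * Y) * (B * Y)ᵀ).trace = T1 at *
  generalize (((rg μ F a)ᵀ * r * P) * ((rg μ F a)ᵀ * r * P)ᵀ).trace = T2 at *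
  generalize (phi (gramC (lw ν e) H) * (Y * Yᵀ)).trace = T3 at *
  generalize M2 r (lw ν e) (lw μ a) Hᵀ F = T4 at *
  have hl : 0 < lw μ a * lw ν e := mul_pos l0 l1
  have h5 : T1 * (lw μ a * lw ν e * T2) ≤ 9 / 4 * T3 * (4 * T4) :=
    mul_le_mul s1 s2 (by positivity) (nY.trans s1)
  have e5 : T1 * T2 = (lw μ a * lw ν e)⁻¹ * (T1 * (lw μ a * lw ν e * T2)) := by
    field_simp
  rw [e5]
  refine (mul_le_mul_of_nonneg_left h5 (inv_nonneg.2 hl.le)).trans (le_of_eq ?_)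
  ring

/-- The saturated Gram matrix as the Gram matrix of a matrix dominated by `H` and capped. -/
theorem phi_split {ν : ℝ} (hν : 0 < ν) (H : Matrix n n ℝ) :
    ∃ D : Matrix n n ℝ, phi (gramC ν H) = ν • (Dᵀ * D) ∧ (Hᵀ * H - Dᵀ * D).PosSemidef ∧
      (ν⁻¹ • (1 : Matrix n n ℝ) - D * Dᵀ).PosSemidef := by
  have hR := gramR_psd hν.le H
  obtain ⟨ρ, hρ, hρ2⟩ := exists_sq (res_psd hR)
  have hs : ρᵀ = ρ := psd_isSymm hρ
  refine ⟨ρ * H, ?_, ?_, ?_⟩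
  · have h := phi_gramR hν.le Hᵀ
    rw [gramR_transpose, transpose_transpose, gramC_transpose] at h
    rw [h, transpose_mul, hs, show Hᵀ * ρ * (ρ * H) = Hᵀ * (ρ * ρ) * H by
      simp only [Matrix.mul_assoc], hρ2]
  · have h := psd_conj (one_sub_res_psd hR) Hᵀ
    rw [transpose_transpose] at h
    have e : Hᵀ * H - (ρ * H)ᵀ * (ρ * H) = Hᵀ * (1 - res (gramR ν H)) * H := by
      rw [transpose_mul, hs, show Hᵀ * ρ * (ρ * H) = Hᵀ * (ρ * ρ) * H by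
        simp only [Matrix.mul_assoc], hρ2, Matrix.mul_sub, Matrix.sub_mul, Matrix.mul_one]
    rw [e]
    exact h
  · have hcomm : ρ * gramR ν H * ρ = phi (gramR ν H) := by
      have h1 : ρ * (ρ * (1 + gramR ν H)) = 1 := by
        rw [← Matrix.mul_assoc, hρ2, res_mul_one_add hR]
      have h2 : (ρ * (1 + gramR ν H)) * ρ = 1 := mul_eq_one_comm.1 h1
      have h3 : ρ * gramR ν H * ρ = (ρ * (1 + gramR ν H)) * ρ - ρ * ρ := by noncomm_ring
      rw [h3, h2, hρ2, phi]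
    have e : ν⁻¹ • (1 : Matrix n n ℝ) - (ρ * H) * (ρ * H)ᵀ =
        ν⁻¹ • (1 - phi (gramR ν H)) := by
      rw [← hcomm, smul_sub, gramR, transpose_mul, hs]
      simp only [Matrix.mul_smul, Matrix.smul_mul, Matrix.mul_assoc, smul_smul,
        inv_mul_cancel₀ hν.ne', one_smul]
    rw [e]
    exact (one_sub_phi_psd hR).smul (inv_nonneg.2 hν.le)

end mat

section

variable {N : ℕ} {R : Pt} {c : ℕ → ℤ} {A C : ℕ → ℤ → ℤ → ℝ} {cA cC : ℝ}
  {s : ℕ → Finset Pt} {Y : (k : ℕ) → Pt → Matrix (Ix k) (Ix k) ℝ}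

/-- **The charge of the C-step** for `W = Y Aᵀ`: pair sum of `(A, C)` times pair sum of `(C, Y)`. -/
theorem c_cost (hs : ∀ k ∈ Icc 1 N, s k ⊆ bx3 N R k (c k)) (hA : 0 < cA) (hC : 0 < cC)
    (capA : ∀ k ∈ Icc 1 N, ∀ m ∈ s k, Cap k m.1 m.2.1 cA (A k))
    (capC : ∀ k ∈ Icc 1 N, ∀ m ∈ s k, Cap k m.1 m.2.2 cC (C k)) (a e : ℕ) {q r : ℝ}
    (hq : ∑ k ∈ Icc 1 N, ∑ m ∈ s k, (phi (gramC (lv cC e * (4 ^ k)⁻¹)
      (bl k (C k) m.1 m.2.2)) * (Y k m * (Y k m)ᵀ)).trace ≤ q)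
    (hr : prs N R.2.1 R.1 R.2.2 c (wp (lv cA a) (sp A)) (wp (lv cC e) (sp C)) ≤ r) :
    VW N s cA cC A C (fun k m => Y k m * (bl k (A k) m.1 m.2.1)ᵀ) a e ≤
      6 * (cA / 2 ^ (a - 1) * (cC / 2 ^ (e - 1)) * √(q * r)) := by
  have h₀ : 0 < (cA ^ 2)⁻¹ := by positivity
  have h₂ : 0 < (cC ^ 2)⁻¹ := by positivity
  have a0 := lv_pos hA a
  have a2 := lv_pos hC e
  have hk4 : ∀ k : ℕ, (0 : ℝ) < (4 ^ k)⁻¹ := fun k => by positivity
  set P : ℕ → Pt → ℝ := fun k m => (phi (gramC (lv cC e * (4 ^ k)⁻¹)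
      (bl k (C k) m.1 m.2.2)) * (Y k m * (Y k m)ᵀ)).trace with hP
  set Q : ℕ → Pt → ℝ := fun k m => 4 ^ k * M2 (hd k) (lv cC e * (4 ^ k)⁻¹)
    (lv cA a * (4 ^ k)⁻¹) (bl k (C k) m.1 m.2.2)ᵀ (bl k (A k) m.1 m.2.1) with hQ
  have nP : ∀ k m, 0 ≤ P k m := fun k m => trace_mul_nonneg
    (phi_psd (gramC_psd (mul_nonneg a2.le (hk4 k).le) _)) (psd_mul_transpose (Y k m))
  have nQ : ∀ k m, 0 ≤ Q k m := fun k m => mul_nonneg (by positivity)
    (M2_nonneg (hd_symm _) (mul_nonneg a2.le (hk4 _).le) (mul_nonneg a0.le (hk4 _).le) _ _)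
  have hQ' : ∑ k ∈ Icc 1 N, ∑ m ∈ s k, Q k m ≤ r := by
    refine le_trans (sum_le_sum fun k hk => sum_le_sum_of_subset_of_nonneg (hs k hk)
      fun m _ _ => nQ k m) ((le_of_eq ?_).trans hr)
    exact sum_congr rfl fun k _ => (mnk_one N R k (c k) a0.le a2.le (A k) (C k)).symm
  set D : ℕ → Pt → ℝ := fun k m => (2 ^ k : ℝ)⁻¹ *
    (Y k m * (bl k (A k) m.1 m.2.1)ᵀ * lo ((cA ^ 2)⁻¹ * (4 ^ k)⁻¹) (bl k (A k) m.1 m.2.1) a *
      hd k * pc ((cC ^ 2)⁻¹ * (4 ^ k)⁻¹) (bl k (C k) m.1 m.2.2) e).trace with hD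
  have hD2 : ∀ k ∈ Icc 1 N, ∀ m ∈ s k, D k m ^ 2 ≤
      36 * (cA / 2 ^ (a - 1) * (cC / 2 ^ (e - 1))) ^ 2 * (P k m * Q k m) := by
    intro k hk m hm
    have hb := piece_sq_le (hd_symm k) (mul_pos h₀ (hk4 k)) (mul_pos h₂ (hk4 k))
      (cap_one hA (capA k hk m hm)) (cap_one hC (capC k hk m hm)) (Y k m) a e
    simp only [lw_mul'] at hb
    have h4 : (4 : ℝ) ^ k = (2 ^ k) ^ 2 := by rw [← pow_mul, mul_comm, pow_mul]; norm_num
    have hi := inv_lv hC e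
    have hi2 := inv_lv hA a
    have hpq : 0 ≤ P k m * Q k m := mul_nonneg (nP k m) (nQ k m)
    have key : D k m ^ 2 ≤
        9 * (cA / 2 ^ (a - 1) * (cC / 2 ^ (e - 1))) ^ 2 * (P k m * Q k m) := by
      rw [hD]
      simp only
      rw [mul_pow]
      refine (mul_le_mul_of_nonneg_left hb (by positivity)).trans (le_of_eq ?_)
      rw [mul_pow, ← hi, ← hi2, hP, hQ]
      simp only
      change _ * (9 * (lv cA a * (4 ^ k)⁻¹ * (lv cC e * (4 ^ k)⁻¹))⁻¹ *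
        ((phi (gramC (lv cC e * (4 ^ k)⁻¹) (bl k (C k) m.1 m.2.2)) *
          (Y k m * (Y k m)ᵀ)).trace * M2 (hd k) (lv cC e * (4 ^ k)⁻¹)
    (lv cA a * (4 ^ k)⁻¹) (bl k (C k) m.1 m.2.2)ᵀ (bl k (A k) m.1 m.2.1))) = _
      have h2 : (2 : ℝ) ^ k ≠ 0 := by positivity
      have h3 : lv cC e ≠ 0 := a2.ne'
      have h5 : lv cA a ≠ 0 := a0.ne'
      generalize (phi (gramC (lv cC e * (4 ^ k)⁻¹) (bl k (C k) m.1 m.2.2)) *
          (Y k m * (Y k m)ᵀ)).trace = T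
      generalize M2 (hd k) (lv cC e * (4 ^ k)⁻¹)
        (lv cA a * (4 ^ k)⁻¹) (bl k (C k) m.1 m.2.2)ᵀ (bl k (A k) m.1 m.2.1) = M
      rw [h4]
      field_simp
    refine key.trans ?_
    nlinarith [mul_nonneg (sq_nonneg (cA / 2 ^ (a - 1) * (cC / 2 ^ (e - 1)))) hpq]
  set S : Finset (Σ _ : ℕ, Pt) := (Icc 1 N).sigma s with hS
  have sig : ∀ M : ℕ → Pt → ℝ, ∑ k ∈ Icc 1 N, ∑ m ∈ s k, M k m = ∑ i ∈ S, M i.1 i.2 :=
    fun M => by rw [hS, Finset.sum_sigma]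
  have hq' : ∑ k ∈ Icc 1 N, ∑ m ∈ s k, P k m ≤ q := hq
  rw [sig] at hQ' hq'
  have hfin : ∑ k ∈ Icc 1 N, ∑ m ∈ s k, |D k m| ≤
      6 * (cA / 2 ^ (a - 1) * (cC / 2 ^ (e - 1)) * √(q * r)) := by
    rw [sig fun k m => |D k m|]
    exact core2 S (fun i => D i.1 i.2) (fun i => P i.1 i.2) (fun i => Q i.1 i.2) (by positivity)
      (fun i _ => nP _ _) (fun i _ => nQ _ _)
      (fun i hi => hD2 i.1 (Finset.mem_sigma.1 (hS ▸ hi)).1 i.2 (Finset.mem_sigma.1 (hS ▸ hi)).2)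
      hq' hQ'
  exact hfin

/-- **The charge of the C-step**, the pair `(C, Y)` through the dominated and capped matrices. -/
theorem c_cost' (hs : ∀ k ∈ Icc 1 N, s k ⊆ bx3 N R k (c k)) (hA : 0 < cA) (hC : 0 < cC)
    (capA : ∀ k ∈ Icc 1 N, ∀ m ∈ s k, Cap k m.1 m.2.1 cA (A k))
    (capC : ∀ k ∈ Icc 1 N, ∀ m ∈ s k, Cap k m.1 m.2.2 cC (C k)) (a e : ℕ) {q r : ℝ}
    {G : ℕ → Pt → ℝ} (hG : ∀ k ∈ Icc 1 N, ∀ m ∈ s k, ∀ D : Matrix (Ix k) (Ix k) ℝ,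
      ((bl k (C k) m.1 m.2.2)ᵀ * bl k (C k) m.1 m.2.2 - Dᵀ * D).PosSemidef →
      (((cC / 2 ^ (e - 1)) ^ 2 * 4 ^ k) • (1 : Matrix (Ix k) (Ix k) ℝ) - D * Dᵀ).PosSemidef →
      (4 ^ k : ℝ)⁻¹ * ((D * Y k m) * (D * Y k m)ᵀ).trace ≤ G k m)
    (hq : ∑ k ∈ Icc 1 N, ∑ m ∈ s k, G k m ≤ q)
    (hr : prs N R.2.1 R.1 R.2.2 c (wp (lv cA a) (sp A)) (wp (lv cC e) (sp C)) ≤ r) :
    VW N s cA cC A C (fun k m => Y k m * (bl k (A k) m.1 m.2.1)ᵀ) a e ≤
      6 * (cA / 2 ^ (a - 1) * √(q * r)) := by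
  have a2 := lv_pos hC e
  have hi := inv_lv hC e
  set sC : ℝ := cC / 2 ^ (e - 1) with hsC
  have pC : 0 < sC := by positivity
  have hlv : lv cC e = (sC ^ 2)⁻¹ := by rw [← hi, inv_inv]
  have h := c_cost hs hA hC capA capC a e (Y := Y) (q := (sC ^ 2)⁻¹ * q) (r := r) ?_ hr
  · rw [← hsC] at h
    refine h.trans (le_of_eq ?_)
    rw [show (sC ^ 2)⁻¹ * q * r = (sC⁻¹) ^ 2 * (q * r) by rw [inv_pow]; ring,
      Real.sqrt_mul (sq_nonneg _), Real.sqrt_sq (by positivity)]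
    field_simp
  · refine le_trans ?_ (mul_le_mul_of_nonneg_left hq (by positivity : 0 ≤ (sC ^ 2)⁻¹))
    rw [mul_sum]
    refine sum_le_sum fun k hk => ?_
    rw [mul_sum]
    refine sum_le_sum fun m hm => ?_
    have hν : 0 < lv cC e * ((4 : ℝ) ^ k)⁻¹ := by positivity
    obtain ⟨D, h1, h2, h3⟩ := phi_split hν (bl k (C k) m.1 m.2.2)
    have e3 : (lv cC e * ((4 : ℝ) ^ k)⁻¹)⁻¹ = sC ^ 2 * 4 ^ k := by
      rw [hlv]
      field_simp
    rw [e3] at h3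
    have h4 := hG k hk m hm D h2 h3
    have e1 : (phi (gramC (lv cC e * (4 ^ k)⁻¹) (bl k (C k) m.1 m.2.2)) *
        (Y k m * (Y k m)ᵀ)).trace =
        (sC ^ 2)⁻¹ * ((4 ^ k : ℝ)⁻¹ * ((D * Y k m) * (D * Y k m)ᵀ).trace) := by
      have e2 : ((D * Y k m) * (D * Y k m)ᵀ).trace = ((Dᵀ * D) * (Y k m * (Y k m)ᵀ)).trace := by
        rw [transpose_mul, show D * Y k m * ((Y k m)ᵀ * Dᵀ) = (D * (Y k m * (Y k m)ᵀ)) * Dᵀ by
          simp only [Matrix.mul_assoc], trace_mul_comm]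
        simp only [Matrix.mul_assoc]
      rw [h1, e2, Matrix.smul_mul, trace_smul, smul_eq_mul, hlv, mul_assoc]
    rw [e1]
    exact mul_le_mul_of_nonneg_left h4 (by positivity)

/-- Sublinearity of the charges in the third matrix. -/
theorem VW_add (W W' : (k : ℕ) → Pt → Matrix (Ix k) (Ix k) ℝ) (a e : ℕ) :
    VW N s cA cC A C (fun k m => W k m + W' k m) a e ≤
      VW N s cA cC A C W a e + VW N s cA cC A C W' a e := by
  unfold VW
  rw [← sum_add_distrib]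
  refine sum_le_sum fun k _ => ?_
  rw [← sum_add_distrib]
  refine sum_le_sum fun m _ => ?_
  refine le_trans (le_of_eq ?_) (abs_add_le _ _)
  congr 1
  rw [← mul_add, ← trace_add]
  congr 2
  simp only [Matrix.add_mul]

theorem UW_add (W W' : (k : ℕ) → Pt → Matrix (Ix k) (Ix k) ℝ) (a e : ℕ) :
    UW N s cA cC A C (fun k m => W k m + W' k m) a e ≤
      UW N s cA cC A C W a e + UW N s cA cC A C W' a e := by
  unfold UW
  rw [← sum_add_distrib]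
  refine sum_le_sum fun k _ => ?_
  rw [← sum_add_distrib]
  refine sum_le_sum fun m _ => ?_
  refine le_trans (le_of_eq ?_) (abs_add_le _ _)
  congr 1
  rw [← mul_add, ← trace_add]
  congr 2
  simp only [Matrix.add_mul]

end

end

end Vale.Agent.P141.H609
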