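import Vale.Agent.P141.H609.RPW
import Vale.Agent.P141.H829.PairX

/-!
# The crude pair `(B, C~)` (hub `x1`) on the shifted grids, summed over `x0`

`RX_BC_cr` : `H829.RX_CA_sh` for the pair `(b, C)` with `lo_RP_labW`; the numbers `wf`, `wh` of
`H433.LoW` are kept.
-/

set_option linter.unusedSectionVars false

namespace Vale.Agent.P141.H609.CrM

open Finset Matrix
open Vale.Agent.P075 (Ix)
open Vale.Agent.P141.PL (Pt iv ix mem_iv ix_ix)
open Vale.Agent.P141.PL.H588 (Pl)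
open Vale.Agent.P141.PL.H804 (bx3 bl)
open Vale.Agent.P141.H736 (Path sqb sqQ)
open Vale.Agent.P141.H958
open Vale.Agent.P141.H338 (cu)
open Vale.Agent.P141.H581 (RX)
open Vale.Agent.P141.H795 (E8 ys)
open Vale.Agent.P141.H677 (rv)
open Vale.Agent.P141.H747 (sL sG gA gB gC sft shA shB shC)
open Vale.Agent.P141.H210 (shf rst Qsh Qr Qs PackS)
open Vale.Agent.P141.H829 (pwr_sh_lab plane_pl cu_sft)
open Vale.Agent.P141.H433 (Ct wf wh stk)
open Vale.Agent.P141.H103 (GW)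
open Vale.Agent.P141.H609.RPW (um eb ec lo_RP_labW)

noncomputable section

open scoped Classical

/-! ### contractions -/

/-- a cap is a contraction, both sides -/
theorem ct_of_cap {κ : Type*} [Fintype κ] [DecidableEq κ] {V : Matrix κ κ ℝ}
    (h : ∀ a : κ → ℝ, (V *ᵥ a) ⬝ᵥ (V *ᵥ a) ≤ a ⬝ᵥ a) : Ct V := by
  have n0 : ∀ a : κ → ℝ, 0 ≤ a ⬝ᵥ a := fun a => by
    unfold dotProduct
    exact sum_nonneg fun i _ => mul_self_nonneg _
  have h' : ∀ a : κ → ℝ, (Vᵀ *ᵥ a) ⬝ᵥ (Vᵀ *ᵥ a) ≤ a ⬝ᵥ a := by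
    intro a
    set w := Vᵀ *ᵥ a with hw
    have e1 : w ⬝ᵥ w = a ⬝ᵥ (V *ᵥ w) := by
      rw [hw, dotProduct_mulVec, ← mulVec_transpose, transpose_transpose, dotProduct_comm]
    have h1 := h w
    have h2 := n0 (a - V *ᵥ w)
    have e2 : (a - V *ᵥ w) ⬝ᵥ (a - V *ᵥ w) = a ⬝ᵥ a - 2 * (a ⬝ᵥ (V *ᵥ w)) +
        (V *ᵥ w) ⬝ᵥ (V *ᵥ w) := by
      rw [sub_dotProduct, dotProduct_sub, dotProduct_sub, dotProduct_comm (V *ᵥ w) a]
      ring
    rw [e2, ← e1] at h2
    linarith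
  constructor
  · refine PosSemidef.of_dotProduct_mulVec_nonneg ?_ fun x => ?_
    · rw [IsHermitian, conjTranspose_eq_transpose_of_trivial, transpose_sub, transpose_mul,
        transpose_transpose, transpose_one]
    · have e : star x ⬝ᵥ ((1 - Vᵀ * V) *ᵥ x) = x ⬝ᵥ x - (V *ᵥ x) ⬝ᵥ (V *ᵥ x) := by
        rw [star_trivial, sub_mulVec, one_mulVec, dotProduct_sub, ← mulVec_mulVec,
          dotProduct_mulVec x, ← mulVec_transpose, transpose_transpose]
      rw [e]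
      have := h x
      linarith
  · refine PosSemidef.of_dotProduct_mulVec_nonneg ?_ fun x => ?_
    · rw [IsHermitian, conjTranspose_eq_transpose_of_trivial, transpose_sub, transpose_mul,
        transpose_transpose, transpose_one]
    · have e : star x ⬝ᵥ ((1 - V * Vᵀ) *ᵥ x) = x ⬝ᵥ x - (Vᵀ *ᵥ x) ⬝ᵥ (Vᵀ *ᵥ x) := by
        rw [star_trivial, sub_mulVec, one_mulVec, dotProduct_sub, ← mulVec_mulVec,
          dotProduct_mulVec x, ← mulVec_transpose]
      rw [e]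
      have := h' x
      linarith

/-- the scaled cap -/
theorem ct_scaled {κ : Type*} [Fintype κ] [DecidableEq κ] {V : Matrix κ κ ℝ} {κ₀ : ℝ}
    (h0 : 0 < κ₀) (h : ∀ a : κ → ℝ, (V *ᵥ a) ⬝ᵥ (V *ᵥ a) ≤ κ₀ ^ 2 * (a ⬝ᵥ a)) :
    Ct (κ₀⁻¹ • V) := by
  refine ct_of_cap fun a => ?_
  rw [smul_mulVec, smul_dotProduct, dotProduct_smul, smul_eq_mul, smul_eq_mul, ← mul_assoc]
  have h1 := mul_le_mul_of_nonneg_left (h a) (by positivity : 0 ≤ κ₀⁻¹ * κ₀⁻¹)
  refine h1.trans (le_of_eq ?_)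
  field_simp

/-! ### labels of the two halves -/

section halves

variable {κ : Type*} [Fintype κ]

theorem cu_inl (e : κ ⊕ κ → ℤ) (v : κ → ℝ) (l : ℤ) :
    cu e (Sum.elim v (0 : κ → ℝ)) l = cu (fun i => e (Sum.inl i)) v l := by
  unfold H338.cu
  rw [Fintype.sum_sum_type]
  simp

theorem cu_inr (e : κ ⊕ κ → ℤ) (v : κ → ℝ) (l : ℤ) :
    cu e (Sum.elim (0 : κ → ℝ) v) l = cu (fun i => e (Sum.inr i)) v l := by
  unfold H338.cu
  rw [Fintype.sum_sum_type]
  simp

/-- the label functions of the translated, cut `b`, outer variable first -/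
theorem cu_shB (e : κ → ℤ) (K : ℕ) (M s : Pt) (b : ℕ → ℤ → ℤ → κ → ℝ) (l : ℤ) :
    (fun k y x => cu e (shB K M s b k x y) l) =
      shf s.2.1 s.1 (rst K M.2.1 M.1 fun k y x => cu e (b k x y) l) := by
  funext k y x
  unfold H747.shB H747.sft H210.shf H210.rst
  by_cases h : ix K (x + s.1) = M.1 ∧ ix K (y + s.2.1) = M.2.1
  · rw [if_pos h, if_pos ⟨h.2, h.1⟩]
  · rw [if_neg h, if_neg fun h' => h ⟨h'.2, h'.1⟩]
    unfold H338.cu
    simp

end halves

section shifted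

variable {K L : ℕ} {M : Pt} {κ : Type*} [Fintype κ] [DecidableEq κ]
  {b : ℤ → ℕ → ℤ → ℤ → κ → ℝ} {C : ℤ → ℕ → ℤ → ℤ → κ → ℝ}
  {QB QC : ℕ → Pt → Prop} {cP μB μC : ℝ}

/-- **The crude pair `(B, C~)` on the shifted grid**, summed over `x0`; `QB`, `QC` the affected
squares (`x0`-cell first, outer cell second), on the root. -/
theorem RX_BC_cr {e : κ ⊕ κ → ℤ} (he : Function.Injective e) (hm : ∀ i, e i ∈ lbs L)
    (hB0 : ∀ x0, b x0 0 = 0) (hC0 : ∀ x0, C x0 0 = 0)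
    (pB : ∀ x0, ∀ k < K, ∀ n ∈ iv (K - k) M.2.1, ∀ m ∈ iv (K - k) M.1,
      ¬ QB k (ix k x0, n, m) → ∀ y ∈ iv k n, ∀ x ∈ iv k m, b x0 (k + 1) x y = b x0 k x y)
    (pC : ∀ x0, ∀ k < K, ∀ n ∈ iv (K - k) M.2.2, ∀ m ∈ iv (K - k) M.1,
      ¬ QC k (ix k x0, n, m) → ∀ z ∈ iv k n, ∀ x ∈ iv k m, C x0 (k + 1) z x = C x0 k z x)
    (kB : ∀ x0, PackS K (Qr K M.2.1 M.1 fun k n m => QB k (ix k x0, n, m)) cP)
    (kC : ∀ x0, PackS K (Qr K M.2.2 M.1 fun k n m => QC k (ix k x0, n, m)) cP)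
    (hμB : 0 ≤ μB) (hμC : 0 ≤ μC)
    (bB : ∀ k < K, ∀ q0, ∀ n ∈ iv (K - k) M.2.1, ∀ m ∈ iv (K - k) M.1,
      ∑ x0 ∈ iv k q0, ∑ x ∈ iv k m, ∑ y ∈ iv k n, b x0 (k + 1) x y ⬝ᵥ b x0 (k + 1) x y ≤
        8 ^ k * μB)
    (bC : ∀ k < K, ∀ q0, ∀ n ∈ iv (K - k) M.2.2, ∀ m ∈ iv (K - k) M.1,
      ∑ x0 ∈ iv k q0, ∑ x ∈ iv k m, ∑ z ∈ iv k n, C x0 (k + 1) z x ⬝ᵥ C x0 (k + 1) z x ≤
        8 ^ k * μC) {s : Pt} {j : ℤ} (hj : j ∈ Icc (0 : ℤ) 2) {q : Pt} {t : ℤ} {ε κ₀ h : ℝ}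
    (hε : 0 < ε) (hε1 : ε ≤ 1) (hκ : 0 < κ₀) (hh : 0 < h)
    {Qg : ℤ → ℕ → ℤ → ℤ → Matrix κ κ ℝ}
    (hQ : ∀ x0 ∈ iv K t, ∀ k n x, ∀ a : κ → ℝ,
      (Qg x0 k n x *ᵥ a) ⬝ᵥ (Qg x0 k n x *ᵥ a) ≤ κ₀ ^ 2 * (a ⬝ᵥ a)) :
    RX (iv K t) (K + L) (fun x0 => sL L (sG K M (-x0) s j q)) h h
      (fun x0 k m => bl k (gB L e (fun k x y => Sum.elim (0 : κ → ℝ)
        (shB K M s (b x0) k x y)) k) m.2.1 m.2.2)
      (fun x0 k m => (bl k (gC L e (fun k z x => Sum.elim (ε • shC K M s (C x0) k z x)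
        (Qg x0 k (ix k z) x *ᵥ shC K M s (C x0) k z x)) k) m.1 m.2.2)ᵀ) ≤
      10 ^ 4 * ((ε + κ₀) ^ 2 * (ε ^ 2)⁻¹) * (4 ^ L * (64 * cP * (μB + μC) * 8 ^ K) + 4 ^ L *
        ∑ x0 ∈ iv K t, (∑ k ∈ range K, GW K (rv (M - q)).2.1 (rv (M - q)).2.2 (rv (M - q)).1
          (k + 1) (ix (k + 1) (ys (-x0) s) - j)
          (wf (um L e ε κ₀ fun k x n => κ₀⁻¹ • Qg x0 k n x)
            (eb L e (fun k x y => Sum.elim (0 : κ → ℝ) (shB K M s (b x0) k x y)) (L + (k + 1)))
            (ec L e (shC K M s (C x0)) (L + (k + 1))) k) +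
        ∑ k ∈ range K, wh (um L e ε κ₀ fun k x n => κ₀⁻¹ • Qg x0 k n x)
          (ec L e (shC K M s (C x0)) (L + (k + 1))) K (rv (M - q)).2.2 (rv (M - q)).1 k)) *
      h ^ 2 := by
  set qB : ℕ → Pt → Prop := fun k m => k < K ∧ ix (K - k) m.2.1 = M.2.1 ∧
    ix (K - k) m.2.2 = M.1 ∧ QB k m with hqB
  set qC : ℕ → Pt → Prop := fun k m => k < K ∧ ix (K - k) m.2.1 = M.2.2 ∧
    ix (K - k) m.2.2 = M.1 ∧ QC k m with hqC
  have il : Function.Injective fun i : κ => e (Sum.inl i) := fun i i' h =>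
    Sum.inl_injective (he h)
  have ir : Function.Injective fun i : κ => e (Sum.inr i) := fun i i' h =>
    Sum.inr_injective (he h)
  -- the paths
  have zB : ∀ x0, shB K M s (b x0) 0 = 0 := by
    intro x0
    funext x y
    unfold H747.shB H747.sft
    rw [hB0]
    split_ifs <;> rfl
  have zC : ∀ x0, shC K M s (C x0) 0 = 0 := by
    intro x0
    funext z y
    unfold H747.shC H747.sft
    rw [hC0]
    split_ifs <;> rfl
  have paB : ∀ x0, ∀ l ∈ lbs L, Path K (rv (M - q)).2.1 (rv (M - q)).2.2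
      (Qsh s.2.1 s.1 fun k i j => qB k (ix k x0, i, j))
      (fun k y x => cu (fun i => e (Sum.inr i)) (shB K M s (b x0) k x y) l) := by
    intro x0 l _
    rw [cu_shB]
    exact H210.path_tr (Q := fun k n m => QB k (ix k x0, n, m))
      (fun k hk n hn m hm hq y hy x hx => by
        rw [pB x0 k hk n hn m hm hq y hy x hx]) _ _ _ _
  have paC : ∀ x0, ∀ l ∈ lbs L, Path K (rv (M - q)).1 (rv (M - q)).2.2
      (Qsh s.2.2 s.1 fun k i j => qC k (ix k x0, i, j))
      (fun k z x => cu (fun i => e (Sum.inl i)) (shC K M s (C x0) k z x) l) := by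
    intro x0 l _
    have h' : (fun k z x => cu (fun i => e (Sum.inl i)) (shC K M s (C x0) k z x) l) =
      shf s.2.2 s.1 (rst K M.2.2 M.1 fun k z x => cu (fun i => e (Sum.inl i)) (C x0 k z x) l) :=
      cu_sft (fun i => e (Sum.inl i)) K M.2.2 M.1 s.2.2 s.1 (C x0) l
    rw [h']
    exact H210.path_tr (Q := fun k n m => QC k (ix k x0, n, m))
      (fun k hk n hn m hm hq z hz x hx => by
        rw [pC x0 k hk n hn m hm hq z hz x hx]) _ _ _ _
  -- the masses
  have mB : ∑ x0 ∈ iv K t, ∑ l ∈ lbs L, pwr K (rv (M - q)).2.1 (rv (M - q)).2.2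
      (Qsh s.2.1 s.1 fun k i j => qB k (ix k x0, i, j))
      (fun k y x => cu (fun i => e (Sum.inr i)) (shB K M s (b x0) k x y) l) ≤
      64 * cP * μB * 8 ^ K := by
    have h := pwr_sh_lab (N := K) (Qc := qB) (I := lbs L)
      (A := fun l x0 => rst K M.2.1 M.1 fun k y x =>
        cu (fun i => e (Sum.inr i)) (b x0 k x y) l)
      (cP := cP) (μ := μB) hμB (fun x0 => ?_) (fun k hk q0 i j => ?_) s.2.1 s.1 t
      (rv (M - q)).2.1 (rv (M - q)).2.2
    · refine le_trans (le_of_eq (sum_congr rfl fun x0 _ => ?_)) h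
      refine sum_congr rfl fun l _ => ?_
      rw [cu_shB]
    · intro J hJ I I'
      refine le_trans (le_of_eq ?_) (kB x0 J hJ I I')
      refine sum_congr rfl fun k _ => sum_congr rfl fun i _ => sum_congr rfl fun i' _ => ?_
      have hh : (k < K ∧ qB k (ix k x0, i, i')) ↔
          Qr K M.2.1 M.1 (fun k n m => QB k (ix k x0, n, m)) k i i' :=
        ⟨fun h => h.2, fun h => ⟨h.1, h⟩⟩
      by_cases hq : Qr K M.2.1 M.1 (fun k n m => QB k (ix k x0, n, m)) k i i'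
      · rw [if_pos hq, if_pos (hh.2 hq)]
      · rw [if_neg hq, if_neg fun h' => hq (hh.1 h')]
    · by_cases hh : ix (K - k) i = M.2.1 ∧ ix (K - k) j = M.1
      · refine le_trans (le_of_eq ?_) (bB k hk q0 i (mem_iv.2 hh.1) j (mem_iv.2 hh.2))
        refine sum_congr rfl fun x0 _ => ?_
        unfold H736.sqb
        rw [sum_comm]
        refine sum_congr rfl fun x' hx' => ?_
        rw [sum_comm]
        refine sum_congr rfl fun z' hz' => ?_
        have h2 := H338.sum_cu_cu ir (fun i => hm _) (b x0 (k + 1) x' z') (b x0 (k + 1) x' z')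
        unfold dotProduct
        rw [← h2]
        refine sum_congr rfl fun l _ => ?_
        unfold H210.rst
        rw [H210.ix_root hk.le hz', H210.ix_root hk.le hx', if_pos hh, pow_two]
      · have e0 : ∑ x0 ∈ iv k q0, ∑ l ∈ lbs L,
            sqb k i j (rst K M.2.1 M.1 (fun k y x =>
              cu (fun i => e (Sum.inr i)) (b x0 k x y) l) (k + 1)) = 0 := by
          refine sum_eq_zero fun x0 _ => sum_eq_zero fun l _ => ?_
          unfold H736.sqb
          refine sum_eq_zero fun y' hy' => sum_eq_zero fun z' hz' => ?_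
          unfold H210.rst
          rw [H210.ix_root hk.le hz', H210.ix_root hk.le hy', if_neg hh]
          norm_num
        rw [e0]
        positivity
  have mC : ∑ x0 ∈ iv K t, ∑ l ∈ lbs L, pwr K (rv (M - q)).1 (rv (M - q)).2.2
      (Qsh s.2.2 s.1 fun k i j => qC k (ix k x0, i, j))
      (fun k z x => cu (fun i => e (Sum.inl i)) (shC K M s (C x0) k z x) l) ≤
      64 * cP * μC * 8 ^ K := by
    have h := pwr_sh_lab (N := K) (Qc := qC) (I := lbs L)
      (A := fun l x0 => rst K M.2.2 M.1 fun k z x =>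
        cu (fun i => e (Sum.inl i)) (C x0 k z x) l)
      (cP := cP) (μ := μC) hμC (fun x0 => ?_) (fun k hk q0 i j => ?_) s.2.2 s.1 t
      (rv (M - q)).1 (rv (M - q)).2.2
    · refine le_trans (le_of_eq (sum_congr rfl fun x0 _ => ?_)) h
      refine sum_congr rfl fun l _ => ?_
      have h' : (fun k z x => cu (fun i => e (Sum.inl i)) (shC K M s (C x0) k z x) l) =
        shf s.2.2 s.1 (rst K M.2.2 M.1 fun k z x =>
          cu (fun i => e (Sum.inl i)) (C x0 k z x) l) :=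
        cu_sft (fun i => e (Sum.inl i)) K M.2.2 M.1 s.2.2 s.1 (C x0) l
      rw [h']
    · intro J hJ I I'
      refine le_trans (le_of_eq ?_) (kC x0 J hJ I I')
      refine sum_congr rfl fun k _ => sum_congr rfl fun i _ => sum_congr rfl fun i' _ => ?_
      have hh : (k < K ∧ qC k (ix k x0, i, i')) ↔
          Qr K M.2.2 M.1 (fun k n m => QC k (ix k x0, n, m)) k i i' :=
        ⟨fun h => h.2, fun h => ⟨h.1, h⟩⟩
      by_cases hq : Qr K M.2.2 M.1 (fun k n m => QC k (ix k x0, n, m)) k i i'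
      · rw [if_pos hq, if_pos (hh.2 hq)]
      · rw [if_neg hq, if_neg fun h' => hq (hh.1 h')]
    · by_cases hh : ix (K - k) i = M.2.2 ∧ ix (K - k) j = M.1
      · refine le_trans (le_of_eq ?_) (bC k hk q0 i (mem_iv.2 hh.1) j (mem_iv.2 hh.2))
        refine sum_congr rfl fun x0 _ => ?_
        unfold H736.sqb
        rw [sum_comm]
        refine sum_congr rfl fun x' hx' => ?_
        rw [sum_comm]
        refine sum_congr rfl fun z' hz' => ?_
        have h2 := H338.sum_cu_cu il (fun i => hm _) (C x0 (k + 1) z' x') (C x0 (k + 1) z' x')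
        unfold dotProduct
        rw [← h2]
        refine sum_congr rfl fun l _ => ?_
        unfold H210.rst
        rw [H210.ix_root hk.le hz', H210.ix_root hk.le hx', if_pos hh, pow_two]
      · have e0 : ∑ x0 ∈ iv k q0, ∑ l ∈ lbs L,
            sqb k i j (rst K M.2.2 M.1 (fun k z x =>
              cu (fun i => e (Sum.inl i)) (C x0 k z x) l) (k + 1)) = 0 := by
          refine sum_eq_zero fun x0 _ => sum_eq_zero fun l _ => ?_
          unfold H736.sqb
          refine sum_eq_zero fun y' hy' => sum_eq_zero fun z' hz' => ?_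
          unfold H210.rst
          rw [H210.ix_root hk.le hz', H210.ix_root hk.le hy', if_neg hh]
          norm_num
        rw [e0]
        positivity
  -- one point
  have one : ∀ x0 ∈ iv K t, H609.RP (K + L) (sL L (sG K M (-x0) s j q)) h h
      (fun k m => bl k (gB L e (fun k x y => Sum.elim (0 : κ → ℝ)
        (shB K M s (b x0) k x y)) k) m.2.1 m.2.2)
      (fun k m => (bl k (gC L e (fun k z x => Sum.elim (ε • shC K M s (C x0) k z x)
        (Qg x0 k (ix k z) x *ᵥ shC K M s (C x0) k z x)) k) m.1 m.2.2)ᵀ) ≤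
      10 ^ 4 * ((ε + κ₀) ^ 2 * (ε ^ 2)⁻¹) * (4 ^ L * (∑ l ∈ lbs L,
        pwr K (rv (M - q)).2.1 (rv (M - q)).2.2 (Qsh s.2.1 s.1 fun k i j => qB k (ix k x0, i, j))
          (fun k y x => cu (fun i => e (Sum.inr i)) (shB K M s (b x0) k x y) l) +
        ∑ l ∈ lbs L, pwr K (rv (M - q)).1 (rv (M - q)).2.2
          (Qsh s.2.2 s.1 fun k i j => qC k (ix k x0, i, j))
          (fun k z x => cu (fun i => e (Sum.inl i)) (shC K M s (C x0) k z x) l)) + 4 ^ L *
        (∑ k ∈ range K, GW K (rv (M - q)).2.1 (rv (M - q)).2.2 (rv (M - q)).1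
          (k + 1) (ix (k + 1) (ys (-x0) s) - j)
          (wf (um L e ε κ₀ fun k x n => κ₀⁻¹ • Qg x0 k n x)
            (eb L e (fun k x y => Sum.elim (0 : κ → ℝ) (shB K M s (b x0) k x y)) (L + (k + 1)))
            (ec L e (shC K M s (C x0)) (L + (k + 1))) k) +
        ∑ k ∈ range K, wh (um L e ε κ₀ fun k x n => κ₀⁻¹ • Qg x0 k n x)
          (ec L e (shC K M s (C x0)) (L + (k + 1))) K (rv (M - q)).2.2 (rv (M - q)).1 k)) *
      h ^ 2 := by
    intro x0 hx0
    have key := lo_RP_labW (N := K) (R := rv (M - q)) (s := sG K M (-x0) s j q)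
      (c := fun k => ix k (ys (-x0) s) - j)
      (b := fun k x y => Sum.elim (0 : κ → ℝ) (shB K M s (b x0) k x y))
      (C := shC K M s (C x0)) (V := fun k x n => κ₀⁻¹ • Qg x0 k n x)
      (QB := Qsh s.2.1 s.1 fun k i j => qB k (ix k x0, i, j))
      (QC := Qsh s.2.2 s.1 fun k i j => qC k (ix k x0, i, j))
      (DB := ∑ l ∈ lbs L,
        pwr K (rv (M - q)).2.1 (rv (M - q)).2.2 (Qsh s.2.1 s.1 fun k i j => qB k (ix k x0, i, j))
          (fun k y x => cu (fun i => e (Sum.inr i)) (shB K M s (b x0) k x y) l))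
      (DC := ∑ l ∈ lbs L, pwr K (rv (M - q)).1 (rv (M - q)).2.2
          (Qsh s.2.2 s.1 fun k i j => qC k (ix k x0, i, j))
          (fun k z x => cu (fun i => e (Sum.inl i)) (shC K M s (C x0) k z x) l))
      he hm (plane_pl _ _ hj) (fun _ _ => Subset.rfl)
      (fun k x n => ct_scaled hκ (hQ x0 hx0 k n x)) hh hε hε1 hκ.le
      (by
        funext x y i
        have hz : shB K M s (b x0) 0 x y = 0 := by rw [zB x0]; rfl
        rw [hz]
        rcases i with i | i <;> rfl)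
      (zC x0)
      (fun l hl => by simp only [cu_inr]; exact paB x0 l hl)
      (fun l hl => by simp only [cu_inl]; exact paC x0 l hl)
      (le_of_eq (by simp only [cu_inr]))
      (le_of_eq (by simp only [cu_inl]))
    have est : (fun k z x => Sum.elim (ε • shC K M s (C x0) k z x)
        (Qg x0 k (ix k z) x *ᵥ shC K M s (C x0) k z x)) =
        stk ε κ₀ (fun k x n => κ₀⁻¹ • Qg x0 k n x) (shC K M s (C x0)) := by
      funext k z x
      unfold H433.stk
      rw [smul_mulVec, smul_smul, mul_inv_cancel₀ hκ.ne', one_smul]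
    rw [est]
    exact key
  unfold H581.RX
  refine (sum_le_sum one).trans ?_
  rw [← sum_mul, ← mul_sum, sum_add_distrib, ← mul_sum, ← mul_sum, sum_add_distrib]
  have n0 : 0 ≤ 10 ^ 4 * ((ε + κ₀) ^ 2 * (ε ^ 2)⁻¹) := by positivity
  refine mul_le_mul_of_nonneg_right (mul_le_mul_of_nonneg_left ?_ n0) (sq_nonneg h)
  refine add_le_add (mul_le_mul_of_nonneg_left ?_ (by positivity)) le_rfl
  calc _ ≤ 64 * cP * μB * 8 ^ K + 64 * cP * μC * 8 ^ K := add_le_add mB mC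
    _ = _ := by ring

end shifted

end

end Vale.Agent.P141.H609.CrM
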