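import Vale.Agent.P141.H609.Z3
import Vale.Agent.P141.H331.Z1
import Vale.Agent.P141.H576.Reg1F

/-!
# P141, line (A): the low region of the gap part, for the family of planes

The third matrix is `W = (h S Bᵀ h - YF) Aᵀ` at every node: light pair minus flow pair.  `hzX`
bounds the forms when `A` is below `σ`, `v_costX` is the charge of a C-step.  Only sums over the
family are used: the light and the flow pair enter through abstract sums over the matrices which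
are dominated by the block of `C` and capped at the level.
-/

namespace Vale.Agent.P141.H609

open Finset Matrix Vale.Agent.P075 Vale.Agent.P141.PL Vale.Agent.P141.PL.H588
open Vale.Agent.P141.PL.H804 Vale.Agent.P141.H736 Vale.Agent.P141.H958 Vale.Agent.P141.H338
open Vale.Agent.P141.H576

noncomputable section

open scoped Classical

section single

variable {N : ℕ} {s : ℕ → Finset Pt} {A B C : ℕ → ℤ → ℤ → ℝ} {cA cB cC : ℝ}
  {S : (k : ℕ) → Pt → Matrix (Ix k) (Ix k) ℝ}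

theorem VW_sub (W W' : (k : ℕ) → Pt → Matrix (Ix k) (Ix k) ℝ) (a e : ℕ) :
    VW N s cA cC A C (fun k m => W k m - W' k m) a e ≤
      VW N s cA cC A C W a e + VW N s cA cC A C W' a e := by
  unfold VW
  rw [← sum_add_distrib]
  refine sum_le_sum fun k _ => ?_
  rw [← sum_add_distrib]
  refine sum_le_sum fun m _ => ?_
  refine le_trans (le_of_eq ?_) (abs_sub _ _)
  congr 1
  rw [← mul_sub, ← trace_sub]
  congr 2
  simp only [Matrix.sub_mul]

theorem UW_sub (W W' : (k : ℕ) → Pt → Matrix (Ix k) (Ix k) ℝ) (a e : ℕ) :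
    UW N s cA cC A C (fun k m => W k m - W' k m) a e ≤
      UW N s cA cC A C W a e + UW N s cA cC A C W' a e := by
  unfold UW
  rw [← sum_add_distrib]
  refine sum_le_sum fun k _ => ?_
  rw [← sum_add_distrib]
  refine sum_le_sum fun m _ => ?_
  refine le_trans (le_of_eq ?_) (abs_sub _ _)
  congr 1
  rw [← mul_sub, ← trace_sub]
  congr 2
  simp only [Matrix.sub_mul]

/-- The lowered block is dominated by the block and capped at its level. -/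
theorem rg_dom_cap {n : Type*} [Fintype n] [DecidableEq n] {μ : ℝ} (hμ : 0 < μ)
    {F : Matrix n n ℝ} (k : (1 - gramR μ F).PosSemidef) (a : ℕ) :
    (Fᵀ * F - (rg μ F a)ᵀ * rg μ F a).PosSemidef ∧
      ((lw μ a)⁻¹ • (1 : Matrix n n ℝ) - rg μ F a * (rg μ F a)ᵀ).PosSemidef := by
  constructor
  · have h := psd_conj (one_sub_lo_sq hμ.le F a) Fᵀ
    rw [transpose_transpose] at h
    convert h using 1
    rw [← lo_mul hμ.le, transpose_mul, Matrix.mul_sub, Matrix.sub_mul, Matrix.mul_one]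
    simp only [Matrix.mul_assoc]
  · cases a with
    | zero =>
      have h := k.smul (inv_nonneg.2 hμ.le)
      convert h using 1
      rw [smul_sub, gramR, smul_smul, inv_mul_cancel₀ hμ.ne', one_smul, rg]
      simp [lw]
    | succ a =>
      have h4 : 0 < 4 ^ a * μ := by positivity
      have hX := gramR_psd h4.le F
      have e2 : lw μ (a + 1) = 4 ^ a * μ := by simp [lw]
      have h1 : (1 - res (gramR (4 ^ a * μ) F) * gramR (4 ^ a * μ) F *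
          res (gramR (4 ^ a * μ) F)).PosSemidef := by
        rw [← res_sub_sq hX]
        have h2 := (one_sub_res_psd hX).add (psd_transpose_mul (res (gramR (4 ^ a * μ) F)))
        rw [res_symm hX] at h2
        convert h2 using 1
        abel
      have h := h1.smul (inv_nonneg.2 h4.le)
      rw [e2, ← lo_mul hμ.le, transpose_mul, lo_symm hμ.le]
      convert h using 1
      rw [smul_sub]
      congr 1
      simp only [lo]
      rw [show res (gramR (4 ^ a * μ) F) * F * (Fᵀ * res (gramR (4 ^ a * μ) F)) =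
        res (gramR (4 ^ a * μ) F) * (F * Fᵀ) * res (gramR (4 ^ a * μ) F) by
          simp only [Matrix.mul_assoc]]
      have e3 : F * Fᵀ = (4 ^ a * μ)⁻¹ • gramR (4 ^ a * μ) F := by
        rw [gramR, smul_smul, inv_mul_cancel₀ h4.ne', one_smul]
      conv_lhs => rw [e3]
      simp only [Matrix.mul_smul, Matrix.smul_mul]

/-- The pair sum `LP` from the dominated and capped matrices. -/
theorem LP_le_G (hC : 0 < cC) (capC : ∀ k ∈ Icc 1 N, ∀ m ∈ s k, Cap k m.1 m.2.2 cC (C k)) (e : ℕ)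
    {G : ℕ → Pt → ℝ} (hG : ∀ k ∈ Icc 1 N, ∀ m ∈ s k, ∀ D : Matrix (Ix k) (Ix k) ℝ,
      ((bl k (C k) m.1 m.2.2)ᵀ * bl k (C k) m.1 m.2.2 - Dᵀ * D).PosSemidef →
      (((cC / 2 ^ (e - 1)) ^ 2 * 4 ^ k) • (1 : Matrix (Ix k) (Ix k) ℝ) - D * Dᵀ).PosSemidef →
      (4 ^ k : ℝ)⁻¹ * ((D * YL cB B S 0 k m) * (D * YL cB B S 0 k m)ᵀ).trace ≤ G k m) :
    LP N s cB cC B C S 0 e ≤ ∑ k ∈ Icc 1 N, ∑ m ∈ s k, G k m := by
  refine sum_le_sum fun k hk => sum_le_sum fun m hm => ?_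
  have hk4 : (0 : ℝ) < (4 ^ k)⁻¹ := by positivity
  have hμ : 0 < (cC ^ 2)⁻¹ * ((4 : ℝ) ^ k)⁻¹ := by positivity
  have h := rg_dom_cap hμ (cap_oneR hC (capC k hk m hm)) e
  have e1 : (lw ((cC ^ 2)⁻¹ * ((4 : ℝ) ^ k)⁻¹) e)⁻¹ = (cC / 2 ^ (e - 1)) ^ 2 * 4 ^ k := by
    rw [lw_mul', mul_inv, inv_inv]
    congr 1
    exact inv_lv hC e
  rw [e1] at h
  refine le_trans (le_of_eq ?_) (hG k hk m hm _ h.1 h.2)
  congr 1
  have hr := hd_symm k
  have e2 : rg ((cC ^ 2)⁻¹ * (4 ^ k)⁻¹) (bl k (C k) m.1 m.2.2) e * YL cB B S 0 k m =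
      ZL cB cC B C S 0 e k m * hd k := by
    rw [YL, ZL, CL]
    simp only [Matrix.mul_assoc]
  rw [e2, transpose_mul, hr, show ZL cB cC B C S 0 e k m * hd k *
    (hd k * (ZL cB cC B C S 0 e k m)ᵀ) = ZL cB cC B C S 0 e k m * (hd k * hd k) *
      (ZL cB cC B C S 0 e k m)ᵀ by simp only [Matrix.mul_assoc], hd_sq, Matrix.mul_one]

end single

section fam

variable {N : ℕ} {R : Pt} {X : Finset ℤ} {c : ℤ → ℕ → ℤ} {A B C : ℤ → ℕ → ℤ → ℤ → ℝ}
  {cA cB cC : ℝ} {s : ℤ → ℕ → Finset Pt} {S : ℤ → (k : ℕ) → Pt → Matrix (Ix k) (Ix k) ℝ}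

/-- B-step, family. -/
theorem z2X (hs : ∀ i ∈ X, ∀ k ∈ Icc 1 N, s i k ⊆ bx3 N R k (c i k)) (hA : 0 < cA) (hB : 0 < cB)
    (capA : ∀ i ∈ X, ∀ k ∈ Icc 1 N, ∀ m ∈ s i k, Cap k m.1 m.2.1 cA (A i k))
    (capB : ∀ i ∈ X, ∀ k ∈ Icc 1 N, ∀ m ∈ s i k, Cap k m.2.1 m.2.2 cB (B i k)) (a b e : ℕ)
    {p q : ℝ}
    (hp : ∑ i ∈ X, prs N R.1 R.2.1 R.2.2 (c i) (wp (lv cA a) (A i)) (wp (lv cB b) (sp (B i))) ≤ p)
    (hq : ∑ i ∈ X, LP N (s i) cB cC (B i) (C i) (S i) (b + 1) e ≤ q) :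
    ∑ i ∈ X, U3 N (s i) cA cB cC (A i) (B i) (C i) (S i) a b e ≤
      ∑ i ∈ X, U3 N (s i) cA cB cC (A i) (B i) (C i) (S i) a (b + 1) e +
        6 * (cA / 2 ^ (a - 1) * √(p * q)) := by
  have h1 := sum_le_sum fun i hi => z2 (hs i hi) hA hB (capA i hi) (capB i hi) a b e
    (S := S i) (C := C i) (cC := cC) le_rfl le_rfl
  refine h1.trans ?_
  rw [sum_add_distrib, ← mul_sum, ← mul_sum]
  refine add_le_add le_rfl (mul_le_mul_of_nonneg_left (mul_le_mul_of_nonneg_left ?_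
    (by positivity)) (by norm_num))
  exact sum_sqrt_le (fun i => prs_nonneg ..) (fun i => LP_nonneg _ _) hp hq

/-- C-step, family. -/
theorem z2CX (hs : ∀ i ∈ X, ∀ k ∈ Icc 1 N, s i k ⊆ bx3 N R k (c i k)) (hA : 0 < cA) (hC : 0 < cC)
    (capA : ∀ i ∈ X, ∀ k ∈ Icc 1 N, ∀ m ∈ s i k, Cap k m.1 m.2.1 cA (A i k))
    (capC : ∀ i ∈ X, ∀ k ∈ Icc 1 N, ∀ m ∈ s i k, Cap k m.1 m.2.2 cC (C i k)) (a b e : ℕ)
    {r q : ℝ}
    (hr : ∑ i ∈ X, prs N R.2.1 R.1 R.2.2 (c i) (wp (lv cA a) (sp (A i)))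
      (wp (lv cC e) (sp (C i))) ≤ r)
    (hq : ∑ i ∈ X, LP N (s i) cB cC (B i) (C i) (S i) b (e + 1) ≤ q) :
    ∑ i ∈ X, U3 N (s i) cA cB cC (A i) (B i) (C i) (S i) a b e ≤
      ∑ i ∈ X, U3 N (s i) cA cB cC (A i) (B i) (C i) (S i) a b (e + 1) +
        6 * (cA / 2 ^ (a - 1) * √(r * q)) := by
  have h1 := sum_le_sum fun i hi => z2C (hs i hi) hA hC (capA i hi) (capC i hi) a b e
    (S := S i) (B := B i) (cB := cB) le_rfl le_rfl
  refine h1.trans ?_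
  rw [sum_add_distrib, ← mul_sum, ← mul_sum]
  refine add_le_add le_rfl (mul_le_mul_of_nonneg_left (mul_le_mul_of_nonneg_left ?_
    (by positivity)) (by norm_num))
  exact sum_sqrt_le (fun i => prs_nonneg ..) (fun i => LP_nonneg _ _) hr hq

/-- A-step, family. -/
theorem z2AX (hs : ∀ i ∈ X, ∀ k ∈ Icc 1 N, s i k ⊆ bx3 N R k (c i k)) (hA : 0 < cA)
    (hB : 0 < cB) (hC : 0 < cC)
    (capA : ∀ i ∈ X, ∀ k ∈ Icc 1 N, ∀ m ∈ s i k, Cap k m.1 m.2.1 cA (A i k))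
    (capB : ∀ i ∈ X, ∀ k ∈ Icc 1 N, ∀ m ∈ s i k, Cap k m.2.1 m.2.2 cB (B i k))
    (capC : ∀ i ∈ X, ∀ k ∈ Icc 1 N, ∀ m ∈ s i k, Cap k m.1 m.2.2 cC (C i k))
    (hS : ∀ i ∈ X, ∀ k ∈ Icc 1 N, ∀ m ∈ s i k, (1 - (S i k m)ᵀ * S i k m).PosSemidef)
    (a b e : ℕ) {p r : ℝ}
    (hp : ∑ i ∈ X, prs N R.1 R.2.1 R.2.2 (c i) (wp (lv cA a) (A i)) (wp (lv cB b) (sp (B i))) ≤ p)
    (hr : ∑ i ∈ X, prs N R.2.1 R.1 R.2.2 (c i) (wp (lv cA a) (sp (A i)))
      (wp (lv cC e) (sp (C i))) ≤ r) :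
    ∑ i ∈ X, U3 N (s i) cA cB cC (A i) (B i) (C i) (S i) a b e ≤
      ∑ i ∈ X, U3 N (s i) cA cB cC (A i) (B i) (C i) (S i) (a + 1) b e +
        6 * (cA / 2 ^ (a - 1) * (cB / 2 ^ (b - 1)) * (cC / 2 ^ (e - 1)) * √(p * r)) := by
  have h1 := sum_le_sum fun i hi => z2A (hs i hi) hA hB hC (capA i hi) (capB i hi) (capC i hi)
    (hS i hi) a b e le_rfl le_rfl
  refine h1.trans ?_
  rw [sum_add_distrib, ← mul_sum, ← mul_sum]
  refine add_le_add le_rfl (mul_le_mul_of_nonneg_left (mul_le_mul_of_nonneg_left ?_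
    (by positivity)) (by norm_num))
  exact sum_sqrt_le (fun i => prs_nonneg ..) (fun i => prs_nonneg ..) hp hr

theorem U3_tailX (hA : 0 < cA) (hB : 0 < cB) (hC : 0 < cC)
    (capA : ∀ i ∈ X, ∀ k ∈ Icc 1 N, ∀ m ∈ s i k, Cap k m.1 m.2.1 cA (A i k))
    (capB : ∀ i ∈ X, ∀ k ∈ Icc 1 N, ∀ m ∈ s i k, Cap k m.2.1 m.2.2 cB (B i k))
    (capC : ∀ i ∈ X, ∀ k ∈ Icc 1 N, ∀ m ∈ s i k, Cap k m.1 m.2.2 cC (C i k))
    (hS : ∀ i ∈ X, ∀ k ∈ Icc 1 N, ∀ m ∈ s i k, (1 - (S i k m)ᵀ * S i k m).PosSemidef) :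
    ∃ K : ℝ, ∀ a b e : ℕ, ∑ i ∈ X, U3 N (s i) cA cB cC (A i) (B i) (C i) (S i) a b e ≤
      K * (2 ^ (a + b + e))⁻¹ := by
  have h := fun i : X => U3_tail (S := S i.1) hA hB hC (capA i.1 i.2) (capB i.1 i.2)
    (capC i.1 i.2) (hS i.1 i.2)
  choose K _ hK using h
  refine ⟨∑ i : X, K i, fun a b e => ?_⟩
  rw [sum_mul, ← sum_coe_sort X]
  exact sum_le_sum fun i _ => hK i a b e

variable {QA QB QC : ℤ → ℕ → ℤ → ℤ → Prop} {da db dc : ℤ → ℝ} {DA DB DC : ℝ}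

theorem prsX_AB (hc : ∀ i ∈ X, Pl (c i)) (hA : 0 < cA) (hB : 0 < cB)
    (eA : ∀ i ∈ X, L2E N R.1 R.2.1 (QA i) (A i) (da i))
    (eB : ∀ i ∈ X, L2E N R.2.1 R.2.2 (QB i) (B i) (db i)) (hda : ∑ i ∈ X, da i ≤ DA)
    (hdb : ∑ i ∈ X, db i ≤ DB) (a b : ℕ) :
    ∑ i ∈ X, prs N R.1 R.2.1 R.2.2 (c i) (wp (lv cA a) (A i)) (wp (lv cB b) (sp (B i))) ≤
      550 * (((cA / 2 ^ (a - 1)) ^ 2)⁻¹ * DA + ((cB / 2 ^ (b - 1)) ^ 2)⁻¹ * DB) := by
  refine (sum_le_sum fun i hi => prs_AB (hc i hi) hA hB (eA i hi) (eB i hi) a b).trans ?_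
  rw [← mul_sum, sum_add_distrib, ← mul_sum, ← mul_sum]
  refine mul_le_mul_of_nonneg_left (add_le_add (mul_le_mul_of_nonneg_left hda (by positivity))
    (mul_le_mul_of_nonneg_left hdb (by positivity))) (by norm_num)

theorem prsX_AC (hc : ∀ i ∈ X, Pl (c i)) (hA : 0 < cA) (hC : 0 < cC)
    (eA : ∀ i ∈ X, L2E N R.1 R.2.1 (QA i) (A i) (da i))
    (eC : ∀ i ∈ X, L2E N R.1 R.2.2 (QC i) (C i) (dc i)) (hda : ∑ i ∈ X, da i ≤ DA)
    (hdc : ∑ i ∈ X, dc i ≤ DC) (a e : ℕ) :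
    ∑ i ∈ X, prs N R.2.1 R.1 R.2.2 (c i) (wp (lv cA a) (sp (A i))) (wp (lv cC e) (sp (C i))) ≤
      550 * (((cA / 2 ^ (a - 1)) ^ 2)⁻¹ * DA + ((cC / 2 ^ (e - 1)) ^ 2)⁻¹ * DC) := by
  refine (sum_le_sum fun i hi => prs_AC (hc i hi) hA hC (eA i hi) (eC i hi) a e).trans ?_
  rw [← mul_sum, sum_add_distrib, ← mul_sum, ← mul_sum]
  refine mul_le_mul_of_nonneg_left (add_le_add (mul_le_mul_of_nonneg_left hda (by positivity))
    (mul_le_mul_of_nonneg_left hdc (by positivity))) (by norm_num)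

/-- **Lowering of the three functions with a node operator, family.** -/
theorem z3X (hc : ∀ i ∈ X, Pl (c i))
    (hs : ∀ i ∈ X, ∀ k ∈ Icc 1 N, s i k ⊆ bx3 N R k (c i k)) (hA : 0 < cA)
    (hB : 0 < cB) (hC : 0 < cC)
    (capA : ∀ i ∈ X, ∀ k ∈ Icc 1 N, ∀ m ∈ s i k, Cap k m.1 m.2.1 cA (A i k))
    (capB : ∀ i ∈ X, ∀ k ∈ Icc 1 N, ∀ m ∈ s i k, Cap k m.2.1 m.2.2 cB (B i k))
    (capC : ∀ i ∈ X, ∀ k ∈ Icc 1 N, ∀ m ∈ s i k, Cap k m.1 m.2.2 cC (C i k))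
    (hS : ∀ i ∈ X, ∀ k ∈ Icc 1 N, ∀ m ∈ s i k, (1 - (S i k m)ᵀ * S i k m).PosSemidef)
    (eA : ∀ i ∈ X, L2E N R.1 R.2.1 (QA i) (A i) (da i))
    (eB : ∀ i ∈ X, L2E N R.2.1 R.2.2 (QB i) (B i) (db i))
    (eC : ∀ i ∈ X, L2E N R.1 R.2.2 (QC i) (C i) (dc i)) (hda : ∑ i ∈ X, da i ≤ DA)
    (hdb : ∑ i ∈ X, db i ≤ DB) (hdc : ∑ i ∈ X, dc i ≤ DC) {D Q κ σ σ₀ : ℝ} (hD : DA + DB ≤ D)
    (hD' : DA + DC ≤ D) (a₀ e₀ : ℕ)
    (hQ : ∑ i ∈ X, LP N (s i) cB cC (B i) (C i) (S i) 0 e₀ ≤ Q) (hκ0 : 0 ≤ κ) (hσ₀ : 0 ≤ σ₀)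
    (hκ : ∀ b e, cB / 2 ^ (b - 1) ≤ σ₀ → cC / 2 ^ (e - 1) ≤ σ₀ →
      ∑ i ∈ X, LP N (s i) cB cC (B i) (C i) (S i) b e ≤
        κ * max (cB / 2 ^ (b - 1)) (cC / 2 ^ (e - 1)) ^ 2)
    {LB LC : ℕ} (lB : cB / 2 ^ (LB - 1) ≤ σ₀) (lC : cC / 2 ^ (LC - 1) ≤ σ₀)
    (ha : cA / 2 ^ (a₀ - 1) ≤ σ) :
    ∑ i ∈ X, U3 N (s i) cA cB cC (A i) (B i) (C i) (S i) a₀ 0 e₀ ≤
      9900 * D * σ + 6 * √(550 * D * Q) * (LB + LC) + 36 * √(550 * D * κ) * σ₀ := by
  have nDA : 0 ≤ DA := (sum_nonneg fun i hi => (pwr_nonneg ..).trans (eA i hi).own).trans hda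
  have nDB : 0 ≤ DB := (sum_nonneg fun i hi => (pwr_nonneg ..).trans (eB i hi).own).trans hdb
  have nDC : 0 ≤ DC := (sum_nonneg fun i hi => (pwr_nonneg ..).trans (eC i hi).own).trans hdc
  have nLP : ∀ b e, 0 ≤ ∑ i ∈ X, LP N (s i) cB cC (B i) (C i) (S i) b e := fun b e =>
    sum_nonneg fun i _ => LP_nonneg _ _
  have nD : 0 ≤ D := by linarith
  have nQ : 0 ≤ Q := (nLP 0 e₀).trans hQ
  set y : ℝ := 6 * √(550 * D * κ) with hy
  set z : ℝ := 6 * √(550 * D * Q) with hz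
  have y0 : 0 ≤ y := by positivity
  have z0 : 0 ≤ z := by positivity
  set κA : ℕ → ℝ := fun a => 3300 * D * (cA / 2 ^ (a - 1)) with hκA
  set κB : ℕ → ℝ := fun b => if cB / 2 ^ (b - 1) ≤ σ₀ then y * (cB / 2 ^ (b - 1)) else z with hκB
  set κC : ℕ → ℝ := fun e => if cC / 2 ^ (e - 1) ≤ σ₀ then y * (cC / 2 ^ (e - 1)) else z with hκC
  have nA : ∀ j, 0 ≤ κA j := fun j => by positivity
  have nB : ∀ j, 0 ≤ κB j := fun j => by
    simp only [hκB]
    split_ifs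
    · positivity
    · exact z0
  have nC : ∀ j, 0 ≤ κC j := fun j => by
    simp only [hκC]
    split_ifs
    · positivity
    · exact z0
  obtain ⟨K, hK⟩ := U3_tailX (S := S) hA hB hC capA capB capC hS
  have kap : ∀ {x q : ℝ}, 0 ≤ x → q ≤ κ * x ^ 2 → 6 * √(550 * D * q) ≤ y * x := by
    intro x q hx hq
    have h1 : √(550 * D * q) ≤ √(550 * D * κ) * x := by
      conv_rhs => rw [← Real.sqrt_sq hx, ← Real.sqrt_mul (by positivity)]
      refine Real.sqrt_le_sqrt ?_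
      nlinarith [mul_le_mul_of_nonneg_left hq (by positivity : 0 ≤ 550 * D)]
    rw [hy]
    linarith
  have kap' : ∀ {q : ℝ}, q ≤ Q → 6 * √(550 * D * q) ≤ z := by
    intro q hq
    rw [hz]
    refine mul_le_mul_of_nonneg_left (Real.sqrt_le_sqrt ?_) (by norm_num)
    exact mul_le_mul_of_nonneg_left hq (by positivity)
  have anti : ∀ b e, e₀ ≤ e → ∑ i ∈ X, LP N (s i) cB cC (B i) (C i) (S i) b e ≤ Q :=
    fun b e he => (sum_le_sum fun i _ => LP_anti (Nat.zero_le b) he).trans hQ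
  have main := ind3 (f := fun a b e => ∑ i ∈ X, U3 N (s i) cA cB cC (A i) (B i) (C i) (S i) a b e)
    nA nB nC hK (a₀ := a₀) (b₀ := 0) (e₀ := e₀)
    (fun a b e _ _ he => ?_) (SA := 9900 * D * σ) (SB := z * LB + y * (3 * σ₀))
    (SC := z * LC + y * (3 * σ₀)) (fun L => ?_) (fun L => ?_) (fun L => ?_)
  · refine main.trans (le_of_eq ?_)
    rw [hy, hz]
    ring
  · set xA := cA / 2 ^ (a - 1) with hxA
    set xB := cB / 2 ^ (b - 1) with hxB
    set xC := cC / 2 ^ (e - 1) with hxC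
    have pA : 0 < xA := by positivity
    have pB : 0 < xB := by positivity
    have pC : 0 < xC := by positivity
    have p1 := prsX_AB hc hA hB eA eB hda hdb a b
    have p2 := prsX_AC hc hA hC eA eC hda hdc a e
    rw [← hxA, ← hxB] at p1
    rw [← hxA, ← hxC] at p2
    by_cases h1 : xB ≤ xA ∧ xC ≤ xA
    · left
      refine (z2AX hs hA hB hC capA capB capC hS a b e p1 p2).trans (add_le_add le_rfl ?_)
      have h2 := highest_cost' pA pB pC h1.1 h1.2 nDA nDB nDC hD hD'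
      rw [← hxA, ← hxB, ← hxC, hκA]
      simp only
      rw [← hxA]
      linarith
    · rw [not_and_or, not_le, not_le] at h1
      rcases le_or_gt xC xB with h2 | h2
      · right; left
        have hAB : xA ≤ xB := by
          rcases h1 with h1 | h1
          · exact h1.le
          · exact (h1.trans_le h2).le
        refine (z2X hs hA hB capA capB a b e p1 (le_refl _)).trans (add_le_add le_rfl ?_)
        have h3 := highest_cost pA hAB nDB hD (nLP (b + 1) e)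
        rw [← hxA, hκB]
        simp only
        rw [← hxB]
        have h4 := mul_le_mul_of_nonneg_left h3 (by norm_num : (0 : ℝ) ≤ 6)
        split_ifs with h5
        · refine h4.trans (kap pB.le ?_)
          have h6 : cB / 2 ^ (b + 1 - 1) ≤ xB := lev_anti hB.le (Nat.le_succ b)
          refine (hκ (b + 1) e (h6.trans h5) (h2.trans h5)).trans ?_
          refine mul_le_mul_of_nonneg_left ?_ hκ0
          exact pow_le_pow_left₀ (le_max_of_le_right pC.le) (max_le h6 h2) 2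
        · exact h4.trans (kap' (anti (b + 1) e he))
      · right; right
        have hAC : xA ≤ xC := by
          rcases h1 with h1 | h1
          · exact (h1.trans h2).le
          · exact h1.le
        refine (z2CX hs hA hC capA capC a b e p2 (le_refl _)).trans (add_le_add le_rfl ?_)
        have h3 := highest_cost pA hAC nDC hD' (nLP b (e + 1))
        rw [← hxA, hκC]
        simp only
        rw [← hxC]
        have h4 := mul_le_mul_of_nonneg_left h3 (by norm_num : (0 : ℝ) ≤ 6)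
        split_ifs with h5
        · refine h4.trans (kap pC.le ?_)
          have h6 : cC / 2 ^ (e + 1 - 1) ≤ xC := lev_anti hC.le (Nat.le_succ e)
          refine (hκ b (e + 1) (h2.le.trans h5) (h6.trans h5)).trans ?_
          refine mul_le_mul_of_nonneg_left ?_ hκ0
          exact pow_le_pow_left₀ (le_max_of_le_left pB.le) (max_le h2.le h6) 2
        · exact h4.trans (kap' (anti b (e + 1) (he.trans (Nat.le_succ e))))
  · rw [hκA]
    simp only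
    rw [← mul_sum]
    have h1 := lev_sum hA.le a₀ L
    have h2 := h1.trans (mul_le_mul_of_nonneg_left ha (by norm_num : (0 : ℝ) ≤ 3))
    have h3 := mul_le_mul_of_nonneg_left h2 (by positivity : 0 ≤ 3300 * D)
    linarith
  · have h := cost_sum hB.le hσ₀ y0 z0 lB 0 L
    simpa only [Nat.sub_zero] using h
  · refine (cost_sum hC.le hσ₀ y0 z0 lC e₀ L).trans ?_
    have h1 : ((LC - e₀ : ℕ) : ℝ) ≤ LC := by exact_mod_cast Nat.sub_le LC e₀
    have h2 := mul_le_mul_of_nonneg_left h1 z0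
    linarith

end fam

end

end Vale.Agent.P141.H609
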