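import Vale.Agent.P141.H609.HZF

/-!
# P141, line (A): regions 1 and 3 of the gap part for the family of planes, all hypotheses

`PH` is the pair sum of `C` and an arbitrary `Y` at the level of `C`; it bounds both the charge of
a C-step (`v_costX`) and the pair sum `LP` of the light part (`LP_le_PH`).  `hzX` is region 3,
`tzX` is region 1 with region 3 inserted, `tzX_lab` the same with labels.
-/

namespace Vale.Agent.P141.H609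

open Finset Matrix Vale.Agent.P075 Vale.Agent.P141.PL Vale.Agent.P141.PL.H588
open Vale.Agent.P141.PL.H804 Vale.Agent.P141.H736 Vale.Agent.P141.H958 Vale.Agent.P141.H338
open Vale.Agent.P141.H576

noncomputable section

open scoped Classical

/-- The pair of `C` and `Y` at the level of `C`. -/
def PH (N : ℕ) (s : ℕ → Finset Pt) (cC : ℝ) (C : ℕ → ℤ → ℤ → ℝ)
    (Y : (k : ℕ) → Pt → Matrix (Ix k) (Ix k) ℝ) (e : ℕ) : ℝ :=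
  (cC / 2 ^ (e - 1)) ^ 2 * ∑ k ∈ Icc 1 N, ∑ m ∈ s k, (phi (gramC (lv cC e * (4 ^ k)⁻¹)
      (bl k (C k) m.1 m.2.2)) * (Y k m * (Y k m)ᵀ)).trace

section single

variable {N : ℕ} {R : Pt} {c : ℕ → ℤ} {s : ℕ → Finset Pt} {A B C : ℕ → ℤ → ℤ → ℝ}
  {cA cB cC : ℝ} {S Y : (k : ℕ) → Pt → Matrix (Ix k) (Ix k) ℝ}

theorem PH_nonneg (hC : 0 < cC) (e : ℕ) : 0 ≤ PH N s cC C Y e := by
  refine mul_nonneg (sq_nonneg _) (sum_nonneg fun k _ => sum_nonneg fun m _ => ?_)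
  exact trace_mul_nonneg (phi_psd (gramC_psd (mul_nonneg (lv_pos hC e).le (by positivity)) _))
    (psd_mul_transpose (Y k m))

/-- `PH` from the dominated and capped matrices. -/
theorem PH_le_G (hC : 0 < cC) (e : ℕ) {G : ℕ → Pt → ℝ}
    (hG : ∀ k ∈ Icc 1 N, ∀ m ∈ s k, ∀ D : Matrix (Ix k) (Ix k) ℝ,
      ((bl k (C k) m.1 m.2.2)ᵀ * bl k (C k) m.1 m.2.2 - Dᵀ * D).PosSemidef →
      (((cC / 2 ^ (e - 1)) ^ 2 * 4 ^ k) • (1 : Matrix (Ix k) (Ix k) ℝ) - D * Dᵀ).PosSemidef →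
      (4 ^ k : ℝ)⁻¹ * ((D * Y k m) * (D * Y k m)ᵀ).trace ≤ G k m) :
    PH N s cC C Y e ≤ ∑ k ∈ Icc 1 N, ∑ m ∈ s k, G k m := by
  have a2 := lv_pos hC e
  have hi := inv_lv hC e
  unfold PH
  set sC : ℝ := cC / 2 ^ (e - 1) with hsC
  have pC : 0 < sC := by positivity
  have hlv : lv cC e = (sC ^ 2)⁻¹ := by rw [← hi, inv_inv]
  rw [mul_sum]
  refine sum_le_sum fun k hk => ?_
  rw [mul_sum]
  refine sum_le_sum fun m hm => ?_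
  have hν : 0 < lv cC e * ((4 : ℝ) ^ k)⁻¹ := by positivity
  obtain ⟨D, h1, h2, h3⟩ := phi_split hν (bl k (C k) m.1 m.2.2)
  have e3 : (lv cC e * ((4 : ℝ) ^ k)⁻¹)⁻¹ = sC ^ 2 * 4 ^ k := by
    rw [hlv]
    field_simp
  rw [e3] at h3
  have h4 := hG k hk m hm D h2 h3
  refine le_trans (le_of_eq ?_) h4
  have e2 : ((D * Y k m) * (D * Y k m)ᵀ).trace = ((Dᵀ * D) * (Y k m * (Y k m)ᵀ)).trace := by
    rw [transpose_mul, show D * Y k m * ((Y k m)ᵀ * Dᵀ) = (D * (Y k m * (Y k m)ᵀ)) * Dᵀ by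
      simp only [Matrix.mul_assoc], trace_mul_comm]
    simp only [Matrix.mul_assoc]
  rw [h1, e2, Matrix.smul_mul, trace_smul, smul_eq_mul, hlv]
  field_simp

/-- The pair sum `LP` of the light part is at most `4 PH`. -/
theorem LP_le_PH (hC : 0 < cC) (capC : ∀ k ∈ Icc 1 N, ∀ m ∈ s k, Cap k m.1 m.2.2 cC (C k))
    (e : ℕ) : LP N s cB cC B C S 0 e ≤ 4 * PH N s cC C (YL cB B S 0) e := by
  have a2 := lv_pos hC e
  have hi := inv_lv hC e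
  unfold PH LP
  set sC : ℝ := cC / 2 ^ (e - 1) with hsC
  have pC : 0 < sC := by positivity
  have hlv : lv cC e = (sC ^ 2)⁻¹ := by rw [← hi, inv_inv]
  rw [← mul_assoc, mul_sum]
  refine sum_le_sum fun k hk => ?_
  rw [mul_sum]
  refine sum_le_sum fun m hm => ?_
  have hk4 : (0 : ℝ) < (4 ^ k)⁻¹ := by positivity
  have hμ : 0 < (cC ^ 2)⁻¹ * ((4 : ℝ) ^ k)⁻¹ := by positivity
  have h := (rg_adc hμ.le (cap_one hC (capC k hk m hm)) e).1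
  rw [lw_mul', show lw (cC ^ 2)⁻¹ e = lv cC e from rfl] at h
  set Yk := YL cB B S 0 k m with hYk
  have e2 : ZL cB cC B C S 0 e k m * hd k =
      rg ((cC ^ 2)⁻¹ * (4 ^ k)⁻¹) (bl k (C k) m.1 m.2.2) e * Yk := by
    rw [hYk, YL, ZL, CL]
    simp only [Matrix.mul_assoc]
  have hr := hd_symm k
  have e3 : (ZL cB cC B C S 0 e k m * (ZL cB cC B C S 0 e k m)ᵀ).trace =
      (((rg ((cC ^ 2)⁻¹ * (4 ^ k)⁻¹) (bl k (C k) m.1 m.2.2) e)ᵀ *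
        rg ((cC ^ 2)⁻¹ * (4 ^ k)⁻¹) (bl k (C k) m.1 m.2.2) e) * (Yk * Ykᵀ)).trace := by
    set X := rg ((cC ^ 2)⁻¹ * (4 ^ k)⁻¹) (bl k (C k) m.1 m.2.2) e with hX
    have q1 : ZL cB cC B C S 0 e k m * (ZL cB cC B C S 0 e k m)ᵀ =
        (ZL cB cC B C S 0 e k m * hd k) * (ZL cB cC B C S 0 e k m * hd k)ᵀ := by
      rw [transpose_mul, hr, show ZL cB cC B C S 0 e k m * hd k *
        (hd k * (ZL cB cC B C S 0 e k m)ᵀ) = ZL cB cC B C S 0 e k m * (hd k * hd k) *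
          (ZL cB cC B C S 0 e k m)ᵀ by simp only [Matrix.mul_assoc], hd_sq, Matrix.mul_one]
    rw [q1, e2, transpose_mul, show X * Yk * (Ykᵀ * Xᵀ) = (X * (Yk * Ykᵀ)) * Xᵀ by
      simp only [Matrix.mul_assoc], trace_mul_comm]
    simp only [Matrix.mul_assoc]
  rw [e3]
  set X := rg ((cC ^ 2)⁻¹ * (4 ^ k)⁻¹) (bl k (C k) m.1 m.2.2) e with hX
  have h2 := trace_mul_le_left (psd_mul_transpose Yk) h
  rw [gramC, Matrix.smul_mul, Matrix.smul_mul, trace_smul, trace_smul, smul_eq_mul, smul_eq_mul,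
    hlv] at h2
  rw [hlv]
  have e4 : (4 ^ k : ℝ)⁻¹ * ((Xᵀ * X) * (Yk * Ykᵀ)).trace =
      sC ^ 2 * ((sC ^ 2)⁻¹ * (4 ^ k)⁻¹ * ((Xᵀ * X) * (Yk * Ykᵀ)).trace) := by
    field_simp
  rw [e4]
  refine (mul_le_mul_of_nonneg_left h2 (sq_nonneg sC)).trans (le_of_eq ?_)
  ring

/-- The charge of a C-step. -/
theorem v_cost (hs : ∀ k ∈ Icc 1 N, s k ⊆ bx3 N R k (c k)) (hA : 0 < cA) (hC : 0 < cC)
    (capA : ∀ k ∈ Icc 1 N, ∀ m ∈ s k, Cap k m.1 m.2.1 cA (A k))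
    (capC : ∀ k ∈ Icc 1 N, ∀ m ∈ s k, Cap k m.1 m.2.2 cC (C k)) (a e : ℕ) :
    VW N s cA cC A C (fun k m => Y k m * (bl k (A k) m.1 m.2.1)ᵀ) a e ≤
      6 * (cA / 2 ^ (a - 1) * √(PH N s cC C Y e *
        prs N R.2.1 R.1 R.2.2 c (wp (lv cA a) (sp A)) (wp (lv cC e) (sp C)))) := by
  have h := c_cost (Y := Y) hs hA hC capA capC a e le_rfl (le_refl (prs N R.2.1 R.1 R.2.2 c
    (wp (lv cA a) (sp A)) (wp (lv cC e) (sp C))))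
  unfold PH
  set sC : ℝ := cC / 2 ^ (e - 1) with hsC
  have pC : 0 < sC := by positivity
  refine h.trans (le_of_eq ?_)
  rw [mul_assoc (sC ^ 2), Real.sqrt_mul (sq_nonneg sC), Real.sqrt_sq pC.le]
  ring

end single

section fam

variable {N : ℕ} {R : Pt} {X : Finset ℤ} {c : ℤ → ℕ → ℤ} {A B C : ℤ → ℕ → ℤ → ℤ → ℝ}
  {cA cB cC : ℝ} {s : ℤ → ℕ → Finset Pt} {S Y YF : ℤ → (k : ℕ) → Pt → Matrix (Ix k) (Ix k) ℝ}
  {QA QB QC : ℤ → ℕ → ℤ → ℤ → Prop} {ga da db dc : ℤ → ℝ} {GA DA DB DC cP : ℝ}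

/-- **The charge of a C-step, family.** -/
theorem v_costX (hc : ∀ i ∈ X, Pl (c i))
    (hs : ∀ i ∈ X, ∀ k ∈ Icc 1 N, s i k ⊆ bx3 N R k (c i k)) (hA : 0 < cA) (hC : 0 < cC)
    (capA : ∀ i ∈ X, ∀ k ∈ Icc 1 N, ∀ m ∈ s i k, Cap k m.1 m.2.1 cA (A i k))
    (capC : ∀ i ∈ X, ∀ k ∈ Icc 1 N, ∀ m ∈ s i k, Cap k m.1 m.2.2 cC (C i k)) (hP : 1 ≤ cP)
    (sA : ∀ i ∈ X, S4E N R.1 R.2.1 (QA i) (A i) (ga i) cP)
    (eC : ∀ i ∈ X, L2E N R.1 R.2.2 (QC i) (C i) (dc i)) (hga : ∑ i ∈ X, ga i ≤ GA)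
    (hdc : ∑ i ∈ X, dc i ≤ DC) (hGA : 0 < GA) (hDC : 0 < DC) (a e : ℕ) {q : ℝ}
    (hq : ∑ i ∈ X, PH N (s i) cC (C i) (Y i) e ≤ q) :
    ∑ i ∈ X, VW N (s i) cA cC (A i) (C i)
        (fun k m => Y i k m * (bl k (A i k) m.1 m.2.1)ᵀ) a e ≤
      6 * √(q * (8800 * cP * max ((cA / 2 ^ (a - 1) / (cC / 2 ^ (e - 1))) ^ 2 * DC)
        (√(GA * DC) / (cC / 2 ^ (e - 1))))) := by
  have h1 := sum_le_sum fun i hi => v_cost (Y := Y i) (hs i hi) hA hC (capA i hi) (capC i hi) a e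
  refine h1.trans ?_
  have h2 := pairX_bal hc hP (fun i hi => (sA i hi).swap) (fun i hi => (eC i hi).swap) hga hdc
    hGA hDC (lv_pos hA a) (lv_pos hC e)
  have h3 := sum_sqrt_le (X := X) (fun i => PH_nonneg (N := N) (s := s i) (C := C i) (Y := Y i)
    hC e) (fun i => prs_nonneg ..) hq h2
  rw [← mul_sum, ← mul_sum]
  refine mul_le_mul_of_nonneg_left ?_ (by norm_num)
  have ha := inv_lv hA a
  have he := inv_lv hC e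
  set sA : ℝ := cA / 2 ^ (a - 1) with hsA
  set sC : ℝ := cC / 2 ^ (e - 1) with hsC
  have pA : 0 < sA := by positivity
  have pC : 0 < sC := by positivity
  have la : lv cA a = (sA ^ 2)⁻¹ := by rw [← ha, inv_inv]
  have le' : lv cC e = (sC ^ 2)⁻¹ := by rw [← he, inv_inv]
  refine (mul_le_mul_of_nonneg_left h3 pA.le).trans (le_of_eq ?_)
  conv_lhs => rw [← Real.sqrt_sq pA.le, ← Real.sqrt_mul (sq_nonneg _)]
  congr 1
  rw [show sA ^ 2 * (q * (8800 * cP * max (lv cC e * DC) √(lv cA a ^ 2 * GA * (lv cC e * DC)))) =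
    q * (8800 * cP * (sA ^ 2 * max (lv cC e * DC) √(lv cA a ^ 2 * GA * (lv cC e * DC)))) by ring,
    mul_max_of_nonneg _ _ (sq_nonneg sA)]
  congr 3
  · rw [le']
    field_simp
  · rw [la, le', show ((sA ^ 2)⁻¹) ^ 2 * GA * ((sC ^ 2)⁻¹ * DC) =
      ((sA ^ 2 * sC)⁻¹) ^ 2 * (GA * DC) by field_simp, Real.sqrt_mul (sq_nonneg _),
      Real.sqrt_sq (by positivity)]
    field_simp

/-- The flow part in region 3, family. -/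
theorem z1EX (hc : ∀ i ∈ X, Pl (c i))
    (hs : ∀ i ∈ X, ∀ k ∈ Icc 1 N, s i k ⊆ bx3 N R k (c i k)) (hA : 0 < cA) (hC : 0 < cC)
    (capA : ∀ i ∈ X, ∀ k ∈ Icc 1 N, ∀ m ∈ s i k, Cap k m.1 m.2.1 cA (A i k))
    (capC : ∀ i ∈ X, ∀ k ∈ Icc 1 N, ∀ m ∈ s i k, Cap k m.1 m.2.2 cC (C i k)) (a e : ℕ)
    (eA : ∀ i ∈ X, L2E N R.1 R.2.1 (QA i) (A i) (da i))
    (eC : ∀ i ∈ X, L2E N R.1 R.2.2 (QC i) (C i) (dc i)) (hda : ∑ i ∈ X, da i ≤ DA)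
    (hdc : ∑ i ∈ X, dc i ≤ DC) {w : ℝ}
    (hw : ∑ i ∈ X, ∑ k ∈ Icc 1 N, ∑ m ∈ s i k, (Y i k m * (Y i k m)ᵀ).trace ≤ w) :
    ∑ i ∈ X, UW N (s i) cA cC (A i) (C i)
        (fun k m => Y i k m * (bl k (A i k) m.1 m.2.1)ᵀ) a e ≤
      150 * √(w * ((cC / 2 ^ (e - 1)) ^ 2 * DA + (cA / 2 ^ (a - 1)) ^ 2 * DC)) := by
  have nY : ∀ i, 0 ≤ ∑ k ∈ Icc 1 N, ∑ m ∈ s i k, (Y i k m * (Y i k m)ᵀ).trace := fun i =>
    sum_nonneg fun k _ => sum_nonneg fun m _ => (psd_mul_transpose (Y i k m)).trace_nonneg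
  have h1 := sum_le_sum fun i hi => H331.z1 (Y := Y i) (hs i hi) hA hC (capA i hi) (capC i hi) a e
    le_rfl (le_refl (prs N R.2.1 R.1 R.2.2 (c i) (wp (lv cA a) (sp (A i)))
      (wp (lv cC e) (sp (C i)))))
  refine h1.trans ?_
  have h2 := prsX_AC hc hA hC eA eC hda hdc a e
  have h3 := sum_sqrt_le (X := X) nY (fun i => prs_nonneg N R.2.1 R.1 R.2.2 (c i)
    (wp (lv cA a) (sp (A i))) (wp (lv cC e) (sp (C i)))) hw h2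
  rw [← mul_sum, ← mul_sum]
  set x : ℝ := cA / 2 ^ (a - 1) with hx
  set y : ℝ := cC / 2 ^ (e - 1) with hy
  have px : 0 < x := by positivity
  have py : 0 < y := by positivity
  have h := mul_le_mul_of_nonneg_left (mul_le_mul_of_nonneg_left h3 (mul_pos px py).le)
    (by norm_num : (0 : ℝ) ≤ 6)
  refine h.trans ?_
  have e1 : w * (550 * ((x ^ 2)⁻¹ * DA + (y ^ 2)⁻¹ * DC)) =
      ((x * y)⁻¹) ^ 2 * (550 * (w * (y ^ 2 * DA + x ^ 2 * DC))) := by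
    field_simp
  rw [e1, Real.sqrt_mul (sq_nonneg _), Real.sqrt_sq (by positivity),
    Real.sqrt_mul (by norm_num : (0 : ℝ) ≤ 550)]
  have h2 : √(550 : ℝ) ≤ 25 := by
    rw [show (25 : ℝ) = √(25 ^ 2) by rw [Real.sqrt_sq (by norm_num)]]
    exact Real.sqrt_le_sqrt (by norm_num)
  have h3 := Real.sqrt_nonneg (w * (y ^ 2 * DA + x ^ 2 * DC))
  have e2 : 6 * (x * y * ((x * y)⁻¹ * (√550 * √(w * (y ^ 2 * DA + x ^ 2 * DC))))) =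
      6 * (√550 * √(w * (y ^ 2 * DA + x ^ 2 * DC))) := by
    field_simp
  rw [e2]
  nlinarith

/-- `C` is lowered down to the level `x`, family. -/
theorem c_downX {W : ℤ → (k : ℕ) → Pt → Matrix (Ix k) (Ix k) ℝ} {x κC : ℝ} (hC : 0 ≤ cC)
    (hκC : 0 ≤ κC) {a : ℕ}
    (hV : ∀ e, x < cC / 2 ^ (e - 1) → ∑ i ∈ X, VW N (s i) cA cC (A i) (C i) (W i) a e ≤ κC)
    {LC : ℕ} (lC : cC / 2 ^ (LC - 1) ≤ x) (e : ℕ) :
    ∃ e', cC / 2 ^ (e' - 1) ≤ x ∧ ∑ i ∈ X, UW N (s i) cA cC (A i) (C i) (W i) a e ≤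
      κC * LC + ∑ i ∈ X, UW N (s i) cA cC (A i) (C i) (W i) a e' := by
  have main : ∀ n e : ℕ, LC - e ≤ n → ∃ e', cC / 2 ^ (e' - 1) ≤ x ∧
      ∑ i ∈ X, UW N (s i) cA cC (A i) (C i) (W i) a e ≤
        κC * (LC - e : ℕ) + ∑ i ∈ X, UW N (s i) cA cC (A i) (C i) (W i) a e' := by
    intro n
    induction n with
    | zero =>
      intro e h
      refine ⟨e, (lev_anti hC (show LC ≤ e by omega)).trans lC, ?_⟩
      have : 0 ≤ κC * (LC - e : ℕ) := by positivity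
      linarith
    | succ n ih =>
      intro e h
      by_cases h1 : cC / 2 ^ (e - 1) ≤ x
      · refine ⟨e, h1, ?_⟩
        have : 0 ≤ κC * (LC - e : ℕ) := by positivity
        linarith
      · rw [not_le] at h1
        have h2 : e < LC := by
          by_contra h3
          have h4 := (lev_anti hC (not_lt.1 h3)).trans lC
          linarith
        obtain ⟨e', h3, h4⟩ := ih (e + 1) (by omega)
        refine ⟨e', h3, ?_⟩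
        have h5 := (c_stepX (N := N) (s := s) (A := A) (C := C) (cA := cA) (cC := cC) (W := W)
          (X := X) a e).trans (add_le_add le_rfl (hV e h1))
        have h6 : ((LC - e : ℕ) : ℝ) = (LC - (e + 1) : ℕ) + 1 := by
          rw [show LC - e = (LC - (e + 1)) + 1 by omega]
          push_cast
          ring
        rw [h6]
        linarith
  obtain ⟨e', h1, h2⟩ := main (LC - e) e le_rfl
  refine ⟨e', h1, h2.trans (add_le_add ?_ le_rfl)⟩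
  exact mul_le_mul_of_nonneg_left (by exact_mod_cast Nat.sub_le LC e) hκC

/-- **Region 3** (the hypothesis `hZ` of `region1X`). -/
theorem hzX (hc : ∀ i ∈ X, Pl (c i))
    (hs : ∀ i ∈ X, ∀ k ∈ Icc 1 N, s i k ⊆ bx3 N R k (c i k)) (hA : 0 < cA)
    (hB : 0 < cB) (hC : 0 < cC)
    (capA : ∀ i ∈ X, ∀ k ∈ Icc 1 N, ∀ m ∈ s i k, Cap k m.1 m.2.1 cA (A i k))
    (capB : ∀ i ∈ X, ∀ k ∈ Icc 1 N, ∀ m ∈ s i k, Cap k m.2.1 m.2.2 cB (B i k))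
    (capC : ∀ i ∈ X, ∀ k ∈ Icc 1 N, ∀ m ∈ s i k, Cap k m.1 m.2.2 cC (C i k))
    (hS : ∀ i ∈ X, ∀ k ∈ Icc 1 N, ∀ m ∈ s i k, (1 - (S i k m)ᵀ * S i k m).PosSemidef)
    (eA : ∀ i ∈ X, L2E N R.1 R.2.1 (QA i) (A i) (da i))
    (eB : ∀ i ∈ X, L2E N R.2.1 R.2.2 (QB i) (B i) (db i))
    (eC : ∀ i ∈ X, L2E N R.1 R.2.2 (QC i) (C i) (dc i)) (hda : ∑ i ∈ X, da i ≤ DA)
    (hdb : ∑ i ∈ X, db i ≤ DB) (hdc : ∑ i ∈ X, dc i ≤ DC) {D Q κ σ ρ σ₀ w κC : ℝ}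
    (hD : DA + DB ≤ D) (hD' : DA + DC ≤ D) (hκC : 0 ≤ κC)
    (hV : ∀ a e, cA / 2 ^ (a - 1) < σ → ρ * σ < cC / 2 ^ (e - 1) →
      ∑ i ∈ X, VW N (s i) cA cC (A i) (C i)
        (fun k m => (YL cB (B i) (S i) 0 k m + YF i k m) * (bl k (A i k) m.1 m.2.1)ᵀ) a e ≤ κC)
    (hw : ∑ i ∈ X, ∑ k ∈ Icc 1 N, ∑ m ∈ s i k, (YF i k m * (YF i k m)ᵀ).trace ≤ w)
    (hQ : ∀ e, cC / 2 ^ (e - 1) ≤ ρ * σ →
      ∑ i ∈ X, LP N (s i) cB cC (B i) (C i) (S i) 0 e ≤ Q) (hκ0 : 0 ≤ κ) (hσ₀ : 0 ≤ σ₀)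
    (hκ : ∀ b e, cB / 2 ^ (b - 1) ≤ σ₀ → cC / 2 ^ (e - 1) ≤ σ₀ →
      ∑ i ∈ X, LP N (s i) cB cC (B i) (C i) (S i) b e ≤
        κ * max (cB / 2 ^ (b - 1)) (cC / 2 ^ (e - 1)) ^ 2)
    {LB LC LC' : ℕ} (lB : cB / 2 ^ (LB - 1) ≤ σ₀) (lC : cC / 2 ^ (LC - 1) ≤ σ₀)
    (lC' : cC / 2 ^ (LC' - 1) ≤ ρ * σ) (a e : ℕ) (ha : cA / 2 ^ (a - 1) < σ) :
    ∑ i ∈ X, UW N (s i) cA cC (A i) (C i)
        (fun k m => (YL cB (B i) (S i) 0 k m + YF i k m) * (bl k (A i k) m.1 m.2.1)ᵀ) a e ≤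
      κC * LC' + 150 * √(w * ((ρ * σ) ^ 2 * DA + σ ^ 2 * DC)) +
        (9900 * D * σ + 6 * √(550 * D * Q) * (LB + LC) + 36 * √(550 * D * κ) * σ₀) := by
  have nDA : 0 ≤ DA := (sum_nonneg fun i hi => (pwr_nonneg ..).trans (eA i hi).own).trans hda
  have nDC : 0 ≤ DC := (sum_nonneg fun i hi => (pwr_nonneg ..).trans (eC i hi).own).trans hdc
  have nw : 0 ≤ w := le_trans (sum_nonneg fun i _ => sum_nonneg fun k _ => sum_nonneg fun m _ =>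
    (psd_mul_transpose (YF i k m)).trace_nonneg) hw
  obtain ⟨e', h1, h2⟩ := c_downX (N := N) (s := s) (A := A) (C := C) (cA := cA) (cC := cC)
    (X := X) (W := fun i k m => (YL cB (B i) (S i) 0 k m + YF i k m) *
      (bl k (A i k) m.1 m.2.1)ᵀ) (x := ρ * σ) hC.le hκC
    (a := a) (fun e he => hV a e ha he) lC' e
  have h3 : ∑ i ∈ X, UW N (s i) cA cC (A i) (C i)
      (fun k m => (YL cB (B i) (S i) 0 k m + YF i k m) * (bl k (A i k) m.1 m.2.1)ᵀ) a e' ≤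
      ∑ i ∈ X, U3 N (s i) cA cB cC (A i) (B i) (C i) (S i) a 0 e' +
        ∑ i ∈ X, UW N (s i) cA cC (A i) (C i)
          (fun k m => YF i k m * (bl k (A i k) m.1 m.2.1)ᵀ) a e' := by
    rw [← sum_add_distrib]
    refine sum_le_sum fun i _ => ?_
    have h := UW_add (N := N) (s := s i) (A := A i) (C := C i) (cA := cA) (cC := cC)
      (fun k m => YL cB (B i) (S i) 0 k m * (bl k (A i k) m.1 m.2.1)ᵀ)
      (fun k m => YF i k m * (bl k (A i k) m.1 m.2.1)ᵀ) a e'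
    simp only [← Matrix.add_mul] at h
    exact h
  have h4 := z3X hc hs hA hB hC capA capB capC hS eA eB eC hda hdb hdc hD hD' a e' (hQ e' h1)
    hκ0 hσ₀ hκ lB lC ha.le
  have h5 := z1EX (Y := YF) hc hs hA hC capA capC a e' eA eC hda hdc hw
  have h6 : √(w * ((cC / 2 ^ (e' - 1)) ^ 2 * DA + (cA / 2 ^ (a - 1)) ^ 2 * DC)) ≤
      √(w * ((ρ * σ) ^ 2 * DA + σ ^ 2 * DC)) := by
    refine Real.sqrt_le_sqrt (mul_le_mul_of_nonneg_left ?_ nw)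
    have q1 : (cC / 2 ^ (e' - 1)) ^ 2 ≤ (ρ * σ) ^ 2 :=
      pow_le_pow_left₀ (by positivity) h1 2
    have q2 : (cA / 2 ^ (a - 1)) ^ 2 ≤ σ ^ 2 := pow_le_pow_left₀ (by positivity) ha.le 2
    nlinarith
  linarith

/-- The charge of a C-step for light plus flow, family. -/
theorem v_costX2 (hc : ∀ i ∈ X, Pl (c i))
    (hs : ∀ i ∈ X, ∀ k ∈ Icc 1 N, s i k ⊆ bx3 N R k (c i k)) (hA : 0 < cA) (hC : 0 < cC)
    (capA : ∀ i ∈ X, ∀ k ∈ Icc 1 N, ∀ m ∈ s i k, Cap k m.1 m.2.1 cA (A i k))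
    (capC : ∀ i ∈ X, ∀ k ∈ Icc 1 N, ∀ m ∈ s i k, Cap k m.1 m.2.2 cC (C i k)) (hP : 1 ≤ cP)
    (sA : ∀ i ∈ X, S4E N R.1 R.2.1 (QA i) (A i) (ga i) cP)
    (eC : ∀ i ∈ X, L2E N R.1 R.2.2 (QC i) (C i) (dc i)) (hga : ∑ i ∈ X, ga i ≤ GA)
    (hdc : ∑ i ∈ X, dc i ≤ DC) (hGA : 0 < GA) (hDC : 0 < DC) {a e : ℕ} {qL qF ρ κC : ℝ}
    (hρ : 0 < ρ) (hac : ρ * (cA / 2 ^ (a - 1)) ≤ cC / 2 ^ (e - 1))
    (hqL : ∑ i ∈ X, PH N (s i) cC (C i) (Y i) e ≤ qL)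
    (hqF : ∑ i ∈ X, PH N (s i) cC (C i) (YF i) e ≤ qF)
    (hκ : 6 * (√qL + √qF) * √(8800 * cP * max (DC / ρ ^ 2) (√(GA * DC) / (cC / 2 ^ (e - 1)))) ≤
      κC) :
    ∑ i ∈ X, VW N (s i) cA cC (A i) (C i)
        (fun k m => (Y i k m + YF i k m) * (bl k (A i k) m.1 m.2.1)ᵀ) a e ≤ κC := by
  have nP : 0 ≤ cP := by linarith
  have nqL : 0 ≤ qL := (sum_nonneg fun i _ => PH_nonneg hC e).trans hqL
  have nqF : 0 ≤ qF := (sum_nonneg fun i _ => PH_nonneg hC e).trans hqF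
  have h0 : ∑ i ∈ X, VW N (s i) cA cC (A i) (C i)
      (fun k m => (Y i k m + YF i k m) * (bl k (A i k) m.1 m.2.1)ᵀ) a e ≤
      ∑ i ∈ X, VW N (s i) cA cC (A i) (C i)
        (fun k m => Y i k m * (bl k (A i k) m.1 m.2.1)ᵀ) a e +
      ∑ i ∈ X, VW N (s i) cA cC (A i) (C i)
        (fun k m => YF i k m * (bl k (A i k) m.1 m.2.1)ᵀ) a e := by
    rw [← sum_add_distrib]
    refine sum_le_sum fun i _ => ?_
    have h := VW_add (N := N) (s := s i) (A := A i) (C := C i) (cA := cA) (cC := cC)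
      (fun k m => Y i k m * (bl k (A i k) m.1 m.2.1)ᵀ)
      (fun k m => YF i k m * (bl k (A i k) m.1 m.2.1)ᵀ) a e
    simp only [← Matrix.add_mul] at h
    exact h
  have h1 := v_costX (Y := Y) hc hs hA hC capA capC hP sA eC hga hdc hGA hDC a e hqL
  have h2 := v_costX (Y := YF) hc hs hA hC capA capC hP sA eC hga hdc hGA hDC a e hqF
  set sA' : ℝ := cA / 2 ^ (a - 1) with hsA
  set sC : ℝ := cC / 2 ^ (e - 1) with hsC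
  have pA : 0 < sA' := by positivity
  have pC : 0 < sC := by positivity
  have hr : (sA' / sC) ^ 2 ≤ (ρ ^ 2)⁻¹ := by
    rw [div_pow, div_le_iff₀ (by positivity), inv_mul_eq_div, le_div_iff₀ (by positivity),
      ← mul_pow]
    exact pow_le_pow_left₀ (by positivity) (by linarith) 2
  have hm : 8800 * cP * max ((sA' / sC) ^ 2 * DC) (√(GA * DC) / sC) ≤
      8800 * cP * max (DC / ρ ^ 2) (√(GA * DC) / sC) := by
    refine mul_le_mul_of_nonneg_left (max_le_max ?_ le_rfl) (by positivity)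
    rw [div_eq_inv_mul DC]
    exact mul_le_mul_of_nonneg_right hr hDC.le
  have h3 : ∀ {q : ℝ}, 0 ≤ q →
      6 * √(q * (8800 * cP * max ((sA' / sC) ^ 2 * DC) (√(GA * DC) / sC))) ≤
      6 * (√q * √(8800 * cP * max (DC / ρ ^ 2) (√(GA * DC) / sC))) := fun {q} hq => by
    rw [← Real.sqrt_mul hq]
    exact mul_le_mul_of_nonneg_left (Real.sqrt_le_sqrt (mul_le_mul_of_nonneg_left hm hq))
      (by norm_num)
  have h4 := h3 nqL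
  have h5 := h3 nqF
  refine h0.trans ((add_le_add (h1.trans h4) (h2.trans h5)).trans (le_trans (le_of_eq ?_) hκ))
  ring

/-- **Regions 1 and 3 together, family**: the gap part, all hypotheses. -/
theorem tzX (hc : ∀ i ∈ X, Pl (c i))
    (hs : ∀ i ∈ X, ∀ k ∈ Icc 1 N, s i k ⊆ bx3 N R k (c i k)) (hA : 0 < cA)
    (hB : 0 < cB) (hC : 0 < cC)
    (capA : ∀ i ∈ X, ∀ k ∈ Icc 1 N, ∀ m ∈ s i k, Cap k m.1 m.2.1 cA (A i k))
    (capB : ∀ i ∈ X, ∀ k ∈ Icc 1 N, ∀ m ∈ s i k, Cap k m.2.1 m.2.2 cB (B i k))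
    (capC : ∀ i ∈ X, ∀ k ∈ Icc 1 N, ∀ m ∈ s i k, Cap k m.1 m.2.2 cC (C i k)) (hP : 1 ≤ cP)
    (hS : ∀ i ∈ X, ∀ k ∈ Icc 1 N, ∀ m ∈ s i k, (1 - (S i k m)ᵀ * S i k m).PosSemidef)
    (sA : ∀ i ∈ X, S4E N R.1 R.2.1 (QA i) (A i) (ga i) cP)
    (eA : ∀ i ∈ X, L2E N R.1 R.2.1 (QA i) (A i) (da i))
    (eB : ∀ i ∈ X, L2E N R.2.1 R.2.2 (QB i) (B i) (db i))
    (eC : ∀ i ∈ X, L2E N R.1 R.2.2 (QC i) (C i) (dc i)) (hga : ∑ i ∈ X, ga i ≤ GA)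
    (hda : ∑ i ∈ X, da i ≤ DA) (hdb : ∑ i ∈ X, db i ≤ DB) (hdc : ∑ i ∈ X, dc i ≤ DC)
    (hGA : 0 < GA) (hDC : 0 < DC) {D Q κ σ ρ σ₀ v w κC : ℝ} {qL qF : ℕ → ℝ}
    (hD : DA + DB ≤ D) (hD' : DA + DC ≤ D) (hσ : 0 < σ) (hρ : 0 < ρ) (hκC : 0 ≤ κC)
    (hv : ∑ i ∈ X, ∑ k ∈ Icc 1 N, ∑ m ∈ s i k, (4 ^ k : ℝ)⁻¹ *
      (((YL cB (B i) (S i) 0 k m + YF i k m) * (bl k (A i k) m.1 m.2.1)ᵀ) *
        ((YL cB (B i) (S i) 0 k m + YF i k m) * (bl k (A i k) m.1 m.2.1)ᵀ)ᵀ).trace ≤ v)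
    (hw : ∑ i ∈ X, ∑ k ∈ Icc 1 N, ∑ m ∈ s i k, (YF i k m * (YF i k m)ᵀ).trace ≤ w)
    (hqL : ∀ e, ∑ i ∈ X, PH N (s i) cC (C i) (YL cB (B i) (S i) 0) e ≤ qL e)
    (hqF : ∀ e, ρ * σ < cC / 2 ^ (e - 1) → ∑ i ∈ X, PH N (s i) cC (C i) (YF i) e ≤ qF e)
    (hκq : ∀ e, ρ * σ < cC / 2 ^ (e - 1) → 6 * (√(qL e) + √(qF e)) *
      √(8800 * cP * max (DC / ρ ^ 2) (√(GA * DC) / (cC / 2 ^ (e - 1)))) ≤ κC)
    (hQ : ∀ e, cC / 2 ^ (e - 1) ≤ ρ * σ → 4 * qL e ≤ Q) (hκ0 : 0 ≤ κ) (hσ₀ : 0 ≤ σ₀)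
    (hκ : ∀ b e, cB / 2 ^ (b - 1) ≤ σ₀ → cC / 2 ^ (e - 1) ≤ σ₀ →
      ∑ i ∈ X, LP N (s i) cB cC (B i) (C i) (S i) b e ≤
        κ * max (cB / 2 ^ (b - 1)) (cC / 2 ^ (e - 1)) ^ 2)
    {LA LB LC LC' : ℕ} (lA : cA / 2 ^ (LA - 1) < σ) (lB : cB / 2 ^ (LB - 1) ≤ σ₀)
    (lC : cC / 2 ^ (LC - 1) ≤ σ₀) (lC' : cC / 2 ^ (LC' - 1) ≤ ρ * σ) :
    ∑ i ∈ X, ∑ k ∈ Icc 1 N, ∑ m ∈ s i k, |(2 ^ k : ℝ)⁻¹ *
        (((YL cB (B i) (S i) 0 k m + YF i k m) * (bl k (A i k) m.1 m.2.1)ᵀ) * hd k *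
          bl k (C i k) m.1 m.2.2).trace| ≤
      6 * √(v * (8800 * cP * max DC (ρ / σ * √(GA * DC)))) * LA + κC * LC' +
        (κC * LC' + 150 * √(w * ((ρ * σ) ^ 2 * DA + σ ^ 2 * DC)) +
          (9900 * D * σ + 6 * √(550 * D * Q) * (LB + LC) + 36 * √(550 * D * κ) * σ₀)) := by
  have hV : ∀ a e, ρ * (cA / 2 ^ (a - 1)) < cC / 2 ^ (e - 1) → ρ * σ < cC / 2 ^ (e - 1) →
      ∑ i ∈ X, VW N (s i) cA cC (A i) (C i)
        (fun k m => (YL cB (B i) (S i) 0 k m + YF i k m) * (bl k (A i k) m.1 m.2.1)ᵀ) a e ≤ κC :=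
    fun a e h1 h2 => v_costX2 (Y := fun i k m => YL cB (B i) (S i) 0 k m) hc hs hA hC capA capC hP
      sA eC hga hdc hGA hDC hρ h1.le (hqL e) (hqF e h2) (hκq e h2)
  exact region1X hc hs hA hC capC hP sA eC hga hdc hGA hDC hv hρ hσ hκC
    (fun a e ha => hzX hc hs hA hB hC capA capB capC hS eA eB eC hda hdb hdc hD hD' hκC
      (fun a e ha he => hV a e ((mul_lt_mul_of_pos_left ha hρ).trans he) he) hw
      (fun e he => (sum_le_sum fun i hi => LP_le_PH hC (capC i hi) e).trans (by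
        rw [← mul_sum]
        exact (mul_le_mul_of_nonneg_left (hqL e) (by norm_num)).trans (hQ e he)))
      hκ0 hσ₀ hκ lB lC lC' a e ha)
    (fun a e h1 h2 => hV a e h2 ((mul_le_mul_of_nonneg_left h1 hρ.le).trans_lt h2)) lA lC'

end fam

end

end Vale.Agent.P141.H609
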