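import Vale.Agent.P141.H433.Lo

/-!
# The middle and the own step with the row traces of the node
-/

set_option linter.unusedSectionVars false

namespace Vale.Agent.P141.H609.LoW

open Finset Matrix Vale.Agent.P075 Vale.Agent.P141.PL Vale.Agent.P141.H103 Vale.Agent.P141.H170
open Vale.Agent.P141.H433
open Vale.Agent.P141.PL.H588 (Xg Xs hd Pl cd dl)

noncomputable section

variable {L : ℕ} {U : ℕ → ℤ → ℤ → Matrix (Ix L) (Ix L) ℝ} {F H : ℤ → ℤ → ℝ}

/-! ### row traces -/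

/-- the row trace: mean over the outer cell `n` of scale `a` of the label energy at the middle
point `x` -/
def rt (L : ℕ) (F : ℤ → ℤ → ℝ) (a : ℕ) (n x : ℤ) : ℝ := (Xg (L + a) L F n x).trace

theorem rt_nonneg (a : ℕ) (n x : ℤ) : 0 ≤ rt L F a n x := (H588.Xg_psd ..).trace_nonneg

theorem rt_row (a : ℕ) (n x : ℤ) :
    rt L F (a + 1) n x = (1 / 2) * (rt L F a (2 * n) x + rt L F a (2 * n + 1) x) := by
  unfold rt
  have e : Xg (L + (a + 1)) L F n x
      = (1 / 2 : ℝ) • (Xg (L + a) L F (2 * n) x + Xg (L + a) L F (2 * n + 1) x) := by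
    rw [← H588.Xg_row]; rfl
  rw [e, trace_smul, trace_add, smul_eq_mul]

theorem iv_zero_eq (n : ℤ) : iv 0 n = {n} := by
  ext x
  simp only [iv, mem_Ico, mem_singleton, pow_zero, one_mul]
  omega

theorem rt_mean (a r : ℕ) (n x : ℤ) :
    ((2 : ℝ) ^ r)⁻¹ * ∑ j ∈ iv r n, rt L F a j x = rt L F (a + r) n x := by
  induction r generalizing n with
  | zero => rw [iv_zero_eq, sum_singleton, pow_zero, _root_.inv_one, one_mul, Nat.add_zero]
  | succ r ih =>
    rw [sum_iv_halves, pow_succ, mul_inv, show a + (r + 1) = (a + r) + 1 by ring, rt_row, ← ih,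
      ← ih]
    ring

/-! ### the weighted diagonal bound -/

/-- **diagonal bound**, exact row traces -/
theorem diag_leW {F : ℤ → ℤ → ℝ} {a k : ℕ} {n m : ℤ}
    {W : ℤ → Matrix (Ix L) (Ix L) ℝ} {w : ℤ → ℝ}
    (hW : ∀ x, (w x • (1 : Matrix (Ix L) (Ix L) ℝ) - W x).PosSemidef) :
    (DL L W k m * H588.Xg a (L + k) F n m).trace
      ≤ ((2 : ℝ) ^ k)⁻¹ * ∑ x ∈ iv k m, (Xg a L F n x).trace * w x := by
  induction k generalizing m with
  | zero =>
    have h1 := trace_mul_le_left (H588.Xg_psd a L F n m) (hW m)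
    rw [Matrix.smul_mul, Matrix.one_mul, trace_smul, smul_eq_mul] at h1
    rw [iv_zero_eq, sum_singleton, pow_zero, _root_.inv_one, one_mul, mul_comm]
    exact h1
  | succ k ih =>
    have e : (DL L W (k + 1) m * H588.Xg a (L + (k + 1)) F n m).trace
        = (DL L W k (2 * m) * (H588.Xs a (L + k) F n m).toBlocks₁₁).trace
          + (DL L W k (2 * m + 1) * (H588.Xs a (L + k) F n m).toBlocks₂₂).trace :=
      trace_bd_mul _ _ _
    rw [e, H588.Xs_ll, H588.Xs_rr, Matrix.mul_smul, Matrix.mul_smul, trace_smul, trace_smul,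
      smul_eq_mul, smul_eq_mul]
    have h1 := ih (m := 2 * m)
    have h2 := ih (m := 2 * m + 1)
    rw [sum_iv_halves, pow_succ, mul_inv]
    nlinarith [h1, h2]

/-- `W` has the diagonal bound with the weight `b` -/
def DgW (L k : ℕ) (m : ℤ) (b : ℤ → ℝ) (W : Matrix (Ix (L + k)) (Ix (L + k)) ℝ) : Prop :=
  ∀ (M : ℤ → Matrix (Ix L) (Ix L) ℝ) (μ : ℤ → ℝ), (∀ x, (M x).PosSemidef) → (∀ x, 0 ≤ μ x) →
    (∀ x, (μ x • (1 : Matrix (Ix L) (Ix L) ℝ) - M x).PosSemidef) →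
    (DL L M k m * W).trace ≤ ((2 : ℝ) ^ k)⁻¹ * ∑ x ∈ iv k m, b x * μ x

theorem DgW.add {k : ℕ} {m : ℤ} {b b' : ℤ → ℝ} {W W' : Matrix (Ix (L + k)) (Ix (L + k)) ℝ}
    (h : DgW L k m b W) (h' : DgW L k m b' W') : DgW L k m (fun x => b x + b' x) (W + W') := by
  intro M μ h1 h2 h3
  rw [Matrix.mul_add, trace_add]
  refine (add_le_add (h M μ h1 h2 h3) (h' M μ h1 h2 h3)).trans (le_of_eq ?_)
  rw [← mul_add, ← sum_add_distrib]
  congr 1
  exact sum_congr rfl fun x _ => by ring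

theorem DgW.mn {k : ℕ} {m : ℤ} {J : Finset ℤ} {b : ℤ → ℤ → ℝ}
    {f : ℤ → Matrix (Ix (L + k)) (Ix (L + k)) ℝ} (h : ∀ j ∈ J, DgW L k m (b j) (f j)) :
    DgW L k m (fun x => (J.card : ℝ)⁻¹ * ∑ j ∈ J, b j x) (H170.mn J f) := by
  intro M μ h1 h2 h3
  rw [tr_mul_mn]
  refine (mul_le_mul_of_nonneg_left (Finset.sum_le_sum fun j hj => h j hj M μ h1 h2 h3)
    (by positivity)).trans (le_of_eq ?_)
  simp only [Finset.mul_sum, Finset.sum_mul]
  rw [Finset.sum_comm]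
  exact sum_congr rfl fun x _ => sum_congr rfl fun j _ => by ring

theorem DgW.cj {F : ℤ → ℤ → ℝ} {a k : ℕ} {n m : ℤ}
    {U : ℤ → Matrix (Ix L) (Ix L) ℝ} (hU : ∀ x, Ct (U x)) :
    DgW L k m (fun x => (Xg a L F n x).trace) (H170.cj (DL L U k m) (Xg a (L + k) F n m)) := by
  intro M μ hM hμ hMμ
  have hX := H588.Xg_psd a (L + k) F n m
  have e : (DL L M k m * H170.cj (DL L U k m) (Xg a (L + k) F n m)).trace
      = (DL L (fun x => (U x)ᵀ * M x * U x) k m * phi (Xg a (L + k) F n m)).trace := by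
    rw [← DL_mul, ← DL_mul, ← DL_transpose, H170.cj]
    rw [show DL L M k m * (DL L U k m * phi (Xg a (L + k) F n m) * (DL L U k m)ᵀ)
      = (DL L M k m * DL L U k m * phi (Xg a (L + k) F n m)) * (DL L U k m)ᵀ by
        simp only [Matrix.mul_assoc], trace_mul_comm]
    simp only [Matrix.mul_assoc]
  have p : ∀ x, ((U x)ᵀ * M x * U x).PosSemidef := fun x => by
    have := psd_conj (hM x) (U x)ᵀ
    rwa [transpose_transpose] at this
  rw [e]
  refine (trace_mul_le_right (DL_psd p k m) (sub_phi_psd hX)).trans ?_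
  refine diag_leW (fun x => ?_)
  have e2 : μ x • (1 : Matrix (Ix L) (Ix L) ℝ) - (U x)ᵀ * M x * U x
      = μ x • (1 - (U x)ᵀ * U x) + (U x)ᵀ * (μ x • (1 : Matrix (Ix L) (Ix L) ℝ) - M x)
        * ((U x)ᵀ)ᵀ := by
    rw [transpose_transpose, Matrix.mul_sub, Matrix.sub_mul, Matrix.mul_smul, Matrix.smul_mul,
      Matrix.mul_one, smul_sub]
    abel
  rw [e2]
  exact ((hU x).1.smul (hμ x)).add (psd_conj (hMμ x) _)

/-- the means of the slots of scale `k` -/
theorem DgW.fm {k r : ℕ} {n m : ℤ} {i a : ℕ} {U : ℕ → ℤ → ℤ → Matrix (Ix L) (Ix L) ℝ}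
    (hU : ∀ k x n, Ct (U k x n)) :
    DgW L k m (fun x => rt L F (a + r) n x)
      (H170.mn (iv r n) fun j => H170.cj (DU U i k j m) (Xg (L + a) (L + k) F j m)) := by
  have h := DgW.mn (L := L) (k := k) (m := m) (J := iv r n)
    (b := fun j x => (Xg (L + a) L F j x).trace)
    (f := fun j => H170.cj (DU U i k j m) (Xg (L + a) (L + k) F j m))
    fun j _ => DgW.cj (fun x => hU i x j)
  have e : (fun x => rt L F (a + r) n x)
      = fun x => ((iv r n).card : ℝ)⁻¹ * ∑ j ∈ iv r n, (Xg (L + a) L F j x).trace := by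
    funext x
    rw [← rt_mean, card_iv]
    push_cast
    rfl
  rw [e]
  exact h

theorem vtermW {k : ℕ} {m : ℤ} {b : ℤ → ℝ} {W : Matrix (Ix (L + k)) (Ix (L + k)) ℝ}
    (hWd : DgW L k m b W) (j : ℤ) :
    (DL L (fun x => vV U k x j) k m * (DL L (fun x => vV U k x j) k m)ᵀ * W).trace
      ≤ ((2 : ℝ) ^ k)⁻¹ * ∑ x ∈ iv k m, b x * (vV U k x j * (vV U k x j)ᵀ).trace := by
  rw [DL_transpose, DL_mul]
  exact hWd _ _ (fun x => psd_mul_transpose _) (fun x => (psd_mul_transpose _).trace_nonneg)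
    (fun x => trace_sub_psd (psd_mul_transpose _))

theorem dtermW {F : ℤ → ℤ → ℝ} {k : ℕ} {m j : ℤ}
    {b : ℤ → ℝ} {w : ℝ} (hw : 0 ≤ w) {W A : Matrix (Ix (L + k)) (Ix (L + k)) ℝ}
    (hW : W.PosSemidef) (hW1 : (w • (1 : Matrix (Ix (L + k)) (Ix (L + k)) ℝ) - W).PosSemidef)
    (hWd : DgW L k m b W) (hA : Ct A) :
    2 * |(W * DL L (fun x => vD U k x j) k m
        * ((1 / 2 : ℝ) • (phi (Xg (L + k) (L + k) F (2 * j) m)
          + phi (Xg (L + k) (L + k) F (2 * j + 1) m)))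
        * Aᵀ).trace|
      ≤ ((2 : ℝ) ^ k)⁻¹ * ∑ x ∈ iv k m,
        (rt L F (k + 1) j x + w * b x) * √((vD U k x j * (vD U k x j)ᵀ).trace) := by
  have h0 := H588.Xg_psd (L + k) (L + k) F (2 * j) m
  have h1 := H588.Xg_psd (L + k) (L + k) F (2 * j + 1) m
  have hφ : ((1 / 2 : ℝ) • (phi (Xg (L + k) (L + k) F (2 * j) m)
      + phi (Xg (L + k) (L + k) F (2 * j + 1) m))).PosSemidef :=
    ((phi_psd h0).add (phi_psd h1)).smul (by norm_num)
  have hφ1 : (1 - (1 / 2 : ℝ) • (phi (Xg (L + k) (L + k) F (2 * j) m)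
      + phi (Xg (L + k) (L + k) F (2 * j + 1) m))).PosSemidef := by
    have e : 1 - (1 / 2 : ℝ) • (phi (Xg (L + k) (L + k) F (2 * j) m)
        + phi (Xg (L + k) (L + k) F (2 * j + 1) m))
        = (1 / 2 : ℝ) • ((1 - phi (Xg (L + k) (L + k) F (2 * j) m))
          + (1 - phi (Xg (L + k) (L + k) F (2 * j + 1) m))) := by module
    rw [e]
    exact ((one_sub_phi_psd h0).add (one_sub_phi_psd h1)).smul (by norm_num)
  have eD : DL L (fun x => vD U k x j) k m
      = DL L (fun x => (√(hn (vD U k x j))) • (1 : Matrix (Ix L) (Ix L) ℝ)) k m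
        * DL L (fun x => (hn (vD U k x j))⁻¹ • vD U k x j) k m
        * DL L (fun x => (√(hn (vD U k x j))) • (1 : Matrix (Ix L) (Ix L) ℝ)) k m := by
    rw [DL_mul, DL_mul]
    congr 1
    funext x
    exact (zez _).symm
  have hZ : (DL L (fun x => (√(hn (vD U k x j))) • (1 : Matrix (Ix L) (Ix L) ℝ)) k m)ᵀ
      = DL L (fun x => (√(hn (vD U k x j))) • (1 : Matrix (Ix L) (Ix L) ℝ)) k m :=
    DL_symm (fun x => by rw [transpose_smul, transpose_one]) k m
  have hE : Ct (DL L (fun x => (hn (vD U k x j))⁻¹ • vD U k x j) k m) :=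
    DL_ct (fun x => norm_ct _) k m
  have q := drift_le hW hW1 hZ hE hφ hφ1 hA
  rw [← eD] at q
  have eZ : DL L (fun x => (√(hn (vD U k x j))) • (1 : Matrix (Ix L) (Ix L) ℝ)) k m
      * DL L (fun x => (√(hn (vD U k x j))) • (1 : Matrix (Ix L) (Ix L) ℝ)) k m
      = DL L (fun x => hn (vD U k x j) • (1 : Matrix (Ix L) (Ix L) ℝ)) k m := by
    rw [DL_mul]
    congr 1
    funext x
    rw [Matrix.smul_mul, Matrix.one_mul, smul_smul, Real.mul_self_sqrt (hn_nonneg _)]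
  rw [eZ] at q
  have pM : ∀ x, (hn (vD U k x j) • (1 : Matrix (Ix L) (Ix L) ℝ)).PosSemidef :=
    fun x => PosSemidef.one.smul (hn_nonneg _)
  have pS : ∀ x, (hn (vD U k x j) • (1 : Matrix (Ix L) (Ix L) ℝ)
      - hn (vD U k x j) • (1 : Matrix (Ix L) (Ix L) ℝ)).PosSemidef := fun x => by
    rw [sub_self]; exact PosSemidef.zero
  have q1 := hWd _ _ pM (fun x => hn_nonneg (vD U k x j)) pS
  have q2 : ∀ i : ℤ, (DL L (fun x => hn (vD U k x j) • (1 : Matrix (Ix L) (Ix L) ℝ)) k m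
      * phi (Xg (L + k) (L + k) F i m)).trace
      ≤ ((2 : ℝ) ^ k)⁻¹ * ∑ x ∈ iv k m, rt L F k i x * hn (vD U k x j) := fun i =>
    (trace_mul_le_right (DL_psd pM k m) (sub_phi_psd (H588.Xg_psd (L + k) (L + k) F i m))).trans
      (diag_leW pS)
  have q3 := q2 (2 * j)
  have q4 := q2 (2 * j + 1)
  have e5 : (DL L (fun x => hn (vD U k x j) • (1 : Matrix (Ix L) (Ix L) ℝ)) k m
      * ((1 / 2 : ℝ) • (phi (Xg (L + k) (L + k) F (2 * j) m)
        + phi (Xg (L + k) (L + k) F (2 * j + 1) m)))).trace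
      = 1 / 2 * ((DL L (fun x => hn (vD U k x j) • (1 : Matrix (Ix L) (Ix L) ℝ)) k m
        * phi (Xg (L + k) (L + k) F (2 * j) m)).trace
        + (DL L (fun x => hn (vD U k x j) • (1 : Matrix (Ix L) (Ix L) ℝ)) k m
        * phi (Xg (L + k) (L + k) F (2 * j + 1) m)).trace) := by
    rw [Matrix.mul_smul, Matrix.mul_add, trace_smul, trace_add, smul_eq_mul]
  rw [e5] at q
  have q5 := mul_le_mul_of_nonneg_left q1 hw
  refine q.trans ?_
  calc _ ≤ 1 / 2 * (((2 : ℝ) ^ k)⁻¹ * ∑ x ∈ iv k m, rt L F k (2 * j) x * hn (vD U k x j)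
        + ((2 : ℝ) ^ k)⁻¹ * ∑ x ∈ iv k m, rt L F k (2 * j + 1) x * hn (vD U k x j))
        + w * (((2 : ℝ) ^ k)⁻¹ * ∑ x ∈ iv k m, b x * hn (vD U k x j)) := by
        refine add_le_add (mul_le_mul_of_nonneg_left (add_le_add q3 q4) (by norm_num)) q5
    _ = ((2 : ℝ) ^ k)⁻¹ * ∑ x ∈ iv k m,
        (rt L F (k + 1) j x + w * b x) * hn (vD U k x j) := by
        simp only [rt_row, mul_sum, ← sum_add_distrib]
        exact sum_congr rfl fun x _ => by ring
    _ = _ := rfl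

/-! ### the middle step of the pair -/

/-- the outer half, one middle child -/
theorem mid_halfW (hU : ∀ k x n, Ct (U k x n)) {k : ℕ} {n n' m : ℤ} :
    (phi (Xg (L + (k + 1)) (L + k) F n m)
      * cj (DU U (k + 1) k n' m) (Xg (L + (k + 1)) (L + k) H n' m)).trace
      ≤ (fm (U1 L) F k (k + 1) n m * fm U H k (k + 1) n' m).trace
        + dl (L + k) (L + k) F n m + 2 * dl (L + k) (L + k) H n' m
        + ((2 : ℝ) ^ k)⁻¹ * ∑ x ∈ iv k m,
          (rt L F (k + 1) n x + rt L H (k + 1) n' x) * vd U k x n' := by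
  have eP : fm (U1 L) F k (k + 1) n m = (1 / 2 : ℝ) • (phi (Xg (L + k) (L + k) F (2 * n) m)
      + phi (Xg (L + k) (L + k) F (2 * n + 1) m)) := by
    unfold fm
    rw [show k + 1 - k = 1 by omega, mn_one]
    unfold bs
    rw [DU_one, DU_one, cj_one, cj_one]
  have eQ : fm U H k (k + 1) n' m = (1 / 2 : ℝ) • (DU U k k (2 * n') m
      * phi (Xg (L + k) (L + k) H (2 * n') m) * (DU U k k (2 * n') m)ᵀ
      + DU U k k (2 * n' + 1) m * phi (Xg (L + k) (L + k) H (2 * n' + 1) m)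
        * (DU U k k (2 * n' + 1) m)ᵀ) := by
    unfold fm
    rw [show k + 1 - k = 1 by omega, mn_one]
    rfl
  have rF : Xg (L + (k + 1)) (L + k) F n m
      = (1 / 2 : ℝ) • (Xg (L + k) (L + k) F (2 * n) m + Xg (L + k) (L + k) F (2 * n + 1) m) := by
    rw [← H588.Xg_row]; rfl
  have rH : Xg (L + (k + 1)) (L + k) H n' m
      = (1 / 2 : ℝ) • (Xg (L + k) (L + k) H (2 * n') m + Xg (L + k) (L + k) H (2 * n' + 1) m) := by
    rw [← H588.Xg_row]; rfl
  have f0 := H588.Xg_psd (L + k) (L + k) F (2 * n) m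
  have f1 := H588.Xg_psd (L + k) (L + k) F (2 * n + 1) m
  have g0 := H588.Xg_psd (L + k) (L + k) H (2 * n') m
  have g1 := H588.Xg_psd (L + k) (L + k) H (2 * n' + 1) m
  have hct := DU_ct hU (k + 1) k n' m
  set W := fm (U1 L) F k (k + 1) n m with hWd
  have pW : W.PosSemidef := fm_psd ..
  have oW : (1 - W).PosSemidef := one_sub_mn fun j _ => one_sub_cj (H588.Xg_psd ..)
    (DU_ct U1_ct ..).2
  have oW1 : ((1 : ℝ) • (1 : Matrix (Ix (L + k)) (Ix (L + k)) ℝ) - W).PosSemidef := by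
    rw [one_smul]; exact oW
  have dW : DgW L k m (fun x => rt L F (k + 1) n x) W := by
    rw [hWd]
    unfold H433.fm
    rw [show k + 1 - k = 1 by omega]
    exact DgW.fm (i := k) (a := k) (r := 1) U1_ct
  -- the defect of the static slot
  have s1 : (phi (Xg (L + (k + 1)) (L + k) F n m)
      * cj (DU U (k + 1) k n' m) (Xg (L + (k + 1)) (L + k) H n' m)).trace
      ≤ (W * cj (DU U (k + 1) k n' m) (Xg (L + (k + 1)) (L + k) H n' m)).trace
        + dl (L + k) (L + k) F n m := by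
    have e : phi (Xg (L + (k + 1)) (L + k) F n m)
        = delt (Xg (L + k) (L + k) F (2 * n) m) (Xg (L + k) (L + k) F (2 * n + 1) m) + W := by
      rw [eP, rF, delt]; abel
    have q := trace_mul_le_right (V := cj (DU U (k + 1) k n' m) (Xg (L + (k + 1)) (L + k) H n' m))
      (W := 1) (delt_psd f0 f1) (one_sub_cj (H588.Xg_psd ..) hct.2)
    rw [Matrix.mul_one] at q
    rw [e, Matrix.add_mul, trace_add]
    have e2 : dl (L + k) (L + k) F n m
        = (delt (Xg (L + k) (L + k) F (2 * n) m) (Xg (L + k) (L + k) F (2 * n + 1) m)).trace := rfl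
    rw [e2]
    linarith
  -- the moving slot
  have s2 := move_le g0 g1 (DU_ct hU k k (2 * n') m) (DU_ct hU k k (2 * n' + 1) m) hct
    zero_le_one pW oW1
  have t1 := vtermW (U := U) dW n'
  have t2 := dtermW (F := H) (U := U) (j := n') zero_le_one pW oW1 dW hct
  rw [← V_eq] at t1
  rw [← D_eq] at t2
  rw [← eQ, ← rH] at s2
  have t4 : ((2 : ℝ) ^ k)⁻¹ * ∑ x ∈ iv k m, rt L F (k + 1) n x * (vV U k x n' * (vV U k x n')ᵀ).trace
      + ((2 : ℝ) ^ k)⁻¹ * ∑ x ∈ iv k m, (rt L H (k + 1) n' x + 1 * rt L F (k + 1) n x)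
        * √((vD U k x n' * (vD U k x n')ᵀ).trace)
      ≤ ((2 : ℝ) ^ k)⁻¹ * ∑ x ∈ iv k m,
          (rt L F (k + 1) n x + rt L H (k + 1) n' x) * vd U k x n' := by
    rw [← mul_add, ← sum_add_distrib]
    refine mul_le_mul_of_nonneg_left (sum_le_sum fun x _ => ?_) (by positivity)
    have a1 := rt_nonneg (L := L) (F := F) (k + 1) n x
    have a2 := rt_nonneg (L := L) (F := H) (k + 1) n' x
    have a3 : 0 ≤ (vV U k x n' * (vV U k x n')ᵀ).trace := (psd_mul_transpose _).trace_nonneg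
    unfold vd
    nlinarith [mul_nonneg a2 a3]
  have e3 : (delt (Xg (L + k) (L + k) H (2 * n') m) (Xg (L + k) (L + k) H (2 * n' + 1) m)).trace
      = dl (L + k) (L + k) H n' m := rfl
  have e4 : (W * (DU U (k + 1) k n' m * phi (Xg (L + (k + 1)) (L + k) H n' m)
      * (DU U (k + 1) k n' m)ᵀ - fm U H k (k + 1) n' m)).trace
      = (W * cj (DU U (k + 1) k n' m) (Xg (L + (k + 1)) (L + k) H n' m)).trace
        - (W * fm U H k (k + 1) n' m).trace := by
    rw [Matrix.mul_sub, trace_sub]; rfl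
  rw [e4, e3] at s2
  linarith [s1, s2, t1, t2, t4]

/-- the cost of the change of the multiplier at a node of scale `k + 1` -/
def wm (L : ℕ) (U : ℕ → ℤ → ℤ → Matrix (Ix L) (Ix L) ℝ) (F H : ℤ → ℤ → ℝ) (k : ℕ)
    (n n' m : ℤ) : ℝ :=
  ((2 : ℝ) ^ (k + 1))⁻¹ * ∑ x ∈ iv (k + 1) m,
    (rt L F (k + 1) n x + rt L H (k + 1) n' x) * vd U k x n'

theorem wm_nonneg (k : ℕ) (n n' m : ℤ) : 0 ≤ wm L U F H k n n' m :=
  mul_nonneg (by positivity) (sum_nonneg fun _ _ =>
    mul_nonneg (add_nonneg (rt_nonneg ..) (rt_nonneg ..)) (vd_nonneg ..))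

/-- the defect of a node -/
def erW (U : ℕ → ℤ → ℤ → Matrix (Ix L) (Ix L) ℝ) (F H : ℤ → ℤ → ℝ) (k : ℕ)
    (n n' m : ℤ) : ℝ :=
  (7 * cd (L + (k + 1)) (L + k) F n m
    + (1 / 2) * (dl (L + k) (L + k) F n (2 * m) + dl (L + k) (L + k) F n (2 * m + 1)))
  + (7 * cd (L + (k + 1)) (L + k) H n' m
    + (dl (L + k) (L + k) H n' (2 * m) + dl (L + k) (L + k) H n' (2 * m + 1)))
  + wm L U F H k n n' m

theorem mid_ptW (hU : ∀ k x n, Ct (U k x n)) {k : ℕ} {n n' m : ℤ} :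
    (fm (U1 L) F (k + 1) (k + 1) n m * fm U H (k + 1) (k + 1) n' m).trace
      + ((1 / 2) * mt U F H k n n' m - erW U F H k n n' m)
      ≤ (1 / 2) * ((fm (U1 L) F k (k + 1) n (2 * m) * fm U H k (k + 1) n' (2 * m)).trace
        + (fm (U1 L) F k (k + 1) n (2 * m + 1) * fm U H k (k + 1) n' (2 * m + 1)).trace) := by
  have e0 : fm (U1 L) F (k + 1) (k + 1) n m = phi (Xs (L + (k + 1)) (L + k) F n m) := by
    unfold fm
    rw [Nat.sub_self, mn_zero]
    unfold bs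
    rw [DU_one, cj_one]
    rfl
  have e1 : fm U H (k + 1) (k + 1) n' m
      = bd (DU U (k + 1) k n' (2 * m)) (DU U (k + 1) k n' (2 * m + 1))
        * phi (Xs (L + (k + 1)) (L + k) H n' m)
        * (bd (DU U (k + 1) k n' (2 * m)) (DU U (k + 1) k n' (2 * m + 1)))ᵀ := by
    unfold fm
    rw [Nat.sub_self, mn_zero]
    rfl
  have hct : Ct (bd (DU U (k + 1) k n' (2 * m)) (DU U (k + 1) k n' (2 * m + 1))) :=
    DU_ct hU (k + 1) (k + 1) n' m
  have q := ysplitL (H588.Xs_psd (L + (k + 1)) (L + k) F n m)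
    (H588.Xs_psd (L + (k + 1)) (L + k) H n' m) (rad_symm (m := Ix (L + k))) rad_sq
    (rad_bd (DU U (k + 1) k n' (2 * m)) (DU U (k + 1) k n' (2 * m + 1))).symm hct.1 hct.2
  rw [H588.Xs_split, H588.Xs_split, phi_bd (H588.Xg_psd ..) (H588.Xg_psd ..),
    phi_bd (H588.Xg_psd ..) (H588.Xg_psd ..)] at q
  have e2 : bd (DU U (k + 1) k n' (2 * m)) (DU U (k + 1) k n' (2 * m + 1))
      * bd (phi (Xg (L + (k + 1)) (L + k) H n' (2 * m)))
        (phi (Xg (L + (k + 1)) (L + k) H n' (2 * m + 1)))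
      * (bd (DU U (k + 1) k n' (2 * m)) (DU U (k + 1) k n' (2 * m + 1)))ᵀ
      = bd (cj (DU U (k + 1) k n' (2 * m)) (Xg (L + (k + 1)) (L + k) H n' (2 * m)))
        (cj (DU U (k + 1) k n' (2 * m + 1)) (Xg (L + (k + 1)) (L + k) H n' (2 * m + 1))) := by
    rw [H433.bd_transpose, bd_mul, bd_mul]; rfl
  rw [e2, bd_mul, trace_bd] at q
  have h1 := mid_halfW (F := F) (H := H) hU (k := k) (n := n) (n' := n') (m := 2 * m)
  have h2 := mid_halfW (F := F) (H := H) hU (k := k) (n := n) (n' := n') (m := 2 * m + 1)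
  have e3 : (phi (Xs (L + (k + 1)) (L + k) F n m)
      * (rad (Ix (L + k)) * (bd (DU U (k + 1) k n' (2 * m)) (DU U (k + 1) k n' (2 * m + 1))
        * phi (Xs (L + (k + 1)) (L + k) H n' m)
        * (bd (DU U (k + 1) k n' (2 * m)) (DU U (k + 1) k n' (2 * m + 1)))ᵀ)
        * rad (Ix (L + k)))).trace = mt U F H k n n' m := rfl
  have e4 : (phi (Xs (L + (k + 1)) (L + k) F n m) * (rad (Ix (L + k))
      * phi (Xs (L + (k + 1)) (L + k) F n m) * rad (Ix (L + k)))).trace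
      = cd (L + (k + 1)) (L + k) F n m := rfl
  have e5 : (phi (Xs (L + (k + 1)) (L + k) H n' m) * (rad (Ix (L + k))
      * phi (Xs (L + (k + 1)) (L + k) H n' m) * rad (Ix (L + k)))).trace
      = cd (L + (k + 1)) (L + k) H n' m := rfl
  rw [e3, e4, e5] at q
  rw [e0, e1]
  have e6 : wm L U F H k n n' m = (1 / 2) * (((2 : ℝ) ^ k)⁻¹ * ∑ x ∈ iv k (2 * m),
          (rt L F (k + 1) n x + rt L H (k + 1) n' x) * vd U k x n'
        + ((2 : ℝ) ^ k)⁻¹ * ∑ x ∈ iv k (2 * m + 1),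
          (rt L F (k + 1) n x + rt L H (k + 1) n' x) * vd U k x n') := by
    unfold wm
    rw [sum_iv_halves, pow_succ, mul_inv]
    ring
  unfold erW
  rw [e6]
  have key : ∀ t : ℝ, t + 1 / 2 * mt U F H k n n' m
      - 7 * (cd (L + (k + 1)) (L + k) F n m + cd (L + (k + 1)) (L + k) H n' m) ≤
      1 / 2 * ((phi (Xg (L + (k + 1)) (L + k) F n (2 * m)) *
            cj (DU U (k + 1) k n' (2 * m)) (Xg (L + (k + 1)) (L + k) H n' (2 * m))).trace +
        (phi (Xg (L + (k + 1)) (L + k) F n (2 * m + 1)) *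
            cj (DU U (k + 1) k n' (2 * m + 1)) (Xg (L + (k + 1)) (L + k) H n' (2 * m + 1))).trace) →
      t + ((1 / 2) * mt U F H k n n' m - ((7 * cd (L + (k + 1)) (L + k) F n m
        + (1 / 2) * (dl (L + k) (L + k) F n (2 * m) + dl (L + k) (L + k) F n (2 * m + 1)))
      + (7 * cd (L + (k + 1)) (L + k) H n' m
        + (dl (L + k) (L + k) H n' (2 * m) + dl (L + k) (L + k) H n' (2 * m + 1)))
        + (1 / 2) * (((2 : ℝ) ^ k)⁻¹ * ∑ x ∈ iv k (2 * m),
          (rt L F (k + 1) n x + rt L H (k + 1) n' x) * vd U k x n'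
        + ((2 : ℝ) ^ k)⁻¹ * ∑ x ∈ iv k (2 * m + 1),
          (rt L F (k + 1) n x + rt L H (k + 1) n' x) * vd U k x n')))
      ≤ (1 / 2) * ((fm (U1 L) F k (k + 1) n (2 * m) * fm U H k (k + 1) n' (2 * m)).trace
        + (fm (U1 L) F k (k + 1) n (2 * m + 1) * fm U H k (k + 1) n' (2 * m + 1)).trace) := by
    intro t ht
    linarith
  exact key _ q

/-! ### the own step -/

theorem own_halfW (hU : ∀ k x n, Ct (U k x n))
    {k r : ℕ} {n m : ℤ} {S : Matrix (Ix (L + k)) (Ix (L + k)) ℝ}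
    (hS : S = mn (iv r n) (fun j => cj (DU U (k + 1) k j m) (Xg (L + (k + 1)) (L + k) F j m))) :
    (S * S).trace ≤ (fm U F k (k + 1 + r) n m * fm U F k (k + 1 + r) n m).trace
      + ((2 : ℝ) ^ r)⁻¹ * ∑ j ∈ iv r n,
        (3 * dl (L + k) (L + k) F j m + ((2 : ℝ) ^ k)⁻¹ * ∑ x ∈ iv k m,
          (rt L F (k + 1) j x + 4 * rt L F (k + 1 + r) n x) * vd U k x j) := by
  have eQ : fm U F k (k + 1 + r) n m
      = mn (iv r n) (fun j => (1 / 2 : ℝ) • (cj (DU U k k (2 * j) m) (Xg (L + k) (L + k) F (2 * j) m)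
        + cj (DU U k k (2 * j + 1) m) (Xg (L + k) (L + k) F (2 * j + 1) m))) := by
    unfold fm
    rw [show k + 1 + r - k = r + 1 by omega, mn_pair]
    rfl
  have eS : S = mn (iv r n) (fun j => cj (DU U (k + 1) k j m)
      ((1 / 2 : ℝ) • (Xg (L + k) (L + k) F (2 * j) m + Xg (L + k) (L + k) F (2 * j + 1) m))) := by
    rw [hS]
    congr 1
    funext j
    rw [← H588.Xg_row]
    rfl
  have q := own_outer (J := iv r n) (X0 := fun j => Xg (L + k) (L + k) F (2 * j) m)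
    (X1 := fun j => Xg (L + k) (L + k) F (2 * j + 1) m)
    (U0 := fun j => DU U k k (2 * j) m) (U1 := fun j => DU U k k (2 * j + 1) m)
    (U := fun j => DU U (k + 1) k j m)
    (fun j _ => H588.Xg_psd ..) (fun j _ => H588.Xg_psd ..) (fun j _ => (DU_ct hU ..).2)
    (fun j _ => (DU_ct hU ..).2) (fun j _ => (DU_ct hU ..).1) (fun j _ => (DU_ct hU ..).2)
    eS eQ rfl
  set W := S + fm U F k (k + 1 + r) n m with hW
  have pS : S.PosSemidef := by rw [eS]; exact mn_psd fun j _ => cj_psd (half_psd (H588.Xg_psd ..)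
    (H588.Xg_psd ..))
  have oS : (1 - S).PosSemidef := by
    rw [eS]
    exact one_sub_mn fun j _ => one_sub_cj (half_psd (H588.Xg_psd ..) (H588.Xg_psd ..))
      (DU_ct hU ..).2
  have oQ : (1 - fm U F k (k + 1 + r) n m).PosSemidef :=
    one_sub_mn fun j _ => one_sub_cj (H588.Xg_psd ..) (DU_ct hU ..).2
  have pW : W.PosSemidef := pS.add (fm_psd ..)
  have oW : ((2 : ℝ) • (1 : Matrix (Ix (L + k)) (Ix (L + k)) ℝ) - W).PosSemidef := by
    have e : (2 : ℝ) • (1 : Matrix (Ix (L + k)) (Ix (L + k)) ℝ) - W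
        = (1 - S) + (1 - fm U F k (k + 1 + r) n m) := by
      rw [hW]; module
    rw [e]
    exact oS.add oQ
  have dW : DgW L k m (fun x => rt L F (k + 1 + r) n x + rt L F (k + 1 + r) n x) W := by
    refine DgW.add ?_ ?_
    · rw [hS]
      exact DgW.fm (i := k + 1) (a := k + 1) (r := r) hU
    · unfold H433.fm
      rw [show k + 1 + r - k = r + 1 by omega]
      have h := DgW.fm (L := L) (F := F) (m := m) (n := n) (i := k) (k := k) (a := k) (r := r + 1) hU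
      rw [show k + (r + 1) = k + 1 + r by omega] at h
      exact h
  rw [card_iv] at q
  push_cast at q
  refine q.trans (add_le_add_right (mul_le_mul_of_nonneg_left (Finset.sum_le_sum fun j hj => ?_)
    (by positivity)) _)
  have t1 := vtermW (U := U) dW j
  have t2 := dtermW (F := F) (U := U) (j := j) (by norm_num : (0 : ℝ) ≤ 2) pW oW dW
    (DU_ct hU (k + 1) k j m)
  rw [← V_eq] at t1
  rw [← D_eq] at t2
  have t3 : (W * ((DU U (k + 1) k j m - (1 / 2 : ℝ) • (DU U k k (2 * j) m + DU U k k (2 * j + 1) m))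
      * ((1 / 2 : ℝ) • (phi (Xg (L + k) (L + k) F (2 * j) m)
        + phi (Xg (L + k) (L + k) F (2 * j + 1) m))) * (DU U (k + 1) k j m)ᵀ))
      = W * (DU U (k + 1) k j m - (1 / 2 : ℝ) • (DU U k k (2 * j) m + DU U k k (2 * j + 1) m))
      * ((1 / 2 : ℝ) • (phi (Xg (L + k) (L + k) F (2 * j) m)
        + phi (Xg (L + k) (L + k) F (2 * j + 1) m))) * (DU U (k + 1) k j m)ᵀ := by
    simp only [Matrix.mul_assoc]
  rw [t3]
  have t6 : (delt (Xg (L + k) (L + k) F (2 * j) m) (Xg (L + k) (L + k) F (2 * j + 1) m)).trace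
      = dl (L + k) (L + k) F j m := rfl
  rw [t6]
  have t4 : 2 * (((2 : ℝ) ^ k)⁻¹ * ∑ x ∈ iv k m,
        (rt L F (k + 1 + r) n x + rt L F (k + 1 + r) n x) * (vV U k x j * (vV U k x j)ᵀ).trace)
      + ((2 : ℝ) ^ k)⁻¹ * ∑ x ∈ iv k m,
        (rt L F (k + 1) j x + 2 * (rt L F (k + 1 + r) n x + rt L F (k + 1 + r) n x))
        * √((vD U k x j * (vD U k x j)ᵀ).trace)
      ≤ ((2 : ℝ) ^ k)⁻¹ * ∑ x ∈ iv k m,
          (rt L F (k + 1) j x + 4 * rt L F (k + 1 + r) n x) * vd U k x j := by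
    rw [mul_left_comm, ← mul_add, mul_sum, ← sum_add_distrib]
    refine mul_le_mul_of_nonneg_left (sum_le_sum fun x _ => ?_) (by positivity)
    have a1 := rt_nonneg (L := L) (F := F) (k + 1) j x
    have a3 : 0 ≤ (vV U k x j * (vV U k x j)ᵀ).trace := (psd_mul_transpose _).trace_nonneg
    unfold vd
    nlinarith [mul_nonneg a1 a3]
  linarith [t1, t2, t4]

/-- the defect of the own energy at one node, outer cell `n` of scale `k + 1 + r` above `j` -/
def dfW (U : ℕ → ℤ → ℤ → Matrix (Ix L) (Ix L) ℝ) (F : ℤ → ℤ → ℝ) (k r : ℕ) (j m : ℤ) : ℝ :=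
  14 * cd (L + (k + 1)) (L + k) F j m
    + (3 / 2) * (dl (L + k) (L + k) F j (2 * m) + dl (L + k) (L + k) F j (2 * m + 1))
    + ((2 : ℝ) ^ (k + 1))⁻¹ * ∑ x ∈ iv (k + 1) m,
      (rt L F (k + 1) j x + 4 * rt L F (k + 1 + r) (ix r j) x) * vd U k x j

theorem own_ptW (hU : ∀ k x n, Ct (U k x n)) {k r : ℕ} {n m : ℤ} :
    (fm U F (k + 1) (k + 1 + r) n m * fm U F (k + 1) (k + 1 + r) n m).trace
      ≤ (1 / 2) * ((fm U F k (k + 1 + r) n (2 * m) * fm U F k (k + 1 + r) n (2 * m)).trace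
        + (fm U F k (k + 1 + r) n (2 * m + 1) * fm U F k (k + 1 + r) n (2 * m + 1)).trace)
        + ((2 : ℝ) ^ r)⁻¹ * ∑ j ∈ iv r n, dfW U F k r j m := by
  have e1 : fm U F (k + 1) (k + 1 + r) n m = mn (iv r n) (fun j =>
      cj (bd (DU U (k + 1) k j (2 * m)) (DU U (k + 1) k j (2 * m + 1)))
        (Xs (L + (k + 1)) (L + k) F j m)) := by
    unfold fm
    rw [show k + 1 + r - (k + 1) = r by omega]
    rfl
  have hct : ∀ j, Ct (bd (DU U (k + 1) k j (2 * m)) (DU U (k + 1) k j (2 * m + 1))) :=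
    fun j => DU_ct hU (k + 1) (k + 1) j m
  have q := own_mid (J := iv r n) (X := fun j => Xs (L + (k + 1)) (L + k) F j m)
    (U := fun j => bd (DU U (k + 1) k j (2 * m)) (DU U (k + 1) k j (2 * m + 1)))
    (r := rad (Ix (L + k))) rad_symm rad_sq (fun j _ => H588.Xs_psd ..)
    (fun j _ => (rad_bd _ _).symm) (fun j _ => (hct j).1) (fun j _ => (hct j).2)
  have e2 : mn (iv r n) (fun j =>
      cj (bd (DU U (k + 1) k j (2 * m)) (DU U (k + 1) k j (2 * m + 1)))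
        (Xs (L + (k + 1)) (L + k) F j m
          + rad (Ix (L + k)) * Xs (L + (k + 1)) (L + k) F j m * rad (Ix (L + k))))
      = bd (mn (iv r n) (fun j => cj (DU U (k + 1) k j (2 * m))
          (Xg (L + (k + 1)) (L + k) F j (2 * m))))
        (mn (iv r n) (fun j => cj (DU U (k + 1) k j (2 * m + 1))
          (Xg (L + (k + 1)) (L + k) F j (2 * m + 1)))) := by
    rw [← mn_bd]
    congr 1
    funext j
    rw [H588.Xs_split, cj_bd _ _ (H588.Xg_psd ..) (H588.Xg_psd ..)]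
  rw [e2, bd_mul, trace_bd] at q
  have h1 := own_halfW (F := F) hU (k := k) (r := r) (n := n) (m := 2 * m) rfl
  have h2 := own_halfW (F := F) hU (k := k) (r := r) (n := n) (m := 2 * m + 1) rfl
  have e3 : ((2 : ℝ) ^ r)⁻¹ * ∑ j ∈ iv r n, dfW U F k r j m
      = 14 * (((2 : ℝ) ^ r)⁻¹ * ∑ j ∈ iv r n, cd (L + (k + 1)) (L + k) F j m)
        + (1 / 2) * (((2 : ℝ) ^ r)⁻¹ * ∑ j ∈ iv r n,
          (3 * dl (L + k) (L + k) F j (2 * m) + ((2 : ℝ) ^ k)⁻¹ * ∑ x ∈ iv k (2 * m),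
            (rt L F (k + 1) j x + 4 * rt L F (k + 1 + r) n x) * vd U k x j))
        + (1 / 2) * (((2 : ℝ) ^ r)⁻¹ * ∑ j ∈ iv r n,
          (3 * dl (L + k) (L + k) F j (2 * m + 1) + ((2 : ℝ) ^ k)⁻¹ * ∑ x ∈ iv k (2 * m + 1),
            (rt L F (k + 1) j x + 4 * rt L F (k + 1 + r) n x) * vd U k x j)) := by
    rw [Finset.mul_sum, Finset.mul_sum, Finset.mul_sum, Finset.mul_sum, Finset.mul_sum,
      Finset.mul_sum, Finset.mul_sum, ← Finset.sum_add_distrib, ← Finset.sum_add_distrib]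
    refine Finset.sum_congr rfl fun j hj => ?_
    unfold dfW
    rw [mem_iv.1 hj, sum_iv_halves, pow_succ, mul_inv]
    ring
  have e4 : (((iv r n).card : ℕ) : ℝ)⁻¹ * ∑ j ∈ iv r n,
      (phi (Xs (L + (k + 1)) (L + k) F j m)
        * (rad (Ix (L + k)) * phi (Xs (L + (k + 1)) (L + k) F j m) * rad (Ix (L + k)))).trace
      = ((2 : ℝ) ^ r)⁻¹ * ∑ j ∈ iv r n, cd (L + (k + 1)) (L + k) F j m := by
    rw [card_iv]
    push_cast
    rfl
  rw [e4] at q
  rw [e1, e3]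
  refine q.trans ?_
  linarith

end

end Vale.Agent.P141.H609.LoW
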