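import Vale.Agent.P141.H433.LoPath
import Vale.Agent.P141.H609.SlotW

/-!
# The crude lemma for the low levels, row traces of the node

`lo_pathW` : conclusion of `H433.lo_path` with `B ^ 2 * G` replaced by the two numbers

* `WF` : plane sum of `2 ^ -(k+1) ∑ x, (rt F (k+1) n x + rt H (k+1) n' x) * vd U k x n'`;
* `WH` : the own part, all outer cells above `j`, weights `(3/4) ^ r`.
-/

set_option linter.unusedSectionVars false

namespace Vale.Agent.P141.H609.LoW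

open Finset Matrix Vale.Agent.P075 Vale.Agent.P141.PL Vale.Agent.P141.H103 Vale.Agent.P141.H170
open Vale.Agent.P141.H433
open Vale.Agent.P141.PL.H588 (Xg Xs hd Pl cd dl)
open Vale.Agent.P141.H736 (Agree Path sqQ sqb)
open Vale.Agent.P141.H958 (L2E pwr)

noncomputable section

open scoped Classical

variable {L : ℕ} {U : ℕ → ℤ → ℤ → Matrix (Ix L) (Ix L) ℝ} {F H : ℤ → ℤ → ℝ}

/-- the own cost at scale `k + 1`, outer cells of scale `k + 1 + r` -/
def wh (L : ℕ) (U : ℕ → ℤ → ℤ → Matrix (Ix L) (Ix L) ℝ) (N : ℕ) (S T : ℤ) (H : ℤ → ℤ → ℝ)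
    (k r : ℕ) : ℝ :=
  2 ^ (k + 1) * ∑ x ∈ iv N S, ∑ j ∈ iv (N - (k + 1)) T,
    (rt L H (k + 1) j x + rt L H (k + 1 + r) (ix r j) x) * vd U k x j

theorem wh_nonneg (N : ℕ) (S T : ℤ) (H : ℤ → ℤ → ℝ) (k r : ℕ) : 0 ≤ wh L U N S T H k r :=
  mul_nonneg (by positivity) (sum_nonneg fun _ _ => sum_nonneg fun _ _ =>
    mul_nonneg (add_nonneg (rt_nonneg ..) (rt_nonneg ..)) (vd_nonneg ..))

/-- the tied number -/
def WF (L : ℕ) (U : ℕ → ℤ → ℤ → Matrix (Ix L) (Ix L) ℝ) (N : ℕ) (R S T : ℤ) (c : ℕ → ℤ)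
    (F H : ℕ → ℤ → ℤ → ℝ) : ℝ :=
  ∑ k ∈ range N, GW N R S T (k + 1) (c (k + 1)) fun n n' m =>
    ((2 : ℝ) ^ (k + 1))⁻¹ * ∑ x ∈ iv (k + 1) m,
      (rt L (F (L + (k + 1))) (k + 1) n x + rt L (H (L + (k + 1))) (k + 1) n' x) * vd U k x n'

/-- the untied number -/
def WH (L : ℕ) (U : ℕ → ℤ → ℤ → Matrix (Ix L) (Ix L) ℝ) (N : ℕ) (S T : ℤ)
    (H : ℕ → ℤ → ℤ → ℝ) : ℝ :=
  ∑ k ∈ range N, ∑ r ∈ range (N - (k + 1) + 1), (3 / 4 : ℝ) ^ r *
    (2 ^ (k + 1) * ∑ x ∈ iv N S, ∑ j ∈ iv (N - (k + 1)) T,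
      (rt L (H (L + (k + 1))) (k + 1) j x + rt L (H (L + (k + 1))) (k + 1 + r) (ix r j) x)
        * vd U k x j)

/-! ### own energies -/

/-- the defect of the own energy at scale `k`, outer scale `a` -/
def dEW (U : ℕ → ℤ → ℤ → Matrix (Ix L) (Ix L) ℝ) (F : ℤ → ℤ → ℝ) (N : ℕ) (R S : ℤ)
    (k a : ℕ) : ℝ :=
  (4 : ℝ) ^ (k + 1) * ∑ m ∈ iv (N - (k + 1)) S, ∑ j ∈ iv (N - (k + 1)) R,
    dfW U F k (a - (k + 1)) j m

theorem own_stepW (hU : ∀ k x n, Ct (U k x n))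
    {N k a : ℕ} {R S : ℤ} (h : k < N) (h1 : k + 1 ≤ a) (h2 : a ≤ N) :
    EW N R S (k + 1) (fm U F (k + 1)) a ≤ EW N R S k (fm U F k) a + dEW U F N R S k a := by
  obtain ⟨r, rfl⟩ := Nat.exists_eq_add_of_le h1
  unfold EW dEW
  rw [Nat.add_sub_cancel_left]
  have e1 : N - k = (N - (k + 1)) + 1 := by omega
  have e2 : N - (k + 1) = (N - (k + 1 + r)) + r := by omega
  have hs : ∑ m ∈ iv (N - (k + 1)) S, ∑ n ∈ iv (N - (k + 1 + r)) R,
      (fm U F (k + 1) (k + 1 + r) n m * fm U F (k + 1) (k + 1 + r) n m).trace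
      ≤ ∑ m ∈ iv (N - (k + 1)) S, ∑ n ∈ iv (N - (k + 1 + r)) R,
        ((1 / 2) * ((fm U F k (k + 1 + r) n (2 * m) * fm U F k (k + 1 + r) n (2 * m)).trace
        + (fm U F k (k + 1 + r) n (2 * m + 1) * fm U F k (k + 1 + r) n (2 * m + 1)).trace)
        + ((2 : ℝ) ^ r)⁻¹ * ∑ j ∈ iv r n, dfW U F k r j m) :=
    sum_le_sum fun m hm => sum_le_sum fun n hn => own_ptW hU
  refine (mul_le_mul_of_nonneg_left hs (by positivity)).trans (le_of_eq ?_)
  have hA : ∑ m ∈ iv (N - k) S, ∑ n ∈ iv (N - (k + 1 + r)) R,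
      (fm U F k (k + 1 + r) n m * fm U F k (k + 1 + r) n m).trace
      = ∑ m ∈ iv (N - (k + 1)) S, ∑ n ∈ iv (N - (k + 1 + r)) R,
        ((fm U F k (k + 1 + r) n (2 * m) * fm U F k (k + 1 + r) n (2 * m)).trace
        + (fm U F k (k + 1 + r) n (2 * m + 1) * fm U F k (k + 1 + r) n (2 * m + 1)).trace) := by
    rw [e1, H588.sum_iv_succ]
    exact sum_congr rfl fun m _ => sum_add_distrib.symm
  have hD : ∀ m, ∑ n ∈ iv (N - (k + 1 + r)) R, ∑ j ∈ iv r n, dfW U F k r j m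
      = ∑ j ∈ iv (N - (k + 1)) R, dfW U F k r j m := by
    intro m
    rw [sum_iv_nest, ← e2]
  rw [hA]
  simp only [sum_add_distrib, ← mul_sum, hD]
  have h4 : (4 : ℝ) ^ (k + 1) = 2 ^ (k + 1) * 2 ^ (k + 1) := by
    rw [← mul_pow]; norm_num
  have h5 : (2 : ℝ) ^ (k + 1 + r) = 2 ^ (k + 1) * 2 ^ r := pow_add _ _ _
  have h6 : (2 : ℝ) ^ r ≠ 0 := by positivity
  rw [h4, h5, pow_succ]
  field_simp

/-- the masses of the nodes of one scale -/
theorem sum_mass {N k : ℕ} (h : k < N) (S R : ℤ) (g : ℤ → ℤ → ℝ) :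
    (4 : ℝ) ^ (k + 1) * ∑ m ∈ iv (N - (k + 1)) S, ∑ j ∈ iv (N - (k + 1)) R,
      ((2 : ℝ) ^ (k + 1))⁻¹ * ∑ x ∈ iv (k + 1) m, g x j
      = 2 ^ (k + 1) * ∑ x ∈ iv N S, ∑ j ∈ iv (N - (k + 1)) R, g x j := by
  have e : ∑ m ∈ iv (N - (k + 1)) S, ∑ j ∈ iv (N - (k + 1)) R,
      ((2 : ℝ) ^ (k + 1))⁻¹ * ∑ x ∈ iv (k + 1) m, g x j
      = ((2 : ℝ) ^ (k + 1))⁻¹ * ∑ x ∈ iv N S, ∑ j ∈ iv (N - (k + 1)) R, g x j := by
    have e1 := sum_iv_nest (N - (k + 1)) (k + 1) S (fun x => ∑ j ∈ iv (N - (k + 1)) R, g x j)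
    rw [show N - (k + 1) + (k + 1) = N by omega] at e1
    rw [← e1, mul_sum]
    refine sum_congr rfl fun m _ => ?_
    rw [← mul_sum, sum_comm]
  rw [e, show (4 : ℝ) = 2 * 2 by norm_num, mul_pow]
  have h2 : (2 : ℝ) ^ (k + 1) ≠ 0 := by positivity
  field_simp

theorem dEW_le {N k : ℕ} (h : k < N) (R S : ℤ) (r : ℕ) :
    dEW U F N R S k (k + 1 + r) ≤ 28 * st L N R S F k + 4 * wh L U N S R F k r := by
  have e0 : 4 * wh L U N S R F k r = 4 * ((4 : ℝ) ^ (k + 1) * ∑ m ∈ iv (N - (k + 1)) S,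
      ∑ j ∈ iv (N - (k + 1)) R, ((2 : ℝ) ^ (k + 1))⁻¹ * ∑ x ∈ iv (k + 1) m,
        (rt L F (k + 1) j x + rt L F (k + 1 + r) (ix r j) x) * vd U k x j) := by
    rw [sum_mass h S R]
    rfl
  rw [e0]
  unfold dEW st
  rw [Nat.add_sub_cancel_left]
  have e : 28 * ((4 : ℝ) ^ (k + 1) * ∑ m ∈ iv (N - (k + 1)) S, ∑ n ∈ iv (N - (k + 1)) R,
      sp L F k n m) + 4 * ((4 : ℝ) ^ (k + 1) * ∑ m ∈ iv (N - (k + 1)) S,
      ∑ j ∈ iv (N - (k + 1)) R, ((2 : ℝ) ^ (k + 1))⁻¹ * ∑ x ∈ iv (k + 1) m,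
        (rt L F (k + 1) j x + rt L F (k + 1 + r) (ix r j) x) * vd U k x j)
      = (4 : ℝ) ^ (k + 1) * ∑ m ∈ iv (N - (k + 1)) S, ∑ j ∈ iv (N - (k + 1)) R,
        (28 * sp L F k j m + 4 * (((2 : ℝ) ^ (k + 1))⁻¹ * ∑ x ∈ iv (k + 1) m,
        (rt L F (k + 1) j x + rt L F (k + 1 + r) (ix r j) x) * vd U k x j)) := by
    simp only [sum_add_distrib, ← mul_sum]
    ring
  rw [e]
  refine mul_le_mul_of_nonneg_left (sum_le_sum fun m _ => sum_le_sum fun j _ => ?_) (by positivity)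
  have q : ((2 : ℝ) ^ (k + 1))⁻¹ * ∑ x ∈ iv (k + 1) m,
      (rt L F (k + 1) j x + 4 * rt L F (k + 1 + r) (ix r j) x) * vd U k x j
      ≤ 4 * (((2 : ℝ) ^ (k + 1))⁻¹ * ∑ x ∈ iv (k + 1) m,
        (rt L F (k + 1) j x + rt L F (k + 1 + r) (ix r j) x) * vd U k x j) := by
    rw [mul_left_comm 4, mul_sum (a := (4 : ℝ))]
    refine mul_le_mul_of_nonneg_left (sum_le_sum fun x _ => ?_) (by positivity)
    have a1 := rt_nonneg (L := L) (F := F) (k + 1) j x
    have a3 := vd_nonneg U k x j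
    nlinarith [mul_nonneg a1 a3]
  unfold dfW sp
  have h2 := H588.dl_nonneg (L + k) (L + k) F j (2 * m)
  have h3 := H588.dl_nonneg (L + k) (L + k) F j (2 * m + 1)
  linarith

theorem dEW_zero {N k : ℕ} (R S : ℤ) (F : ℤ → ℤ → ℝ) (r : ℕ) :
    wh L (U1 L) N S R F k r = 0 := by
  unfold wh
  simp only [U1_vd, mul_zero, sum_const_zero]

/-! ### the defects of the pair -/

theorem GW_add (N : ℕ) (R S T : ℤ) (k : ℕ) (c : ℤ) (g g' : ℤ → ℤ → ℤ → ℝ) :
    GW N R S T k c (fun n n' m => g n n' m + g' n n' m) = GW N R S T k c g + GW N R S T k c g' := by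
  unfold GW
  rw [← mul_add, ← sum_add_distrib]
  refine congrArg (fun t : ℝ => (4 : ℝ) ^ k * t) (sum_congr rfl fun m _ => ?_)
  rw [← sum_add_distrib]
  refine sum_congr rfl fun n _ => ?_
  split_ifs <;> ring

theorem GW_smul (N : ℕ) (R S T : ℤ) (k : ℕ) (c : ℤ) (t : ℝ) (g : ℤ → ℤ → ℤ → ℝ) :
    GW N R S T k c (fun n n' m => t * g n n' m) = t * GW N R S T k c g := by
  unfold GW
  simp only [mul_sum]
  refine sum_congr rfl fun m _ => sum_congr rfl fun n _ => ?_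
  split_ifs <;> ring

theorem GW_erW_le {N k : ℕ} (R S T : ℤ) (c : ℤ) :
    GW N R S T (k + 1) c (erW U F H k)
      ≤ 14 * st L N R S F k + 14 * st L N T S H k + GW N R S T (k + 1) c (wm L U F H k) := by
  have e : erW U F H k = fun n n' m => er U F H 0 k n n' m + wm L U F H k n n' m := by
    funext n n' m
    unfold erW er
    ring
  rw [e, GW_add]
  have q := GW_er_le (U := U) (F := F) (H := H) (B := 0) (N := N) (k := k) R S T c
  have e2 : (0 : ℝ) ^ 2 * ms U N S T k = 0 := by ring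
  rw [e2, add_zero] at q
  linarith

/-- **The crude lemma for the low levels, for paths, with the row traces of the nodes.** -/
theorem lo_pathW {N : ℕ} {R S T : ℤ} {c : ℕ → ℤ} (hc : Pl c) (hU : ∀ k x n, Ct (U k x n))
    {Q Q' : ℕ → ℤ → ℤ → Prop} {F H : ℕ → ℤ → ℤ → ℝ} {D D' : ℝ}
    (eF : L2E (L + N) R S Q F D) (eH : L2E (L + N) T S Q' H D') :
    ∑ k ∈ range N, GW N R S T (k + 1) (c (k + 1)) (mt U (F (L + (k + 1))) (H (L + (k + 1))) k)
      ≤ 10 ^ 4 * (((4 : ℝ) ^ L)⁻¹ * (D + D') + (WF L U N R S T c F H + WH L U N S T H)) := by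
  -- changes
  set cF : ℕ → ℝ := fun k => chq L N R S (Q (L + k)) (F (L + (k + 1))) k with hcF
  set cH : ℕ → ℝ := fun k => chq L N T S (Q' (L + k)) (H (L + (k + 1))) k with hcH
  have h := totalW (Nat.zero_le N) hc (P := fun k => fm (U1 L) (F (L + k)) k)
    (P' := fun k => fm (U1 L) (F (L + (k + 1))) k)
    (Q := fun k => fm U (H (L + k)) k) (Q' := fun k => fm U (H (L + (k + 1))) k)
    (R := R) (S := S) (T := T)
    (g := fun k n n' m => (1 / 2) * mt U (F (L + (k + 1))) (H (L + (k + 1))) k n n' m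
        - erW U (F (L + (k + 1))) (H (L + (k + 1))) k n n' m)
    (dE := fun k a => dEW (U1 L) (F (L + (k + 1))) N R S k a)
    (dF := fun k a => dEW U (H (L + (k + 1))) N T S k a)
    (x := fun k => 73 * (cF k + cH k))
    (fun k _ _ => fm_out N k) (fun k _ _ => fm_out N k) (fun k _ _ => fm_out N k)
    (fun k _ _ => fm_out N k) (fun k a n m => fm_symm k a n m) (fun k a n m => fm_symm k a n m)
    (fun k a n m => fm_symm k a n m) (fun k a n m => fm_symm k a n m)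
    (fun k _ _ n n' m => mid_ptW hU)
    (fun k _ h2 a h3 h4 => own_stepW U1_ct h2 h3 h4)
    (fun k _ h2 a h3 h4 => own_stepW hU h2 h3 h4)
    (fun k _ hk => by
      have a1 : Agree (L + N) R S (L + k) (Q (L + k)) (F (L + (k + 1))) (F (L + k)) :=
        eF.path (L + k) (by omega)
      have a2 : Agree (L + N) T S (L + k) (Q' (L + k)) (H (L + (k + 1))) (H (L + k)) :=
        eH.path (L + k) (by omega)
      have w1 := MW_change (U := U) (U' := U1 L) U1_ct hU a1 a2 (c k)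
      have w2 := WW_change (U := U1 L) U1_ct hk.le a1
      have w3 := WW_change (U := U) hU hk.le a2
      simp only [hcF, hcH]
      linarith)
  -- the gains
  have hGW : ∀ k, GW N R S T (k + 1) (c (k + 1)) (fun n n' m =>
        (1 / 2) * mt U (F (L + (k + 1))) (H (L + (k + 1))) k n n' m
        - erW U (F (L + (k + 1))) (H (L + (k + 1))) k n n' m)
      = (1 / 2) * GW N R S T (k + 1) (c (k + 1)) (mt U (F (L + (k + 1))) (H (L + (k + 1))) k)
        - GW N R S T (k + 1) (c (k + 1)) (erW U (F (L + (k + 1))) (H (L + (k + 1))) k) := by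
    intro k
    have e1 : (fun n n' m => (1 / 2) * mt U (F (L + (k + 1))) (H (L + (k + 1))) k n n' m
        - erW U (F (L + (k + 1))) (H (L + (k + 1))) k n n' m)
        = fun n n' m => (fun n n' m =>
          (1 / 2) * mt U (F (L + (k + 1))) (H (L + (k + 1))) k n n' m) n n' m
          + (fun n n' m => (-1) * erW U (F (L + (k + 1))) (H (L + (k + 1))) k n n' m) n n' m := by
      funext n n' m
      ring
    rw [e1, GW_add, GW_smul, GW_smul]
    ring
  rw [Nat.Ico_zero_eq_range] at h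
  simp only [hGW, sum_sub_distrib, ← mul_sum] at h
  have hgeo : ∀ (k : ℕ) (t : ℝ), 0 ≤ t →
      ∑ r ∈ range (N - (k + 1) + 1), (3 / 4 : ℝ) ^ r * t ≤ 4 * t := by
    intro k t ht
    rw [← sum_mul]
    exact mul_le_mul_of_nonneg_right (H736.geo_le _) ht
  have hst : ∀ (R' : ℤ) (F' : ℤ → ℤ → ℝ) (k : ℕ), 0 ≤ st L N R' S F' k := fun R' F' k =>
    mul_nonneg (by positivity) (sum_nonneg fun _ _ => sum_nonneg fun _ _ => sp_nonneg ..)
  have hWE : ∀ k ∈ range N, WW N (k + 1) (fun a => dEW (U1 L) (F (L + (k + 1))) N R S k a)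
      ≤ 112 * st L N R S (F (L + (k + 1))) k := by
    intro k hk
    unfold WW
    refine (sum_le_sum fun r _ => mul_le_mul_of_nonneg_left (dEW_le (U := U1 L)
      (F := F (L + (k + 1))) (mem_range.1 hk) R S r) (by positivity)).trans ?_
    simp only [dEW_zero, mul_zero, add_zero]
    refine (hgeo k _ (mul_nonneg (by norm_num) (hst ..))).trans (le_of_eq ?_)
    ring
  have hWF : ∀ k ∈ range N, WW N (k + 1) (fun a => dEW U (H (L + (k + 1))) N T S k a)
      ≤ 112 * st L N T S (H (L + (k + 1))) k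
        + 4 * ∑ r ∈ range (N - (k + 1) + 1), (3 / 4 : ℝ) ^ r *
          wh L U N S T (H (L + (k + 1))) k r := by
    intro k hk
    unfold WW
    refine (sum_le_sum fun r _ => mul_le_mul_of_nonneg_left (dEW_le (U := U)
      (F := H (L + (k + 1))) (mem_range.1 hk) T S r) (by positivity)).trans ?_
    simp only [mul_add, sum_add_distrib]
    have q := hgeo k (28 * st L N T S (H (L + (k + 1))) k) (mul_nonneg (by norm_num) (hst ..))
    have e : ∑ r ∈ range (N - (k + 1) + 1), (3 / 4 : ℝ) ^ r *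
        (4 * wh L U N S T (H (L + (k + 1))) k r)
        = 4 * ∑ r ∈ range (N - (k + 1) + 1), (3 / 4 : ℝ) ^ r *
          wh L U N S T (H (L + (k + 1))) k r := by
      rw [mul_sum]
      exact sum_congr rfl fun r _ => by ring
    rw [e]
    linarith
  have hdef : ∑ k ∈ range N, (WW N (k + 1) (fun a => dEW (U1 L) (F (L + (k + 1))) N R S k a)
      + WW N (k + 1) (fun a => dEW U (H (L + (k + 1))) N T S k a))
      ≤ 112 * ∑ k ∈ range N, st L N R S (F (L + (k + 1))) k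
        + 112 * ∑ k ∈ range N, st L N T S (H (L + (k + 1))) k + 4 * WH L U N S T H := by
    have e : 112 * ∑ k ∈ range N, st L N R S (F (L + (k + 1))) k
        + 112 * ∑ k ∈ range N, st L N T S (H (L + (k + 1))) k + 4 * WH L U N S T H
        = ∑ k ∈ range N, (112 * st L N R S (F (L + (k + 1))) k
          + (112 * st L N T S (H (L + (k + 1))) k
          + 4 * ∑ r ∈ range (N - (k + 1) + 1), (3 / 4 : ℝ) ^ r *
            wh L U N S T (H (L + (k + 1))) k r)) := by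
      unfold WH wh
      simp only [sum_add_distrib, ← mul_sum]
      ring
    rw [e]
    exact sum_le_sum fun k hk => add_le_add (hWE k hk) (hWF k hk)
  have her : ∑ k ∈ range N, GW N R S T (k + 1) (c (k + 1))
      (erW U (F (L + (k + 1))) (H (L + (k + 1))) k)
      ≤ 14 * ∑ k ∈ range N, st L N R S (F (L + (k + 1))) k
        + 14 * ∑ k ∈ range N, st L N T S (H (L + (k + 1))) k + WF L U N R S T c F H := by
    unfold WF
    rw [mul_sum, mul_sum, ← sum_add_distrib, ← sum_add_distrib]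
    exact sum_le_sum fun k _ => GW_erW_le R S T (c (k + 1))
  have s1 := sum_st_path (L := L) le_rfl (N := N) eF.path
  have s2 := sum_st_path (L := L) le_rfl (N := N) eH.path
  have n1 := ee_nonneg (L := L) (F := F (L + N)) N R S N
  have n2 := ee_nonneg (L := L) (F := H (L + N)) N T S N
  have p1 := path_energy eF
  have p2 := path_energy eH
  have w1 := EW_start (U := U1 L) U1_ct N R S (F (L + 0))
  have w2 := EW_start (U := U) hU N T S (H (L + 0))
  have c1 : 0 ≤ ∑ k ∈ range N, cF k := sum_nonneg fun k _ => chq_nonneg ..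
  have c2 : 0 ≤ ∑ k ∈ range N, cH k := sum_nonneg fun k _ => chq_nonneg ..
  have z1 := ee_nonneg (L := L) (F := F (L + 0)) N R S 0
  have z2 := ee_nonneg (L := L) (F := H (L + 0)) N T S 0
  have zH : 0 ≤ WH L U N S T H := by
    unfold WH
    exact sum_nonneg fun k _ => sum_nonneg fun r _ => mul_nonneg (by positivity)
      (wh_nonneg N S T (H (L + (k + 1))) k r)
  have zF : 0 ≤ WF L U N R S T c F H := by
    unfold WF GW
    refine sum_nonneg fun k _ => mul_nonneg (by positivity) (sum_nonneg fun m _ =>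
      sum_nonneg fun n _ => ?_)
    split_ifs
    · exact wm_nonneg ..
    · exact le_rfl
  have hx : ∑ k ∈ range N, (cF k + cH k) = ∑ k ∈ range N, cF k + ∑ k ∈ range N, cH k :=
    sum_add_distrib
  have i1 : ∑ k ∈ range N, chq L N R S (Q (L + k)) (F (L + (k + 1))) k = ∑ k ∈ range N, cF k :=
    rfl
  have i2 : ∑ k ∈ range N, chq L N T S (Q' (L + k)) (H (L + (k + 1))) k = ∑ k ∈ range N, cH k :=
    rfl
  rw [i1] at s1 p1
  rw [i2] at s2 p2
  rw [hx] at h
  rw [mul_add ((4 : ℝ) ^ L)⁻¹]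
  linarith

end

end Vale.Agent.P141.H609.LoW
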