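import Vale.Agent.P141.H609.HZL
import Vale.Agent.P141.H536.LightQ
import Vale.Agent.P141.H822.LPLight
import Vale.Agent.P141.H633.TrS
import Vale.Agent.P141.H677.Fam

/-!
# P141, line (A): the gap part of the families in the letters of `tzX_lab`

`BD V` is the block diagonal node operator of a label multiplier, `SE_BD` : on the fine grid it is
the matrix `SV` of `H822`; `W_eq` : the light minus the flow matrix of a node, times `Aᵀ`, is
`4 ^ L` times the matrix `H576.WZ`; `ndZ_eq` : the trace form is `4 ^ L` times the gap part.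
-/

namespace Vale.Agent.P141.H609

open Finset Matrix Vale.Agent.P075 Vale.Agent.P141.PL Vale.Agent.P141.PL.H588
open Vale.Agent.P141.PL.H804 Vale.Agent.P141.H736 Vale.Agent.P141.H958 Vale.Agent.P141.H338
open Vale.Agent.P141.H576
open Vale.Agent.P141.H822 (SV kV VL)
open Vale.Agent.P141.H536 (TE mx dp dl hL SE)
open Vale.Agent.P141.H103 (qK)

noncomputable section

variable {κ : Type*} [Fintype κ] [DecidableEq κ] {L : ℕ} {e : κ → ℤ}

/-! ### the node operator -/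

/-- The block diagonal node operator of a label multiplier. -/
def BD (V : ℕ → ℤ → ℤ → Matrix κ κ ℝ) (k : ℕ) (m : Pt) : Matrix (Ix k × κ) (Ix k × κ) ℝ :=
  Matrix.of fun p q => if p.1 = q.1 then V k (2 ^ k * m.2.2 + val k p.1) m.2.1 p.2 q.2 else 0

theorem TE_mul (k : ℕ) {α : Type*} (M : Matrix (Ix k × κ) α ℝ) (i : Ix (k + L)) (a : α) :
    (TE L e k * M) i a = cu e (fun q => M (dp k L i, q) a) (dl k L i) := by
  have h := H536.mul_TEt (L := L) (e := e) k Mᵀ a i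
  rw [← Matrix.transpose_mul, Matrix.transpose_apply] at h
  exact h

theorem dp_inj (k : ℕ) {i i' : Ix (k + L)} {m : ℤ}
    (h : ix L (2 ^ (k + L) * m + (val (k + L) i : ℤ)) = ix L (2 ^ (k + L) * m + (val (k + L) i' : ℤ))) :
    dp k L i = dp k L i' := by
  rw [H536.ix_pos, H536.ix_pos] at h
  exact val_inj k (by exact_mod_cast (add_left_cancel h))

/-- **The two forms of the node operator agree.** -/
theorem SE_BD (V : ℕ → ℤ → ℤ → Matrix κ κ ℝ) (k : ℕ) (m : Pt) :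
    SE L e (BD V) (k + L) m = SV L e V (k + L) m := by
  rw [H536.SE_add]
  ext i i'
  rw [H536.mul_TEt]
  simp only [TE_mul]
  change _ = kV L e (fun x => V (k + L - L) x m.2.1) (2 ^ (k + L) * m.2.2 + (val (k + L) i : ℤ))
    (2 ^ (k + L) * m.2.2 + (val (k + L) i' : ℤ))
  rw [Nat.add_sub_cancel]
  unfold kV
  by_cases h : ix L (2 ^ (k + L) * m.2.2 + (val (k + L) i : ℤ)) =
      ix L (2 ^ (k + L) * m.2.2 + (val (k + L) i' : ℤ))
  · rw [if_pos h, H536.lb_pos, H536.lb_pos, H536.ix_pos]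
    have h1 := dp_inj k h
    unfold cu
    rw [sum_comm]
    refine sum_congr rfl fun q' _ => ?_
    by_cases h2 : e q' = dl k L i'
    · rw [if_pos h2]
      refine sum_congr rfl fun q _ => ?_
      by_cases h3 : e q = dl k L i
      · rw [if_pos h3, if_pos ⟨h3, h2⟩]
        simp only [BD, Matrix.of_apply, if_pos h1]
      · rw [if_neg h3, if_neg fun h4 => h3 h4.1]
    · rw [if_neg h2]
      symm
      refine sum_eq_zero fun q _ => ?_
      rw [if_neg fun h4 => h2 h4.2]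
  · rw [if_neg h]
    have h1 : dp k L i ≠ dp k L i' := fun h2 => h (by rw [H536.ix_pos, H536.ix_pos, h2])
    unfold cu
    refine sum_eq_zero fun q' _ => ?_
    split_ifs
    · refine sum_eq_zero fun q _ => ?_
      split_ifs
      · simp only [BD, Matrix.of_apply, if_neg h1]
      · rfl
    · rfl

/-! ### blocks of scalar functions -/

theorem bl_dup (k : ℕ) (A : ℤ → ℤ → ℝ) (n m : ℤ) :
    bl (k + L) (dup L A) n m = H536.DE L k * bl k A n m * (H536.DE L k)ᵀ := by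
  ext i i'
  rw [← Matrix.transpose_transpose (H536.DE L k * bl k A n m * (H536.DE L k)ᵀ), Matrix.transpose_apply,
    Matrix.transpose_mul, Matrix.transpose_transpose, H536.DE_mul, Matrix.transpose_apply,
    H536.DE_mul]
  change dup L A (2 ^ (k + L) * n + val (k + L) i) (2 ^ (k + L) * m + val (k + L) i') = _
  rw [dup_apply, H536.ix_pos, H536.ix_pos]
  rfl

theorem hd_DE {k : ℕ} (hk : 1 ≤ k) : hd (k + L) * H536.DE L k = H536.DE L k * hd k := by
  ext i p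
  rw [H536.hd_diag (by omega), H536.hd_diag hk, Matrix.diagonal_mul, Matrix.mul_diagonal,
    H536.DE_apply]
  by_cases h : dp k L i = p
  · rw [if_pos h, mul_one, one_mul, hs_add hk]
    have a1 := H536.ix_pos k L 0 i
    simp only [mul_zero, zero_add] at a1
    rw [a1, h]
  · rw [if_neg h, mul_zero, zero_mul]

theorem DEt_hd {k : ℕ} (hk : 1 ≤ k) : (H536.DE L k)ᵀ * hd (k + L) = hd k * (H536.DE L k)ᵀ := by
  have h := congrArg Matrix.transpose (hd_DE (L := L) hk)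
  rwa [Matrix.transpose_mul, Matrix.transpose_mul, hd_symm, hd_symm] at h

/-- the signs of a cell -/
theorem hs_cell {k : ℕ} (hk : 1 ≤ k) (m : ℤ) (i : Ix k) :
    hs k (2 ^ k * m + val k i) = hs k (val k i : ℤ) := by
  have h := (hd_eq hk m).symm.trans (H536.hd_diag hk)
  have h2 := congrArg (fun M : Matrix (Ix k) (Ix k) ℝ => M i i) h
  simpa only [Matrix.diagonal_apply_eq] using h2

/-! ### the flow matrix and the identity of a node -/

/-- The labelled function of the flow part. -/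
def FB (l : ℝ) (e : κ → ℤ) (b : ℕ → ℤ → ℤ → κ → ℝ) (K : ℤ → ℕ → ℤ → Matrix κ κ ℝ) (k : ℕ)
    (n : ℤ) : ℤ → ℤ → ℤ → ℝ :=
  fun lab y x => cu e (H633.Sf l (K x k n) (K x (k - 1) (2 * n)) (K x (k - 1) (2 * n + 1)) *ᵥ
    b k x y) lab

/-- The flow matrix of the node. -/
def YFm (L : ℕ) (l : ℝ) (e : κ → ℤ) (b : ℕ → ℤ → ℤ → κ → ℝ) (K : ℤ → ℕ → ℤ → Matrix κ κ ℝ)
    (k' : ℕ) (m : Pt) : Matrix (Ix k') (Ix k') ℝ :=
  -(hd k' * (bl k' (encR L (FB l e b K (k' - L) m.2.1)) m.2.1 m.2.2)ᵀ)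

/-- the vectors of the flow part, coordinate by coordinate -/
def fv (l : ℝ) (b : ℤ → ℤ → κ → ℝ) (K : ℤ → ℕ → ℤ → Matrix κ κ ℝ) (k : ℕ) (n : ℤ) :
    κ → ℤ → ℤ → ℝ :=
  fun a y x => (H633.Sf l (K x k n) (K x (k - 1) (2 * n)) (K x (k - 1) (2 * n + 1)) *ᵥ b x y) a

/-- the vectors of the gap part, coordinate by coordinate -/
def gv (l : ℝ) (A : ℤ → ℤ → ℝ) (b : ℤ → ℤ → κ → ℝ) (K : ℤ → ℕ → ℤ → Matrix κ κ ℝ) (k : ℕ)
    (n : ℤ) : κ → ℤ → ℤ → ℝ :=
  fun a z x => hs k x * 2 ^ k * sz l (K x) (qK A b z x) k n a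

omit [DecidableEq κ] in
theorem mulVec_sum_smul (M : Matrix κ κ ℝ) (s : Finset ℤ) (c : ℤ → ℝ) (f : ℤ → κ → ℝ) (a : κ) :
    (M *ᵥ ∑ y ∈ s, c y • f y) a = ∑ y ∈ s, c y * (M *ᵥ f y) a := by
  rw [Matrix.mulVec_sum, Finset.sum_apply]
  refine sum_congr rfl fun y _ => ?_
  rw [Matrix.mulVec_smul]
  rfl

theorem gv_eq {k : ℕ} (hk : 1 ≤ k) (l : ℝ) (A : ℤ → ℤ → ℝ) (b : ℤ → ℤ → κ → ℝ)
    (K : ℤ → ℕ → ℤ → Matrix κ κ ℝ) (n z x : ℤ) (a : κ) :
    gv l A b K k n a z x = ∑ y ∈ iv k n, hs k x *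
      (((√l • (K x k n)⁻¹) *ᵥ b x y) a * hs k y - fv l b K k n a y x) * A z y := by
  have h2 : (2 : ℝ) ^ k ≠ 0 := by positivity
  have e1 : (2 : ℝ) ^ k • H483.hd (qK A b z x) k n = ∑ y ∈ iv k n, (hs k y * A z y) • b x y := by
    have h := H677.mT_hs (fun y => A z y • b x y) hk n
    change _ = H483.hd (qK A b z x) k n at h
    rw [← h]
    unfold H677.mT
    rw [smul_smul, mul_inv_cancel₀ h2, one_smul]
    exact sum_congr rfl fun y _ => smul_smul _ _ _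
  have e2 : (2 : ℝ) ^ k • qK A b z x k n = ∑ y ∈ iv k n, A z y • b x y := by
    unfold H103.qK
    rw [smul_smul, mul_inv_cancel₀ h2, one_smul]
  have e3 : (2 : ℝ) ^ k • sz l (K x) (qK A b z x) k n =
      (√l • (K x k n)⁻¹) *ᵥ ((2 : ℝ) ^ k • H483.hd (qK A b z x) k n) -
        H633.Sf l (K x k n) (K x (k - 1) (2 * n)) (K x (k - 1) (2 * n + 1)) *ᵥ
          ((2 : ℝ) ^ k • qK A b z x k n) := by
    unfold sz H483.ze H633.Sf
    rw [Matrix.mulVec_smul, Matrix.mulVec_smul, ← smul_sub]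
    congr 1
    rw [Matrix.mulVec_sub, smul_sub, Matrix.smul_mulVec, Matrix.smul_mulVec]
    congr 2
    rw [Matrix.mulVec_mulVec, Matrix.mulVec_mulVec]
    rfl
  have e4 : gv l A b K k n a z x = hs k x * ((2 : ℝ) ^ k • sz l (K x) (qK A b z x) k n) a := by
    unfold gv
    rw [Pi.smul_apply, smul_eq_mul]
    ring
  rw [e4, e3, e1, e2, Pi.sub_apply, mulVec_sum_smul, mulVec_sum_smul, ← sum_sub_distrib, mul_sum]
  refine sum_congr rfl fun y _ => ?_
  unfold fv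
  ring

/-- **The identity of a node on the coarse grid.** -/
theorem node_coarse {k : ℕ} (hk : 1 ≤ k) (l : ℝ) (A : ℤ → ℤ → ℝ) (b : ℤ → ℤ → κ → ℝ)
    (K : ℤ → ℕ → ℤ → Matrix κ κ ℝ) (m : Pt) :
    (hL κ k * BD (VL l K) k m * (mx k (fun a y x => b x y a) m.2.1 m.2.2)ᵀ * hd k -
        hL κ k * (mx k (fv l b K k m.2.1) m.2.1 m.2.2)ᵀ) * (bl k A m.1 m.2.1)ᵀ =
      (mx k (gv l A b K k m.2.1) m.1 m.2.2)ᵀ := by
  ext p j
  have hx : (mx k (gv l A b K k m.2.1) m.1 m.2.2)ᵀ p j =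
      gv l A b K k m.2.1 p.2 (2 ^ k * m.1 + val k j) (2 ^ k * m.2.2 + val k p.1) := rfl
  rw [hx, gv_eq hk, H588.sum_iv, Matrix.mul_apply]
  refine sum_congr rfl fun y _ => ?_
  have h1 : (bl k A m.1 m.2.1)ᵀ y j = A (2 ^ k * m.1 + val k j) (2 ^ k * m.2.1 + val k y) := rfl
  rw [h1, Matrix.sub_apply]
  congr 1
  have h2 : (hL κ k * (mx k (fv l b K k m.2.1) m.2.1 m.2.2)ᵀ) p y =
      hs k (val k p.1 : ℤ) * fv l b K k m.2.1 p.2 (2 ^ k * m.2.1 + val k y)
        (2 ^ k * m.2.2 + val k p.1) := by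
    rw [hL, Matrix.diagonal_mul]
    rfl
  have h3 : (hL κ k * BD (VL l K) k m * (mx k (fun a y x => b x y a) m.2.1 m.2.2)ᵀ * hd k) p y =
      hs k (val k p.1 : ℤ) * ((√l • (K (2 ^ k * m.2.2 + val k p.1) k m.2.1)⁻¹) *ᵥ
        b (2 ^ k * m.2.2 + val k p.1) (2 ^ k * m.2.1 + val k y)) p.2 * hs k (val k y : ℤ) := by
    rw [H536.hd_diag hk, Matrix.mul_diagonal]
    congr 1
    rw [Matrix.mul_assoc, hL, Matrix.diagonal_mul]
    congr 1
    rw [Matrix.mul_apply, Fintype.sum_prod_type, Finset.sum_eq_single p.1]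
    · rw [Matrix.mulVec, dotProduct]
      refine sum_congr rfl fun q _ => ?_
      unfold BD VL
      rw [Matrix.of_apply, if_pos rfl]
      rfl
    · intro p' _ hp'
      refine sum_eq_zero fun q _ => ?_
      unfold BD
      rw [Matrix.of_apply, if_neg (Ne.symm hp'), zero_mul]
    · intro h
      exact absurd (Finset.mem_univ _) h
  rw [h2, h3, hs_cell hk, hs_cell hk]
  ring

/-- **The light minus the flow matrix of a node, times `Aᵀ`, is `4 ^ L` times `WZ`.** -/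
theorem W_eq (he : Function.Injective e) (hm : ∀ i, e i ∈ lbs L) {k : ℕ} (hk : 1 ≤ k) (l : ℝ)
    (A : ℕ → ℤ → ℤ → ℝ) (b : ℕ → ℤ → ℤ → κ → ℝ) (K : ℤ → ℕ → ℤ → Matrix κ κ ℝ) (m : Pt) :
    (hd (k + L) * SV L e (VL l K) (k + L) m *
        (bl (k + L) (encR L fun lab y x => cu e (b k x y) lab) m.2.1 m.2.2)ᵀ * hd (k + L) +
        YFm L l e b K (k + L) m) * (bl (k + L) (dup L (A k)) m.1 m.2.1)ᵀ =
      (4 ^ L : ℝ) • WZ L l e A b K (k + L) m := by
  have e0 : (fun lab y x => cu e (b k x y) lab) = lf e fun a y x => b k x y a := rfl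
  have e1 : FB l e b K k m.2.1 = lf e (fv l (b k) K k m.2.1) := rfl
  have e2 : FZ l e A b K k m.2.1 = lf e (gv l (A k) (b k) K k m.2.1) := by
    funext lab z x
    unfold FZ lf gv
    rw [← cu_smul]
  have hT := H536.TE_iso he hm k
  have hD := H536.DE_iso (L := L) k
  have hh := H536.hd_TE (L := L) (e := e) hk
  have hh' := DEt_hd (L := L) hk
  have h2 : √((2 : ℝ) ^ L) * 2 ^ L = 4 ^ L * ((2 ^ L)⁻¹ * √(2 ^ L)) := by
    have h3 : (4 : ℝ) ^ L = 2 ^ L * 2 ^ L := by rw [← mul_pow]; norm_num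
    rw [h3]
    field_simp
  unfold YFm WZ WF
  rw [Nat.add_sub_cancel, e0, e1, e2, ← SE_BD, H536.SE_add, H536.bl_enc, H536.bl_enc, H536.bl_enc,
    bl_dup]
  simp only [Matrix.transpose_smul, Matrix.transpose_mul, Matrix.transpose_transpose]
  set T := TE L e k with hTd
  set D := H536.DE L k with hDd
  set B := (mx k (fun a y x => b k x y a) m.2.1 m.2.2)ᵀ with hB
  set F := (mx k (fv l (b k) K k m.2.1) m.2.1 m.2.2)ᵀ with hF
  set Am := (bl k (A k) m.1 m.2.1)ᵀ with hAm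
  have key := node_coarse hk l (A k) (b k) K m
  rw [← hB, ← hF, ← hAm] at key
  have s1 : hd (k + L) * (T * BD (VL l K) k m * Tᵀ) * (√(2 ^ L) • (T * (B * Dᵀ))) * hd (k + L) =
      √(2 ^ L) • (T * (hL κ k * BD (VL l K) k m * B * hd k) * Dᵀ) := by
    rw [Matrix.mul_smul, Matrix.smul_mul]
    congr 1
    rw [show hd (k + L) * (T * BD (VL l K) k m * Tᵀ) * (T * (B * Dᵀ)) * hd (k + L) =
      (hd (k + L) * T) * BD (VL l K) k m * (Tᵀ * T) * B * (Dᵀ * hd (k + L)) by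
        simp only [Matrix.mul_assoc], hh, hT, hh', Matrix.mul_one]
    simp only [Matrix.mul_assoc]
  have s2 : hd (k + L) * (√(2 ^ L) • (T * (F * Dᵀ))) = √(2 ^ L) • (T * (hL κ k * F) * Dᵀ) := by
    rw [Matrix.mul_smul]
    congr 1
    rw [← Matrix.mul_assoc, hh]
    simp only [Matrix.mul_assoc]
  rw [s1, s2, ← sub_eq_add_neg, ← smul_sub, ← Matrix.sub_mul, ← Matrix.mul_sub, Matrix.smul_mul]
  have s3 : T * (hL κ k * BD (VL l K) k m * B * hd k - hL κ k * F) * Dᵀ * (D * (Am * Dᵀ)) =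
      (2 ^ L : ℝ) • (T * ((hL κ k * BD (VL l K) k m * B * hd k - hL κ k * F) * Am) * Dᵀ) := by
    rw [show T * (hL κ k * BD (VL l K) k m * B * hd k - hL κ k * F) * Dᵀ * (D * (Am * Dᵀ)) =
      T * (hL κ k * BD (VL l K) k m * B * hd k - hL κ k * F) * (Dᵀ * D) * (Am * Dᵀ) by
        simp only [Matrix.mul_assoc], hD]
    simp only [Matrix.mul_smul, Matrix.smul_mul, Matrix.mul_one, Matrix.mul_assoc]
  rw [s3, key, smul_smul, smul_smul, smul_smul, h2, Matrix.mul_assoc]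
  congr 1
  ring

/-- **The trace form of the node** is `4 ^ L` times the gap part. -/
theorem ndZ_eq (he : Function.Injective e) (hm : ∀ i, e i ∈ lbs L) {k : ℕ} (hk : 1 ≤ k) (l : ℝ)
    (A : ℕ → ℤ → ℤ → ℝ) (b : ℕ → ℤ → ℤ → κ → ℝ) (C : ℤ → ℤ → κ → ℝ)
    (K : ℤ → ℕ → ℤ → Matrix κ κ ℝ) (m : Pt) :
    (2 ^ (k + L) : ℝ)⁻¹ * (((hd (k + L) * SV L e (VL l K) (k + L) m *
        (bl (k + L) (encR L fun lab y x => cu e (b k x y) lab) m.2.1 m.2.2)ᵀ * hd (k + L) +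
        YFm L l e b K (k + L) m) * (bl (k + L) (dup L (A k)) m.1 m.2.1)ᵀ) * hd (k + L) *
        bl (k + L) (encR L fun lab z x => cu e (C z x) lab) m.1 m.2.2).trace =
      4 ^ L * H677.ndZ l K (A k) (b k) C k m := by
  rw [W_eq he hm hk, H677.ndZ_form he hm l K A b C hk m, Matrix.smul_mul, Matrix.smul_mul,
    trace_smul, smul_eq_mul]
  ring

/-- The Hilbert-Schmidt sum of the node. -/
theorem W_tr (he : Function.Injective e) (hm : ∀ i, e i ∈ lbs L) {k : ℕ} (hk : 1 ≤ k) (l : ℝ)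
    (A : ℕ → ℤ → ℤ → ℝ) (b : ℕ → ℤ → ℤ → κ → ℝ) (K : ℤ → ℕ → ℤ → Matrix κ κ ℝ) (m : Pt) :
    (4 ^ (k + L) : ℝ)⁻¹ * (((hd (k + L) * SV L e (VL l K) (k + L) m *
        (bl (k + L) (encR L fun lab y x => cu e (b k x y) lab) m.2.1 m.2.2)ᵀ * hd (k + L) +
        YFm L l e b K (k + L) m) * (bl (k + L) (dup L (A k)) m.1 m.2.1)ᵀ) *
        ((hd (k + L) * SV L e (VL l K) (k + L) m *
        (bl (k + L) (encR L fun lab y x => cu e (b k x y) lab) m.2.1 m.2.2)ᵀ * hd (k + L) +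
        YFm L l e b K (k + L) m) * (bl (k + L) (dup L (A k)) m.1 m.2.1)ᵀ)ᵀ).trace =
      (4 ^ L) ^ 2 * ((4 ^ (k + L) : ℝ)⁻¹ *
        (WZ L l e A b K (k + L) m * (WZ L l e A b K (k + L) m)ᵀ).trace) := by
  rw [W_eq he hm hk, transpose_smul, Matrix.smul_mul, Matrix.mul_smul, smul_smul, trace_smul,
    smul_eq_mul]
  ring

end

end Vale.Agent.P141.H609
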