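import Vale.Agent.P141.H609.SeamZ
import Vale.Agent.P141.H555.TzQ

/-!
# P141, line (A): the gap part of a family

`tz_fam` : the sum of the absolute values of the gap parts of all nodes of a family, from the
weighted gap `v`, the light pair `qL`, the flow pair `qF`, the flow mass `w` and the quadratic
bound `κ`; no power of the number of labels.
-/

namespace Vale.Agent.P141.H609

open Finset Matrix Vale.Agent.P075 Vale.Agent.P141.PL Vale.Agent.P141.PL.H588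
open Vale.Agent.P141.PL.H804 Vale.Agent.P141.H736 Vale.Agent.P141.H958 Vale.Agent.P141.H338
open Vale.Agent.P141.H576
open Vale.Agent.P141.H822 (SV VL VL_ct SV_eq emb_ct)
open Vale.Agent.P141.H971 (Fam0)

noncomputable section

open scoped Classical

variable {ι : Type*} [Fintype ι] [DecidableEq ι] {L : ℕ} {el : ι → ℤ}

/-- The node operator is a contraction. -/
theorem SV_contr (he : Function.Injective el) (hm : ∀ i, el i ∈ lbs L)
    {V : ℕ → ℤ → ℤ → Matrix ι ι ℝ} (hV : ∀ k x n, H433.Ct (V k x n)) (k : ℕ) (m : Pt) :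
    (1 - (SV L el V (k + L) m)ᵀ * SV L el V (k + L) m).PosSemidef := by
  have key : ∀ j : ℕ, j = L + k →
      (1 - (SV L el V j m)ᵀ * SV L el V j m).PosSemidef := by
    rintro _ rfl
    rw [SV_eq]
    exact (H433.DU_ct (fun k x n => emb_ct he hm (hV k x n)) k k m.2.1 m.2.2).1
  exact key (k + L) (Nat.add_comm k L)

variable {N : ℕ} {R : Pt} {X : Finset ℤ} {c : ℤ → ℕ → ℤ} {A : ℤ → ℕ → ℤ → ℤ → ℝ}
  {b C : ℤ → ℕ → ℤ → ℤ → ι → ℝ} {cA cB cC : ℝ} {s : ℤ → ℕ → Finset Pt}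
  {QA QB QC : ℤ → ℕ → ℤ → ℤ → Prop} {GA DA DB DC cP l : ℝ} {G K : ℤ → ℕ → ℤ → Matrix ι ι ℝ}

/-- **The gap part of a family.** -/
theorem tz_fam (he : Function.Injective el) (hm : ∀ i, el i ∈ lbs L)
    (h : ∀ x, H420.Tr l N (G x) (K x)) (hc : ∀ i ∈ X, Pl (c i))
    (hs : ∀ i ∈ X, ∀ k ∈ Icc 1 N, s i k ⊆ bx3 N R k (c i k)) (hA : 0 < cA)
    (hB : 0 < cB) (hC : 0 < cC)
    (capA : ∀ i ∈ X, ∀ k ∈ Icc 1 N, ∀ m ∈ s i k, Cap k m.1 m.2.1 cA (A i k))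
    (capB : ∀ i ∈ X, ∀ k ∈ Icc 1 N, ∀ m ∈ s i k,
      CapR L k m.2.1 m.2.2 cB fun lab y x => cu el (b i k x y) lab)
    (capC : ∀ i ∈ X, ∀ k ∈ Icc 1 N, ∀ m ∈ s i k,
      CapR L k m.1 m.2.2 cC fun lab z x => cu el (C i k z x) lab) (hP : 1 ≤ cP)
    (fA : Fam0 N R.1 R.2.1 X QA A cP GA DA)
    (hB0 : ∀ i ∈ X, b i 0 = 0)
    (pB : ∀ i ∈ X, ∀ j ∈ lbs L, Path N R.2.1 R.2.2 (QB i) (fun k y x => cu el (b i k x y) j))
    (oB : ∑ i ∈ X, ∑ j ∈ lbs L,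
      pwr N R.2.1 R.2.2 (QB i) (fun k y x => cu el (b i k x y) j) ≤ DB)
    (hC0 : ∀ i ∈ X, C i 0 = 0)
    (pC : ∀ i ∈ X, ∀ j ∈ lbs L, Path N R.1 R.2.2 (QC i) (fun k z x => cu el (C i k z x) j))
    (oC : ∑ i ∈ X, ∑ j ∈ lbs L,
      pwr N R.1 R.2.2 (QC i) (fun k z x => cu el (C i k z x) j) ≤ DC)
    (hGA : 0 < GA) (hDC : 0 < DC) {D Q κ σ ρ σ₀ v w κC : ℝ} {qL qF : ℕ → ℝ}
    (hD : DA + DB ≤ D) (hD' : DA + DC ≤ D) (hσ : 0 < σ) (hρ : 0 < ρ) (hκC : 0 ≤ κC)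
    (hv : ∑ i ∈ X, ∑ k ∈ Icc 1 N, ∑ m ∈ s i k, (4 ^ (k + L) : ℝ)⁻¹ *
      (WZ L l el (A i) (b i) K (k + L) m * (WZ L l el (A i) (b i) K (k + L) m)ᵀ).trace ≤
        (4 ^ L : ℝ)⁻¹ * v)
    (hw : ∑ i ∈ X, ∑ k ∈ Icc 1 N, ∑ m ∈ s i k,
      (YFm L l el (b i) K (k + L) m * (YFm L l el (b i) K (k + L) m)ᵀ).trace ≤ 4 ^ L * w)
    (hqL : ∀ e, ∑ i ∈ X, (cC / 2 ^ (e - 1)) ^ 2 * ∑ k ∈ Icc 1 N, ∑ m ∈ s i k,
      (phi (gramC (lv cC e * (4 ^ (k + L))⁻¹)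
          (bl (k + L) (encR L fun lab z x => cu el (C i k z x) lab) m.1 m.2.2)) *
        ((hd (k + L) * SV L el (VL l K) (k + L) m *
            (bl (k + L) (encR L fun lab y x => cu el (b i k x y) lab) m.2.1 m.2.2)ᵀ *
            hd (k + L)) *
          (hd (k + L) * SV L el (VL l K) (k + L) m *
            (bl (k + L) (encR L fun lab y x => cu el (b i k x y) lab) m.2.1 m.2.2)ᵀ *
            hd (k + L))ᵀ)).trace ≤ 4 ^ L * qL e)
    (hqF : ∀ e, ρ * σ < cC / 2 ^ (e - 1) → ∑ i ∈ X, (cC / 2 ^ (e - 1)) ^ 2 *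
      ∑ k ∈ Icc 1 N, ∑ m ∈ s i k,
      (phi (gramC (lv cC e * (4 ^ (k + L))⁻¹)
          (bl (k + L) (encR L fun lab z x => cu el (C i k z x) lab) m.1 m.2.2)) *
        (YFm L l el (b i) K (k + L) m * (YFm L l el (b i) K (k + L) m)ᵀ)).trace ≤ 4 ^ L * qF e)
    (hκq : ∀ e, ρ * σ < cC / 2 ^ (e - 1) → 6 * (√(qL e) + √(qF e)) *
      √(8800 * cP * max (min (DC / ρ ^ 2)
        ((cA / (cC / 2 ^ (e - 1))) ^ 2 * DC)) (√(GA * DC) / (cC / 2 ^ (e - 1)))) ≤ κC)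
    (hQ : ∀ e, cC / 2 ^ (e - 1) ≤ ρ * σ → 4 * qL e ≤ Q) (hκ0 : 0 ≤ κ) (hσ₀ : 0 ≤ σ₀)
    (hκ : ∀ b' e, cB / 2 ^ (b' - 1) ≤ σ₀ → cC / 2 ^ (e - 1) ≤ σ₀ →
      ∑ i ∈ X, LP (N + L) (shs L (s i)) cB cC
        (shF L fun k => encR L fun lab y x => cu el (b i k x y) lab)
        (shF L fun k => encR L fun lab z x => cu el (C i k z x) lab) (SV L el (VL l K)) b' e ≤
        4 ^ L * κ * max (cB / 2 ^ (b' - 1)) (cC / 2 ^ (e - 1)) ^ 2)
    {LA LB LC LC' : ℕ} (lA : cA / 2 ^ (LA - 1) < σ) (lB : cB / 2 ^ (LB - 1) ≤ σ₀)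
    (lC : cC / 2 ^ (LC - 1) ≤ σ₀) (lC' : cC / 2 ^ (LC' - 1) ≤ ρ * σ) :
    ∑ i ∈ X, ∑ k ∈ Icc 1 N, ∑ m ∈ s i k, |H677.ndZ l K (A i k) (b i k) (C i k) k m| ≤
      6 * √(v * (8800 * cP * max DC (ρ / σ * √(GA * DC)))) * LA + κC * LC' +
        (κC * LC' + 150 * √(w * ((ρ * σ) ^ 2 * DA + σ ^ 2 * DC)) +
          (9900 * D * σ + 6 * √(550 * D * Q) * (LB + LC) + 36 * √(550 * D * κ) * σ₀)) := by
  have h4 : (0 : ℝ) < 4 ^ L := by positivity
  have p2 : ∀ {x y : ℝ}, √(4 ^ L * x * (4 ^ L * y)) = 4 ^ L * √(x * y) := fun {x y} =>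
    sqrt_four_pow L x y
  have s4 : √(4 ^ L : ℝ) * √(4 ^ L) = 4 ^ L := Real.mul_self_sqrt h4.le
  have cu0 : ∀ j, cu el (0 : ι → ℝ) j = 0 := fun j => by
    unfold cu
    simp
  have key := H555.tzX_lab' (N := N) (L := L) (R := R) (X := X) (c := c) (s := s) (A := A)
    (B := fun i k lab y x => cu el (b i k x y) lab)
    (C := fun i k lab z x => cu el (C i k z x) lab)
    (cA := cA) (cB := cB) (cC := cC) (cP := cP) (S := fun _ => SV L el (VL l K))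
    (YF := fun i => YFm L l el (b i) K) (QA := QA) (QB := QB) (QC := QC)
    (GA := GA) (DA := DA) (DB := DB) (DC := DC) (D := D) (Q := 4 ^ L * Q) (κ := 4 ^ L * κ)
    (σ := σ) (ρ := ρ) (σ₀ := σ₀) (v := 4 ^ L * v) (w := 4 ^ L * w) (κC := 4 ^ L * κC)
    (qL := fun e => 4 ^ L * qL e) (qF := fun e => 4 ^ L * qF e)
    (LA := LA) (LB := LB) (LC := LC) (LC' := LC') hc hs hA hB hC capA capB capC hP
    (fun i _ k _ m _ => SV_contr he hm (VL_ct h) k m) fA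
    (fun i hi => by
      funext lab y x
      simp only [hB0 i hi]
      exact cu0 lab) pB oB
    (fun i hi => by
      funext lab z x
      simp only [hC0 i hi]
      exact cu0 lab) pC oC hGA hDC hD hD' hσ hρ
    (by positivity)
    (by
      refine le_trans (le_of_eq ?_) (le_trans (mul_le_mul_of_nonneg_left hv
        (by positivity : (0 : ℝ) ≤ (4 ^ L) ^ 2)) (le_of_eq ?_))
      · rw [mul_sum]
        refine sum_congr rfl fun i _ => ?_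
        rw [mul_sum]
        refine sum_congr rfl fun k hk => ?_
        rw [mul_sum]
        exact sum_congr rfl fun m _ => W_tr he hm (mem_Icc.1 hk).1 l (A i) (b i) K m
      · field_simp)
    hw hqL hqF
    (fun e he' => by
      refine le_trans (le_of_eq ?_) (mul_le_mul_of_nonneg_left (hκq e he') h4.le)
      rw [Real.sqrt_mul h4.le, Real.sqrt_mul h4.le, ← mul_assoc (8800 * cP) (4 ^ L),
        mul_comm (8800 * cP) (4 ^ L), mul_assoc (4 ^ L) (8800 * cP), Real.sqrt_mul h4.le]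
      calc _ = (√(4 ^ L : ℝ) * √(4 ^ L)) * (6 * (√(qL e) + √(qF e)) *
            √(8800 * cP * max (min (DC / ρ ^ 2)
              ((cA / (cC / 2 ^ (e - 1))) ^ 2 * DC)) (√(GA * DC) / (cC / 2 ^ (e - 1))))) := by
            ring
        _ = _ := by rw [s4])
    (fun e he' => by
      have := mul_le_mul_of_nonneg_left (hQ e he') h4.le
      linarith)
    (by positivity) hσ₀ hκ lA lB lC lC'
  have e1 : ∑ i ∈ X, ∑ k ∈ Icc 1 N, ∑ m ∈ s i k, |(2 ^ (k + L) : ℝ)⁻¹ *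
        (((hd (k + L) * SV L el (VL l K) (k + L) m *
          (bl (k + L) (encR L fun lab y x => cu el (b i k x y) lab) m.2.1 m.2.2)ᵀ * hd (k + L) +
          YFm L l el (b i) K (k + L) m) * (bl (k + L) (dup L (A i k)) m.1 m.2.1)ᵀ) * hd (k + L) *
          bl (k + L) (encR L fun lab z x => cu el (C i k z x) lab) m.1 m.2.2).trace| =
      4 ^ L * ∑ i ∈ X, ∑ k ∈ Icc 1 N, ∑ m ∈ s i k,
        |H677.ndZ l K (A i k) (b i k) (C i k) k m| := by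
    rw [mul_sum]
    refine sum_congr rfl fun i _ => ?_
    rw [mul_sum]
    refine sum_congr rfl fun k hk => ?_
    rw [mul_sum]
    refine sum_congr rfl fun m _ => ?_
    rw [ndZ_eq he hm (mem_Icc.1 hk).1, abs_mul, abs_of_pos h4]
  rw [e1] at key
  have e2 : 6 * √(4 ^ L * v * (8800 * cP * (4 ^ L * max DC (ρ / σ * √(GA * DC))))) * LA +
      4 ^ L * κC * LC' +
        (4 ^ L * κC * LC' + 150 * √(4 ^ L * w * (4 ^ L * ((ρ * σ) ^ 2 * DA + σ ^ 2 * DC))) +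
          (9900 * (4 ^ L * D) * σ + 6 * √(550 * (4 ^ L * D) * (4 ^ L * Q)) * (LB + LC) +
            36 * √(550 * (4 ^ L * D) * (4 ^ L * κ)) * σ₀)) =
      4 ^ L * (6 * √(v * (8800 * cP * max DC (ρ / σ * √(GA * DC)))) * LA + κC * LC' +
        (κC * LC' + 150 * √(w * ((ρ * σ) ^ 2 * DA + σ ^ 2 * DC)) +
          (9900 * D * σ + 6 * √(550 * D * Q) * (LB + LC) + 36 * √(550 * D * κ) * σ₀))) := by
    rw [show 8800 * cP * (4 ^ L * max DC (ρ / σ * √(GA * DC))) =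
      4 ^ L * (8800 * cP * max DC (ρ / σ * √(GA * DC))) by ring, p2, p2,
      show 550 * (4 ^ L * D) * (4 ^ L * Q) = 4 ^ L * (550 * D) * (4 ^ L * Q) by ring, p2,
      show 550 * (4 ^ L * D) * (4 ^ L * κ) = 4 ^ L * (550 * D) * (4 ^ L * κ) by ring, p2]
    ring
  have key2 := key.trans (le_of_eq e2)
  exact le_of_mul_le_mul_left key2 h4

end

end Vale.Agent.P141.H609
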