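import Vale.Agent.P141.H609.CStep

/-!
# P141, line W: the three steps with a node operator between two of the functions

The form `tr (h₁ S B_bᵀ h₂ Aᵀ lo_a h₃ C_e)` with a node dependent matrix `S` on the common
variable of `B` and `C`.  Raising `b` (`z2`) or `e` (`z2C`) costs the static pair of `A` with the
centre times the pair sum `LP` of `C` and `S B`; raising `a` (`z2A`, `S` a contraction) costs two
static pairs.
-/

namespace Vale.Agent.P141.H609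

open Finset Matrix Vale.Agent.P075 Vale.Agent.P141.PL Vale.Agent.P141.PL.H588
open Vale.Agent.P141.PL.H804 Vale.Agent.P141.H958

noncomputable section

section mat

variable {n : Type*} [Fintype n] [DecidableEq n]

theorem res_sub_four {X : Matrix n n ℝ} (hX : X.PosSemidef) :
    res X - res ((4 : ℝ) • X) = ((3 : ℝ) • phi X) * res ((4 : ℝ) • X) := by
  have hX4 : ((4 : ℝ) • X).PosSemidef := hX.smul (by norm_num : (0 : ℝ) ≤ 4)
  have h1 := one_add_mul_res hX4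
  have h2 : res X * X = 1 - res X := res_mul hX
  have h3 : res X * (1 + (4 : ℝ) • X) = (4 : ℝ) • (1 : Matrix n n ℝ) - (3 : ℝ) • res X := by
    rw [Matrix.mul_add, Matrix.mul_one, Matrix.mul_smul, h2]
    module
  have h4 : res X = ((4 : ℝ) • (1 : Matrix n n ℝ) - (3 : ℝ) • res X) * res ((4 : ℝ) • X) := by
    rw [← h3, Matrix.mul_assoc, h1, Matrix.mul_one]
  have h5 : ((3 : ℝ) • phi X) * res ((4 : ℝ) • X) =
      ((4 : ℝ) • (1 : Matrix n n ℝ) - (3 : ℝ) • res X) * res ((4 : ℝ) • X) -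
        res ((4 : ℝ) • X) := by
    rw [phi, smul_sub, Matrix.sub_mul, Matrix.sub_mul]
    simp only [Matrix.smul_mul, Matrix.one_mul]
    module
  rw [h5, ← h4]

/-- The pieces through the regularisation at the next index. -/
theorem pc_left {μ : ℝ} (hμ : 0 ≤ μ) {F : Matrix n n ℝ} (k : (1 - gramR μ F).PosSemidef)
    (a : ℕ) : ∃ P : Matrix n n ℝ, Pᵀ = P ∧ pc μ F a = P * rg μ F (a + 1) ∧
      ((9 : ℝ) • phi (gramR (lw μ a) F) - P * P).PosSemidef := by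
  cases a with
  | zero =>
    have hX := gramR_psd hμ F
    have e2 : lw μ 0 = μ := by simp [lw]
    refine ⟨gramR μ F, psd_isSymm hX, ?_, ?_⟩
    · rw [pc_eq, ← lo_mul hμ F 0, ← lo_mul hμ F (0 + 1), ← Matrix.sub_mul, ← Matrix.mul_assoc]
      congr 1
      have h := mul_res hX
      simp only [lo, pow_zero, one_mul]
      rw [h]
    · rw [e2]
      have h1 := phi_ge_half hX k
      have h2 := sq_le_self hX k
      have e : (9 : ℝ) • phi (gramR μ F) - gramR μ F * gramR μ F =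
          (7 : ℝ) • phi (gramR μ F) + (2 : ℝ) • (phi (gramR μ F) - (1 / 2 : ℝ) • gramR μ F) +
            (gramR μ F - gramR μ F * gramR μ F) := by module
      rw [e]
      exact (((phi_psd hX).smul (by norm_num : (0 : ℝ) ≤ 7)).add
        (h1.smul (by norm_num : (0 : ℝ) ≤ 2))).add h2
  | succ a =>
    have h4 : 0 ≤ 4 ^ a * μ := by positivity
    have hX := gramR_psd h4 F
    have e4 : gramR (4 ^ (a + 1) * μ) F = (4 : ℝ) • gramR (4 ^ a * μ) F := by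
      rw [gramR, gramR, smul_smul]
      congr 1
      ring
    have e2 : lw μ (a + 1) = 4 ^ a * μ := by simp [lw]
    refine ⟨(3 : ℝ) • phi (gramR (4 ^ a * μ) F), ?_, ?_, ?_⟩
    · rw [transpose_smul, phi_symm hX]
    · rw [pc_eq, ← lo_mul hμ F (a + 1), ← lo_mul hμ F (a + 1 + 1), ← Matrix.sub_mul,
        ← Matrix.mul_assoc]
      congr 1
      simp only [lo, e4]
      exact res_sub_four hX
    · rw [e2]
      have h := (phi_sub_sq_psd hX).smul (by norm_num : (0 : ℝ) ≤ 9)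
      convert h using 1
      rw [smul_sub, Matrix.smul_mul, Matrix.mul_smul, smul_smul]
      norm_num

/-- The part of the bounds which only sees the symmetric factor `P` on the common variable. -/
theorem sq_part {r P G : Matrix n n ℝ} (hr : rᵀ = r) (hr2 : r * r = 1) (hP : Pᵀ = P) :
    ((P * r * Gᵀ * r) * (P * r * Gᵀ * r)ᵀ).trace = ((P * P) * (r * (Gᵀ * G) * r)).trace := by
  rw [transpose_mul, transpose_mul, transpose_mul, transpose_transpose, hr, hP,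
    show P * r * Gᵀ * r * (r * (G * (r * P))) = (P * r * Gᵀ * (r * r) * G * r) * P by
      simp only [Matrix.mul_assoc], hr2, trace_mul_comm]
  simp only [Matrix.mul_assoc, Matrix.one_mul]

/-- **One node, B-step**. -/
theorem bstep_sq_le {r : Matrix n n ℝ} (hr : rᵀ = r) (hr2 : r * r = 1) {μ β : ℝ} (hμ : 0 < μ)
    (hβ : 0 < β) {A B : Matrix n n ℝ} (kA : (1 - gramC μ A).PosSemidef)
    (kB : (1 - gramR β B).PosSemidef) (S C : Matrix n n ℝ) (a b : ℕ) :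
    ((r * S * (pc β B b)ᵀ * r) * Aᵀ * lo μ A a * r * C).trace ^ 2 ≤
      36 * (lw μ a)⁻¹ * (((C * r * S * (rg β B (b + 1))ᵀ) *
        (C * r * S * (rg β B (b + 1))ᵀ)ᵀ).trace * M2 r (lw μ a) (lw β b) A B) := by
  have l0 := lw_pos hμ a
  have l1 := lw_pos hβ b
  obtain ⟨P, hP, hD, hB⟩ := pc_left hβ.le kB b
  set G := rg μ A a with hG
  have e0 : Aᵀ * lo μ A a = Gᵀ := by
    rw [hG, ← lo_mul hμ.le, transpose_mul, lo_symm hμ.le]
  have e1 : ((r * S * (pc β B b)ᵀ * r) * Aᵀ * lo μ A a * r * C).trace =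
      ((C * r * S * (rg β B (b + 1))ᵀ) * (P * r * Gᵀ * r)).trace := by
    rw [hD, transpose_mul, hP, show (r * S * ((rg β B (b + 1))ᵀ * P) * r) * Aᵀ * lo μ A a * r * C =
      (r * S * (rg β B (b + 1))ᵀ * P * r * (Aᵀ * lo μ A a) * r) * C by
        simp only [Matrix.mul_assoc], e0, trace_mul_comm]
    simp only [Matrix.mul_assoc]
  rw [e1]
  refine (trace_mul_sq_le _ _).trans ?_
  have nZ : 0 ≤ ((C * r * S * (rg β B (b + 1))ᵀ) * (C * r * S * (rg β B (b + 1))ᵀ)ᵀ).trace :=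
    (psd_mul_transpose _).trace_nonneg
  have key : ((P * r * Gᵀ * r) * (P * r * Gᵀ * r)ᵀ).trace ≤
      36 * (lw μ a)⁻¹ * M2 r (lw μ a) (lw β b) A B := by
    rw [sq_part hr hr2 hP]
    have q0 : lw μ a * ((P * P) * (r * (Gᵀ * G) * r)).trace =
        ((P * P) * (r * gramC (lw μ a) G * r)).trace := by
      rw [gramC]
      simp only [Matrix.mul_smul, Matrix.smul_mul, trace_smul, smul_eq_mul]
    have q1 : ((P * P) * (r * gramC (lw μ a) G * r)).trace ≤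
        (((9 : ℝ) • phi (gramR (lw β b) B)) * (r * gramC (lw μ a) G * r)).trace :=
      trace_mul_le_left (psd_conj_symm (gramC_psd l0.le _) hr) hB
    have q2 : (phi (gramR (lw β b) B) * (r * gramC (lw μ a) G * r)).trace ≤
        (phi (gramR (lw β b) B) * (r * ((4 : ℝ) • phi (gramC (lw μ a) A)) * r)).trace := by
      refine trace_mul_le_right (phi_psd (gramR_psd l1.le B)) ?_
      have := psd_conj_symm (rg_adc hμ.le kA a).1 hr
      rwa [Matrix.mul_sub, Matrix.sub_mul] at this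
    have q3 : (phi (gramR (lw β b) B) * (r * phi (gramC (lw μ a) A) * r)).trace =
        M2 r (lw μ a) (lw β b) A B := by rw [M2, tr_rot]
    rw [Matrix.smul_mul, trace_smul, smul_eq_mul] at q1
    rw [Matrix.mul_smul, Matrix.smul_mul, Matrix.mul_smul, trace_smul, smul_eq_mul, q3] at q2
    have q4 : lw μ a * ((P * P) * (r * (Gᵀ * G) * r)).trace ≤
        36 * M2 r (lw μ a) (lw β b) A B := by
      rw [q0]
      linarith
    generalize ((P * P) * (r * (Gᵀ * G) * r)).trace = T at q4 ⊢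
    have e5 : T = (lw μ a)⁻¹ * (lw μ a * T) := by
      rw [← mul_assoc, inv_mul_cancel₀ l0.ne', one_mul]
    rw [e5]
    refine (mul_le_mul_of_nonneg_left q4 (inv_nonneg.2 l0.le)).trans (le_of_eq ?_)
    ring
  refine (mul_le_mul_of_nonneg_left key nZ).trans (le_of_eq ?_)
  ring

/-- **One node, C-step**. -/
theorem cstep_sq_le {r : Matrix n n ℝ} (hr : rᵀ = r) (hr2 : r * r = 1) {μ ν : ℝ} (hμ : 0 < μ)
    (hν : 0 < ν) {A C : Matrix n n ℝ} (kA : (1 - gramC μ A).PosSemidef)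
    (kC : (1 - gramR ν C).PosSemidef) (S B : Matrix n n ℝ) (a e : ℕ) :
    ((r * S * Bᵀ * r) * Aᵀ * lo μ A a * r * pc ν C e).trace ^ 2 ≤
      36 * (lw μ a)⁻¹ * (((rg ν C (e + 1) * r * S * Bᵀ) *
        (rg ν C (e + 1) * r * S * Bᵀ)ᵀ).trace * M2 r (lw ν e) (lw μ a) Cᵀ A) := by
  have l0 := lw_pos hμ a
  have l1 := lw_pos hν e
  obtain ⟨P, hP, hD, hC⟩ := pc_left hν.le kC e
  set G := rg μ A a with hG
  have e0 : Aᵀ * lo μ A a = Gᵀ := by
    rw [hG, ← lo_mul hμ.le, transpose_mul, lo_symm hμ.le]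
  have e1 : ((r * S * Bᵀ * r) * Aᵀ * lo μ A a * r * pc ν C e).trace =
      ((rg ν C (e + 1) * r * S * Bᵀ) * (P * r * Gᵀᵀ * r)ᵀ).trace := by
    rw [hD, transpose_mul, transpose_mul, transpose_mul, transpose_transpose, hr, hP,
      show (r * S * Bᵀ * r) * Aᵀ * lo μ A a * r * (P * rg ν C (e + 1)) =
      (r * S * Bᵀ * r * (Aᵀ * lo μ A a) * r * P) * rg ν C (e + 1) by
        simp only [Matrix.mul_assoc], e0, trace_mul_comm]
    simp only [Matrix.mul_assoc]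
  rw [e1]
  refine (trace_mul_sq_le _ _).trans ?_
  have nZ : 0 ≤ ((rg ν C (e + 1) * r * S * Bᵀ) * (rg ν C (e + 1) * r * S * Bᵀ)ᵀ).trace :=
    (psd_mul_transpose _).trace_nonneg
  have key : ((P * r * Gᵀᵀ * r)ᵀ * (P * r * Gᵀᵀ * r)ᵀᵀ).trace ≤
      36 * (lw μ a)⁻¹ * M2 r (lw ν e) (lw μ a) Cᵀ A := by
    rw [transpose_transpose (P * r * Gᵀᵀ * r), trace_mul_comm, sq_part hr hr2 hP,
      transpose_transpose G]
    have q0 : lw μ a * ((P * P) * (r * (G * Gᵀ) * r)).trace =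
        ((P * P) * (r * gramR (lw μ a) G * r)).trace := by
      rw [gramR]
      simp only [Matrix.mul_smul, Matrix.smul_mul, trace_smul, smul_eq_mul]
    have q1 : ((P * P) * (r * gramR (lw μ a) G * r)).trace ≤
        (((9 : ℝ) • phi (gramR (lw ν e) C)) * (r * gramR (lw μ a) G * r)).trace :=
      trace_mul_le_left (psd_conj_symm (gramR_psd l0.le _) hr) hC
    have q2 : (phi (gramR (lw ν e) C) * (r * gramR (lw μ a) G * r)).trace ≤
        (phi (gramR (lw ν e) C) * (r * ((4 : ℝ) • phi (gramR (lw μ a) A)) * r)).trace := by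
      refine trace_mul_le_right (phi_psd (gramR_psd l1.le C)) ?_
      have := psd_conj_symm (rg_adc hμ.le kA a).2 hr
      rwa [Matrix.mul_sub, Matrix.sub_mul] at this
    have q3 : (phi (gramR (lw ν e) C) * (r * phi (gramR (lw μ a) A) * r)).trace =
        M2 r (lw ν e) (lw μ a) Cᵀ A := by rw [M2, gramC_transpose]
    rw [Matrix.smul_mul, trace_smul, smul_eq_mul] at q1
    rw [Matrix.mul_smul, Matrix.smul_mul, Matrix.mul_smul, trace_smul, smul_eq_mul, q3] at q2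
    have q4 : lw μ a * ((P * P) * (r * (G * Gᵀ) * r)).trace ≤
        36 * M2 r (lw ν e) (lw μ a) Cᵀ A := by
      rw [q0]
      linarith
    generalize ((P * P) * (r * (G * Gᵀ) * r)).trace = T at q4 ⊢
    have e5 : T = (lw μ a)⁻¹ * (lw μ a * T) := by
      rw [← mul_assoc, inv_mul_cancel₀ l0.ne', one_mul]
    rw [e5]
    refine (mul_le_mul_of_nonneg_left q4 (inv_nonneg.2 l0.le)).trans (le_of_eq ?_)
    ring
  refine (mul_le_mul_of_nonneg_left key nZ).trans (le_of_eq ?_)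
  ring

/-- **One node, A-step**, `S` a contraction. -/
theorem astep_sq_le {r : Matrix n n ℝ} (hr : rᵀ = r) (hr2 : r * r = 1) {μ β ν : ℝ} (hμ : 0 < μ)
    (hβ : 0 < β) (hν : 0 < ν) {A B C : Matrix n n ℝ} (kA : (1 - gramC μ A).PosSemidef)
    (kB : (1 - gramC β B).PosSemidef) (kC : (1 - gramC ν C).PosSemidef) {S : Matrix n n ℝ}
    (hS : (1 - Sᵀ * S).PosSemidef) (a b e : ℕ) :
    ((r * S * (rg β B b)ᵀ * r) * Aᵀ * bw μ A a * r * rg ν C e).trace ^ 2 ≤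
      36 * (lw μ a * lw β b * lw ν e)⁻¹ *
        (M2 r (lw μ a) (lw β b) A B * M2 r (lw ν e) (lw μ a) Cᵀ A) := by
  have l0 := lw_pos hμ a
  have l1 := lw_pos hβ b
  have l2 := lw_pos hν e
  obtain ⟨P, Q, hD, hP, hQs, hQ⟩ := pc_fac hμ kA a
  set G := rg β B b with hG
  set H := rg ν C e with hH
  have hb : (bw μ A a)ᵀ = bw μ A a := by
    rw [bw, transpose_sub, lo_symm hμ.le, lo_symm hμ.le]
  have e0 : Aᵀ * bw μ A a = Q * Pᵀ := by
    have h1 : pc μ A a = bw μ A a * A := by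
      rw [pc_eq, ← lo_mul hμ.le, ← lo_mul hμ.le, ← Matrix.sub_mul, bw]
    have h2 : (bw μ A a * A)ᵀ = (P * Q)ᵀ := by rw [← h1, hD]
    rwa [transpose_mul, transpose_mul, hb, hQs] at h2
  have e1 : ((r * S * Gᵀ * r) * Aᵀ * bw μ A a * r * H).trace =
      ((r * S * Gᵀ * r * Q) * (Pᵀ * r * H)).trace := by
    rw [show (r * S * Gᵀ * r) * Aᵀ * bw μ A a * r * H =
      (r * S * Gᵀ * r) * (Aᵀ * bw μ A a) * r * H by simp only [Matrix.mul_assoc], e0]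
    simp only [Matrix.mul_assoc]
  rw [e1]
  refine (trace_mul_sq_le _ _).trans ?_
  have n2 : 0 ≤ ((Pᵀ * r * H) * (Pᵀ * r * H)ᵀ).trace := (psd_mul_transpose _).trace_nonneg
  have k1 : lw β b * ((r * S * Gᵀ * r * Q) * (r * S * Gᵀ * r * Q)ᵀ).trace ≤
      9 * M2 r (lw μ a) (lw β b) A B := by
    have q0 : ((r * S * Gᵀ * r * Q) * (r * S * Gᵀ * r * Q)ᵀ).trace =
        ((Gᵀ * r * (Q * Q) * r * G) * (Sᵀ * S)).trace := by
      simp only [transpose_mul, transpose_transpose, hr, hQs]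
      rw [show r * S * Gᵀ * r * Q * (Q * (r * (G * (Sᵀ * r)))) =
        (r * (S * Gᵀ * r * Q * Q * r * G * Sᵀ)) * r by simp only [Matrix.mul_assoc],
        trace_mul_comm, ← Matrix.mul_assoc, hr2, Matrix.one_mul,
        show S * Gᵀ * r * Q * Q * r * G * Sᵀ = S * (Gᵀ * r * Q * Q * r * G * Sᵀ) by
          simp only [Matrix.mul_assoc], trace_mul_comm]
      simp only [Matrix.mul_assoc]
    have pp : (Gᵀ * r * (Q * Q) * r * G).PosSemidef := by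
      have h := psd_transpose_mul (Q * r * G)
      convert h using 1
      simp only [transpose_mul, hr, hQs, Matrix.mul_assoc]
    have q1 := trace_mul_le_right pp hS
    rw [Matrix.mul_one] at q1
    have q2 : lw β b * (Gᵀ * r * (Q * Q) * r * G).trace =
        ((Q * Q) * (r * gramR (lw β b) G * r)).trace := by
      rw [gramR, show Gᵀ * r * (Q * Q) * r * G = Gᵀ * (r * (Q * Q) * r * G) by
        simp only [Matrix.mul_assoc], trace_mul_comm]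
      rw [show r * (Q * Q) * r * G * Gᵀ = r * ((Q * Q) * r * G * Gᵀ) by
        simp only [Matrix.mul_assoc], trace_mul_comm]
      simp only [Matrix.mul_smul, Matrix.smul_mul, trace_smul, smul_eq_mul, Matrix.mul_assoc]
    have q3 : ((Q * Q) * (r * gramR (lw β b) G * r)).trace ≤
        (((9 / 4 : ℝ) • phi (gramC (lw μ a) A)) * (r * gramR (lw β b) G * r)).trace :=
      trace_mul_le_left (psd_conj_symm (gramR_psd l1.le _) hr) hQ
    have q4 : (phi (gramC (lw μ a) A) * (r * gramR (lw β b) G * r)).trace ≤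
        (phi (gramC (lw μ a) A) * (r * ((4 : ℝ) • phi (gramR (lw β b) B)) * r)).trace := by
      refine trace_mul_le_right (phi_psd (gramC_psd l0.le A)) ?_
      have := psd_conj_symm (rg_adc hβ.le kB b).2 hr
      rwa [Matrix.mul_sub, Matrix.sub_mul] at this
    rw [Matrix.smul_mul, trace_smul, smul_eq_mul] at q3
    rw [Matrix.mul_smul, Matrix.smul_mul, Matrix.mul_smul, trace_smul, smul_eq_mul] at q4
    rw [q0]
    have q5 := mul_le_mul_of_nonneg_left q1 l1.le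
    rw [M2]
    linarith
  have k2 : lw μ a * lw ν e * ((Pᵀ * r * H) * (Pᵀ * r * H)ᵀ).trace ≤
      4 * M2 r (lw ν e) (lw μ a) Cᵀ A := by
    have q0 : lw μ a * lw ν e * ((Pᵀ * r * H) * (Pᵀ * r * H)ᵀ).trace =
        (gramR (lw μ a) P * (r * gramR (lw ν e) H * r)).trace := by
      rw [transpose_mul, transpose_mul, transpose_transpose, hr, gramR, gramR,
        show Pᵀ * r * H * (Hᵀ * (r * P)) = (Pᵀ * (r * H * Hᵀ * r)) * P by
          simp only [Matrix.mul_assoc], trace_mul_comm]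
      simp only [Matrix.mul_smul, Matrix.smul_mul, trace_smul, smul_eq_mul, Matrix.mul_assoc]
      ring
    have q1 : (gramR (lw μ a) P * (r * gramR (lw ν e) H * r)).trace ≤
        (phi (gramR (lw μ a) A) * (r * gramR (lw ν e) H * r)).trace :=
      trace_mul_le_left (psd_conj_symm (gramR_psd l2.le _) hr) hP
    have q2 : (phi (gramR (lw μ a) A) * (r * gramR (lw ν e) H * r)).trace ≤
        (phi (gramR (lw μ a) A) * (r * ((4 : ℝ) • phi (gramR (lw ν e) C)) * r)).trace := by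
      refine trace_mul_le_right (phi_psd (gramR_psd l0.le A)) ?_
      have := psd_conj_symm (rg_adc hν.le kC e).2 hr
      rwa [Matrix.mul_sub, Matrix.sub_mul] at this
    have q3 : (phi (gramR (lw μ a) A) * (r * phi (gramR (lw ν e) C) * r)).trace =
        M2 r (lw ν e) (lw μ a) Cᵀ A := by rw [M2, gramC_transpose, tr_rot]
    rw [Matrix.mul_smul, Matrix.smul_mul, Matrix.mul_smul, trace_smul, smul_eq_mul, q3] at q2
    rw [q0]
    linarith
  have hM : 0 ≤ M2 r (lw μ a) (lw β b) A B := M2_nonneg hr l0.le l1.le _ _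
  have n1 : 0 ≤ ((r * S * Gᵀ * r * Q) * (r * S * Gᵀ * r * Q)ᵀ).trace :=
    (psd_mul_transpose _).trace_nonneg
  generalize ((r * S * Gᵀ * r * Q) * (r * S * Gᵀ * r * Q)ᵀ).trace = T1 at *
  generalize ((Pᵀ * r * H) * (Pᵀ * r * H)ᵀ).trace = T2 at *
  generalize M2 r (lw μ a) (lw β b) A B = M at *
  generalize M2 r (lw ν e) (lw μ a) Cᵀ A = M' at *
  have h5 : (lw β b * T1) * (lw μ a * lw ν e * T2) ≤ 9 * M * (4 * M') :=
    mul_le_mul k1 k2 (by positivity) (by positivity)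
  have e5 : T1 * T2 = (lw μ a * lw β b * lw ν e)⁻¹ * ((lw β b * T1) * (lw μ a * lw ν e * T2)) := by
    have := l0.ne'
    have := l1.ne'
    have := l2.ne'
    field_simp
  rw [e5]
  refine (mul_le_mul_of_nonneg_left h5 (by positivity)).trans (le_of_eq ?_)
  ring

end mat

/-! ### the pair sum `LP` -/

section mat2

variable {n : Type*} [Fintype n] [DecidableEq n]

theorem one_sub_lo_sq {μ : ℝ} (hμ : 0 ≤ μ) (F : Matrix n n ℝ) (a : ℕ) :
    (1 - (lo μ F a)ᵀ * lo μ F a).PosSemidef := by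
  rw [lo_symm hμ]
  cases a with
  | zero =>
    simp only [lo, Matrix.mul_one, sub_self]
    exact PosSemidef.zero
  | succ a =>
    have hX := gramR_psd (show 0 ≤ 4 ^ a * μ by positivity) F
    have h := (one_sub_res_psd hX).add (res_sub_sq_psd hX)
    rwa [sub_add_sub_cancel] at h

/-- Contractions on both sides. -/
theorem trace_contr_le {L Z M : Matrix n n ℝ} (hL : (1 - Lᵀ * L).PosSemidef)
    (hM : (1 - Mᵀ * M).PosSemidef) :
    ((L * Z * Mᵀ) * (L * Z * Mᵀ)ᵀ).trace ≤ (Z * Zᵀ).trace := by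
  have e1 : ((L * Z * Mᵀ) * (L * Z * Mᵀ)ᵀ).trace =
      ((Z * (Mᵀ * M) * Zᵀ) * (Lᵀ * L)).trace := by
    rw [transpose_mul, transpose_mul, transpose_transpose,
      show L * Z * Mᵀ * (M * (Zᵀ * Lᵀ)) = L * (Z * (Mᵀ * M) * Zᵀ * Lᵀ) by
        simp only [Matrix.mul_assoc], trace_mul_comm]
    simp only [Matrix.mul_assoc]
  have p1 : (Z * (Mᵀ * M) * Zᵀ).PosSemidef := psd_conj (psd_transpose_mul M) Z
  have h1 := trace_mul_le_right p1 hL
  rw [Matrix.mul_one] at h1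
  have h2 : (Z * (Mᵀ * M) * Zᵀ).trace = ((Zᵀ * Z) * (Mᵀ * M)).trace := by
    rw [trace_mul_comm]
    simp only [Matrix.mul_assoc]
  have h3 := trace_mul_le_right (psd_transpose_mul Z) hM
  rw [Matrix.mul_one, trace_mul_comm Zᵀ Z] at h3
  rw [e1]
  linarith

theorem sub_le_phi {μ ν : ℝ} (hμ : 0 < μ) (hν : 0 < ν) {r : Matrix n n ℝ} (hr : rᵀ = r)
    {C B : Matrix n n ℝ} (kC : (1 - gramC ν C).PosSemidef) (kB : (1 - gramC μ B).PosSemidef)
    (S : Matrix n n ℝ) (b e : ℕ) :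
    ((rg ν C e * r * S * (rg μ B b)ᵀ) * (rg ν C e * r * S * (rg μ B b)ᵀ)ᵀ).trace ≤
      16 * (lw ν e * lw μ b)⁻¹ *
        (phi (gramC (lw ν e) C) * (r * S * phi (gramC (lw μ b) B) * Sᵀ * r)).trace := by
  have l0 := lw_pos hν e
  have l1 := lw_pos hμ b
  set H := rg ν C e
  set G := rg μ B b
  have e1 : lw ν e * lw μ b * ((H * r * S * Gᵀ) * (H * r * S * Gᵀ)ᵀ).trace =
      (gramC (lw ν e) H * (r * S * gramC (lw μ b) G * Sᵀ * r)).trace := by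
    simp only [transpose_mul, transpose_transpose, hr, gramC]
    rw [show H * r * S * Gᵀ * (G * (Sᵀ * (r * Hᵀ))) =
      (H * (r * S * (Gᵀ * G) * Sᵀ * r)) * Hᵀ by simp only [Matrix.mul_assoc], trace_mul_comm]
    simp only [Matrix.mul_smul, Matrix.smul_mul, trace_smul, smul_eq_mul, Matrix.mul_assoc]
    ring
  have conj : ∀ {X : Matrix n n ℝ}, X.PosSemidef → (r * S * X * Sᵀ * r).PosSemidef := by
    intro X hX
    have h := psd_conj hX (r * S)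
    convert h using 1
    simp only [transpose_mul, hr, Matrix.mul_assoc]
  have q1 : (gramC (lw ν e) H * (r * S * gramC (lw μ b) G * Sᵀ * r)).trace ≤
      (((4 : ℝ) • phi (gramC (lw ν e) C)) * (r * S * gramC (lw μ b) G * Sᵀ * r)).trace :=
    trace_mul_le_left (conj (gramC_psd l1.le _)) (rg_adc hν.le kC e).1
  have q2 : (phi (gramC (lw ν e) C) * (r * S * gramC (lw μ b) G * Sᵀ * r)).trace ≤
      (phi (gramC (lw ν e) C) *
        (r * S * ((4 : ℝ) • phi (gramC (lw μ b) B)) * Sᵀ * r)).trace := by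
    refine trace_mul_le_right (phi_psd (gramC_psd l0.le C)) ?_
    have := conj (rg_adc hμ.le kB b).1
    rwa [Matrix.mul_sub, Matrix.sub_mul, Matrix.sub_mul] at this
  rw [Matrix.smul_mul, trace_smul, smul_eq_mul] at q1
  simp only [Matrix.mul_smul, Matrix.smul_mul, trace_smul, smul_eq_mul] at q2
  have q3 : lw ν e * lw μ b * ((H * r * S * Gᵀ) * (H * r * S * Gᵀ)ᵀ).trace ≤
      16 * (phi (gramC (lw ν e) C) * (r * S * phi (gramC (lw μ b) B) * Sᵀ * r)).trace := by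
    rw [e1]
    linarith
  generalize ((H * r * S * Gᵀ) * (H * r * S * Gᵀ)ᵀ).trace = T at q3 ⊢
  have e5 : T = (lw ν e * lw μ b)⁻¹ * (lw ν e * lw μ b * T) := by
    rw [← mul_assoc, inv_mul_cancel₀ (mul_pos l0 l1).ne', one_mul]
  rw [e5]
  refine (mul_le_mul_of_nonneg_left q3 (inv_nonneg.2 (mul_pos l0 l1).le)).trans (le_of_eq ?_)
  ring

/-- The Hilbert-Schmidt norm of a regularisation decays. -/
theorem hs_rg_decay {μ : ℝ} (hμ : 0 < μ) {F : Matrix n n ℝ} (k : (1 - gramC μ F).PosSemidef)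
    (a : ℕ) : √((rg μ F a)ᵀ * rg μ F a).trace ≤ √(4 * μ⁻¹ * Fintype.card n) * (2 ^ a)⁻¹ := by
  have h := (rg_op hμ k a).trace_nonneg
  rw [trace_sub, trace_smul, trace_one, smul_eq_mul, sub_nonneg] at h
  have h4 : ((4 : ℝ) ^ a)⁻¹ = ((2 ^ a)⁻¹) ^ 2 := by
    rw [inv_pow, ← pow_mul, mul_comm a 2, pow_mul]; norm_num
  have e : 4 * ((4 : ℝ) ^ a * μ)⁻¹ * (Fintype.card n : ℝ) =
      (4 * μ⁻¹ * Fintype.card n) * ((2 ^ a)⁻¹) ^ 2 := by
    rw [mul_inv, h4]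
    ring
  refine (Real.sqrt_le_sqrt h).trans (le_of_eq ?_)
  rw [e, Real.sqrt_mul (by positivity), Real.sqrt_sq (by positivity)]

end mat2

/-! ### sums -/

theorem node_scale {k : ℕ} {x T M l w : ℝ} (hl : 0 < l) (hi : l⁻¹ = w ^ 2)
    (h : x ^ 2 ≤ 36 * (l * (4 ^ k)⁻¹)⁻¹ * (T * M)) :
    ((2 ^ k)⁻¹ * x) ^ 2 ≤ 36 * w ^ 2 * ((4 ^ k * M) * ((4 ^ k)⁻¹ * T)) := by
  have h4 : (4 : ℝ) ^ k = (2 ^ k) ^ 2 := by rw [← pow_mul, mul_comm, pow_mul]; norm_num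
  have h2 : (0 : ℝ) < 2 ^ k := by positivity
  rw [mul_pow, ← hi]
  refine (mul_le_mul_of_nonneg_left h (by positivity)).trans (le_of_eq ?_)
  rw [h4]
  field_simp

/-- Cauchy's inequality over the nodes. -/
theorem core2s {N : ℕ} {s : ℕ → Finset Pt} (D P Q : ℕ → Pt → ℝ) {w p q : ℝ} (hw : 0 ≤ w)
    (hP : ∀ k m, 0 ≤ P k m) (hQ : ∀ k m, 0 ≤ Q k m)
    (h : ∀ k ∈ Icc 1 N, ∀ m ∈ s k, D k m ^ 2 ≤ 36 * w ^ 2 * (P k m * Q k m))
    (hp : ∑ k ∈ Icc 1 N, ∑ m ∈ s k, P k m ≤ p) (hq : ∑ k ∈ Icc 1 N, ∑ m ∈ s k, Q k m ≤ q) :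
    ∑ k ∈ Icc 1 N, ∑ m ∈ s k, |D k m| ≤ 6 * (w * √(p * q)) := by
  set X : Finset (Σ _ : ℕ, Pt) := (Icc 1 N).sigma s with hX
  have sig : ∀ M : ℕ → Pt → ℝ, ∑ k ∈ Icc 1 N, ∑ m ∈ s k, M k m = ∑ i ∈ X, M i.1 i.2 :=
    fun M => by rw [hX, Finset.sum_sigma]
  rw [sig] at hp hq
  rw [sig fun k m => |D k m|]
  exact core2 X (fun i => D i.1 i.2) (fun i => P i.1 i.2) (fun i => Q i.1 i.2) hw
    (fun i _ => hP _ _) (fun i _ => hQ _ _)
    (fun i hi => h i.1 (Finset.mem_sigma.1 (hX ▸ hi)).1 i.2 (Finset.mem_sigma.1 (hX ▸ hi)).2)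
    hp hq

/-- From the differences to the sums. -/
theorem diff_le {N : ℕ} {s : ℕ → Finset Pt} (t t' D : ℕ → Pt → ℝ) {w : ℝ}
    (hD : ∀ k m, t k m = t' k m + D k m) (h : ∑ k ∈ Icc 1 N, ∑ m ∈ s k, |D k m| ≤ w) :
    ∑ k ∈ Icc 1 N, ∑ m ∈ s k, |t k m| ≤ ∑ k ∈ Icc 1 N, ∑ m ∈ s k, |t' k m| + w := by
  refine le_trans ?_ (add_le_add le_rfl h)
  rw [← sum_add_distrib]
  refine sum_le_sum fun k _ => ?_
  rw [← sum_add_distrib]
  refine sum_le_sum fun m _ => ?_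
  rw [hD k m]
  exact abs_add_le _ _

/-- `B` lowered: rows are the common variable with `A`. -/
def BL (cB : ℝ) (B : ℕ → ℤ → ℤ → ℝ) (b k : ℕ) (m : Pt) : Matrix (Ix k) (Ix k) ℝ :=
  rg ((cB ^ 2)⁻¹ * (4 ^ k)⁻¹) (bl k (B k) m.2.1 m.2.2) b

/-- `C` lowered: rows are the common variable with `A`. -/
def CL (cC : ℝ) (C : ℕ → ℤ → ℤ → ℝ) (e k : ℕ) (m : Pt) : Matrix (Ix k) (Ix k) ℝ :=
  rg ((cC ^ 2)⁻¹ * (4 ^ k)⁻¹) (bl k (C k) m.1 m.2.2) e

/-- The node operator `S` between the signs and the lowered `B`. -/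
def YL (cB : ℝ) (B : ℕ → ℤ → ℤ → ℝ) (S : (k : ℕ) → Pt → Matrix (Ix k) (Ix k) ℝ) (b k : ℕ)
    (m : Pt) : Matrix (Ix k) (Ix k) ℝ := hd k * S k m * (BL cB B b k m)ᵀ * hd k

/-- The pair `(C, S B)` at a node. -/
def ZL (cB cC : ℝ) (B C : ℕ → ℤ → ℤ → ℝ) (S : (k : ℕ) → Pt → Matrix (Ix k) (Ix k) ℝ)
    (b e k : ℕ) (m : Pt) : Matrix (Ix k) (Ix k) ℝ :=
  CL cC C e k m * hd k * S k m * (BL cB B b k m)ᵀ

/-- The pair sum of `C` and `S B`. -/
def LP (N : ℕ) (s : ℕ → Finset Pt) (cB cC : ℝ) (B C : ℕ → ℤ → ℤ → ℝ)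
    (S : (k : ℕ) → Pt → Matrix (Ix k) (Ix k) ℝ) (b e : ℕ) : ℝ :=
  ∑ k ∈ Icc 1 N, ∑ m ∈ s k, (4 ^ k : ℝ)⁻¹ *
    (ZL cB cC B C S b e k m * (ZL cB cC B C S b e k m)ᵀ).trace

/-- The form with the three indices and the node operator `S`. -/
def U3 (N : ℕ) (s : ℕ → Finset Pt) (cA cB cC : ℝ) (A B C : ℕ → ℤ → ℤ → ℝ)
    (S : (k : ℕ) → Pt → Matrix (Ix k) (Ix k) ℝ) (a b e : ℕ) : ℝ :=
  UW N s cA cC A C (fun k m => YL cB B S b k m * (bl k (A k) m.1 m.2.1)ᵀ) a e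

section

variable {N : ℕ} {R : Pt} {c : ℕ → ℤ} {A B C : ℕ → ℤ → ℤ → ℝ} {cA cB cC : ℝ}
  {s : ℕ → Finset Pt} {S : (k : ℕ) → Pt → Matrix (Ix k) (Ix k) ℝ}

theorem LP_nonneg (b e : ℕ) : 0 ≤ LP N s cB cC B C S b e :=
  sum_nonneg fun k _ => sum_nonneg fun m _ =>
    mul_nonneg (by positivity) (psd_mul_transpose _).trace_nonneg

theorem U3_nonneg (a b e : ℕ) : 0 ≤ U3 N s cA cB cC A B C S a b e := by
  unfold U3 UW
  exact sum_nonneg fun k _ => sum_nonneg fun m _ => abs_nonneg _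

theorem cap_oneR {k : ℕ} {m1 m2 : ℤ} {x : ℝ} (hx : 0 < x) {F : ℤ → ℤ → ℝ}
    (h : Cap k m1 m2 x F) :
    (1 - gramR ((x ^ 2)⁻¹ * (4 ^ k)⁻¹) (bl k F m1 m2)).PosSemidef := by
  have h3 := cap_one hx (cap_swap h)
  rwa [bl_swap, gramC_transpose] at h3

/-- **B-step** with the node operator: centre `B`, static pair `(A, B)` and the pair `(C, S B)`. -/
theorem z2 (hs : ∀ k ∈ Icc 1 N, s k ⊆ bx3 N R k (c k)) (hA : 0 < cA) (hB : 0 < cB)
    (capA : ∀ k ∈ Icc 1 N, ∀ m ∈ s k, Cap k m.1 m.2.1 cA (A k))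
    (capB : ∀ k ∈ Icc 1 N, ∀ m ∈ s k, Cap k m.2.1 m.2.2 cB (B k)) (a b e : ℕ) {p q : ℝ}
    (hp : prs N R.1 R.2.1 R.2.2 c (wp (lv cA a) A) (wp (lv cB b) (sp B)) ≤ p)
    (hq : LP N s cB cC B C S (b + 1) e ≤ q) :
    U3 N s cA cB cC A B C S a b e ≤ U3 N s cA cB cC A B C S a (b + 1) e +
      6 * (cA / 2 ^ (a - 1) * √(p * q)) := by
  have h₀ : 0 < (cA ^ 2)⁻¹ := by positivity
  have h₁ : 0 < (cB ^ 2)⁻¹ := by positivity
  have a0 := lv_pos hA a
  have a1 := lv_pos hB b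
  have hk4 : ∀ k : ℕ, (0 : ℝ) < (4 ^ k)⁻¹ := fun k => by positivity
  unfold U3 UW
  refine diff_le _ _ (fun k m => (2 ^ k : ℝ)⁻¹ *
    ((hd k * S k m * (pc ((cB ^ 2)⁻¹ * (4 ^ k)⁻¹) (bl k (B k) m.2.1 m.2.2) b)ᵀ * hd k) *
      (bl k (A k) m.1 m.2.1)ᵀ * lo ((cA ^ 2)⁻¹ * (4 ^ k)⁻¹) (bl k (A k) m.1 m.2.1) a * hd k *
        rg ((cC ^ 2)⁻¹ * (4 ^ k)⁻¹) (bl k (C k) m.1 m.2.2) e).trace) (fun k m => ?_) ?_
  · rw [← mul_add, ← trace_add]
    congr 2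
    simp only [YL, BL]
    rw [pc_eq, transpose_sub]
    noncomm_ring
  · refine core2s _ (fun k m => 4 ^ k * M2 (hd k) (lv cA a * (4 ^ k)⁻¹) (lv cB b * (4 ^ k)⁻¹)
      (bl k (A k) m.1 m.2.1) (bl k (B k) m.2.1 m.2.2)) (fun k m => (4 ^ k : ℝ)⁻¹ *
      (ZL cB cC B C S (b + 1) e k m * (ZL cB cC B C S (b + 1) e k m)ᵀ).trace)
      (by positivity) (fun k m => mul_nonneg (by positivity)
        (M2_nonneg (hd_symm _) (mul_nonneg a0.le (hk4 _).le) (mul_nonneg a1.le (hk4 _).le) _ _))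
      (fun k m => mul_nonneg (hk4 k).le (psd_mul_transpose _).trace_nonneg) ?_ ?_ hq
    · intro k hk m hm
      have hb := bstep_sq_le (hd_symm k) (hd_sq k) (mul_pos h₀ (hk4 k)) (mul_pos h₁ (hk4 k))
        (cap_one hA (capA k hk m hm)) (cap_oneR hB (capB k hk m hm)) (S k m)
        (rg ((cC ^ 2)⁻¹ * (4 ^ k)⁻¹) (bl k (C k) m.1 m.2.2) e) a b
      simp only [lw_mul'] at hb
      exact node_scale a0 (inv_lv hA a) hb
    · refine le_trans (sum_le_sum fun k hk => sum_le_sum_of_subset_of_nonneg (hs k hk)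
        fun m _ _ => mul_nonneg (by positivity)
        (M2_nonneg (hd_symm _) (mul_nonneg a0.le (hk4 _).le) (mul_nonneg a1.le (hk4 _).le) _ _))
        ((le_of_eq ?_).trans hp)
      exact sum_congr rfl fun k _ => (mnk_two N R k (c k) a0.le a1.le (A k) (B k)).symm

/-- **C-step** with the node operator: centre `C`, static pair `(A, C)` and the pair `(C, S B)`. -/
theorem z2C (hs : ∀ k ∈ Icc 1 N, s k ⊆ bx3 N R k (c k)) (hA : 0 < cA) (hC : 0 < cC)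
    (capA : ∀ k ∈ Icc 1 N, ∀ m ∈ s k, Cap k m.1 m.2.1 cA (A k))
    (capC : ∀ k ∈ Icc 1 N, ∀ m ∈ s k, Cap k m.1 m.2.2 cC (C k)) (a b e : ℕ) {r q : ℝ}
    (hr : prs N R.2.1 R.1 R.2.2 c (wp (lv cA a) (sp A)) (wp (lv cC e) (sp C)) ≤ r)
    (hq : LP N s cB cC B C S b (e + 1) ≤ q) :
    U3 N s cA cB cC A B C S a b e ≤ U3 N s cA cB cC A B C S a b (e + 1) +
      6 * (cA / 2 ^ (a - 1) * √(r * q)) := by
  have h₀ : 0 < (cA ^ 2)⁻¹ := by positivity
  have h₂ : 0 < (cC ^ 2)⁻¹ := by positivity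
  have a0 := lv_pos hA a
  have a2 := lv_pos hC e
  have hk4 : ∀ k : ℕ, (0 : ℝ) < (4 ^ k)⁻¹ := fun k => by positivity
  unfold U3 UW
  refine diff_le _ _ (fun k m => (2 ^ k : ℝ)⁻¹ *
    ((hd k * S k m * (rg ((cB ^ 2)⁻¹ * (4 ^ k)⁻¹) (bl k (B k) m.2.1 m.2.2) b)ᵀ * hd k) *
      (bl k (A k) m.1 m.2.1)ᵀ * lo ((cA ^ 2)⁻¹ * (4 ^ k)⁻¹) (bl k (A k) m.1 m.2.1) a * hd k *
        pc ((cC ^ 2)⁻¹ * (4 ^ k)⁻¹) (bl k (C k) m.1 m.2.2) e).trace) (fun k m => ?_) ?_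
  · rw [← mul_add, ← trace_add]
    congr 2
    simp only [YL, BL]
    rw [pc_eq]
    noncomm_ring
  · refine core2s _ (fun k m => 4 ^ k * M2 (hd k) (lv cC e * (4 ^ k)⁻¹) (lv cA a * (4 ^ k)⁻¹)
      (bl k (C k) m.1 m.2.2)ᵀ (bl k (A k) m.1 m.2.1)) (fun k m => (4 ^ k : ℝ)⁻¹ *
      (ZL cB cC B C S b (e + 1) k m * (ZL cB cC B C S b (e + 1) k m)ᵀ).trace)
      (by positivity) (fun k m => mul_nonneg (by positivity)
        (M2_nonneg (hd_symm _) (mul_nonneg a2.le (hk4 _).le) (mul_nonneg a0.le (hk4 _).le) _ _))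
      (fun k m => mul_nonneg (hk4 k).le (psd_mul_transpose _).trace_nonneg) ?_ ?_ hq
    · intro k hk m hm
      have hb := cstep_sq_le (hd_symm k) (hd_sq k) (mul_pos h₀ (hk4 k)) (mul_pos h₂ (hk4 k))
        (cap_one hA (capA k hk m hm)) (cap_oneR hC (capC k hk m hm)) (S k m)
        (rg ((cB ^ 2)⁻¹ * (4 ^ k)⁻¹) (bl k (B k) m.2.1 m.2.2) b) a e
      simp only [lw_mul'] at hb
      exact node_scale a0 (inv_lv hA a) hb
    · refine le_trans (sum_le_sum fun k hk => sum_le_sum_of_subset_of_nonneg (hs k hk)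
        fun m _ _ => mul_nonneg (by positivity)
        (M2_nonneg (hd_symm _) (mul_nonneg a2.le (hk4 _).le) (mul_nonneg a0.le (hk4 _).le) _ _))
        ((le_of_eq ?_).trans hr)
      exact sum_congr rfl fun k _ => (mnk_one N R k (c k) a0.le a2.le (A k) (C k)).symm

/-- **A-step** with a contraction `S`: centre `A`, two static pairs. -/
theorem z2A (hs : ∀ k ∈ Icc 1 N, s k ⊆ bx3 N R k (c k)) (hA : 0 < cA) (hB : 0 < cB)
    (hC : 0 < cC)
    (capA : ∀ k ∈ Icc 1 N, ∀ m ∈ s k, Cap k m.1 m.2.1 cA (A k))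
    (capB : ∀ k ∈ Icc 1 N, ∀ m ∈ s k, Cap k m.2.1 m.2.2 cB (B k))
    (capC : ∀ k ∈ Icc 1 N, ∀ m ∈ s k, Cap k m.1 m.2.2 cC (C k))
    (hS : ∀ k ∈ Icc 1 N, ∀ m ∈ s k, (1 - (S k m)ᵀ * S k m).PosSemidef) (a b e : ℕ) {p r : ℝ}
    (hp : prs N R.1 R.2.1 R.2.2 c (wp (lv cA a) A) (wp (lv cB b) (sp B)) ≤ p)
    (hr : prs N R.2.1 R.1 R.2.2 c (wp (lv cA a) (sp A)) (wp (lv cC e) (sp C)) ≤ r) :
    U3 N s cA cB cC A B C S a b e ≤ U3 N s cA cB cC A B C S (a + 1) b e +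
      6 * (cA / 2 ^ (a - 1) * (cB / 2 ^ (b - 1)) * (cC / 2 ^ (e - 1)) * √(p * r)) := by
  have h₀ : 0 < (cA ^ 2)⁻¹ := by positivity
  have h₁ : 0 < (cB ^ 2)⁻¹ := by positivity
  have h₂ : 0 < (cC ^ 2)⁻¹ := by positivity
  have a0 := lv_pos hA a
  have a1 := lv_pos hB b
  have a2 := lv_pos hC e
  have hk4 : ∀ k : ℕ, (0 : ℝ) < (4 ^ k)⁻¹ := fun k => by positivity
  have ew : (lv cA a * lv cB b * lv cC e)⁻¹ =
      (cA / 2 ^ (a - 1) * (cB / 2 ^ (b - 1)) * (cC / 2 ^ (e - 1))) ^ 2 := by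
    rw [mul_inv, mul_inv, inv_lv hA, inv_lv hB, inv_lv hC]
    ring
  unfold U3 UW
  refine diff_le _ _ (fun k m => (2 ^ k : ℝ)⁻¹ *
    ((hd k * S k m * (rg ((cB ^ 2)⁻¹ * (4 ^ k)⁻¹) (bl k (B k) m.2.1 m.2.2) b)ᵀ * hd k) *
      (bl k (A k) m.1 m.2.1)ᵀ * bw ((cA ^ 2)⁻¹ * (4 ^ k)⁻¹) (bl k (A k) m.1 m.2.1) a * hd k *
        rg ((cC ^ 2)⁻¹ * (4 ^ k)⁻¹) (bl k (C k) m.1 m.2.2) e).trace) (fun k m => ?_) ?_
  · rw [← mul_add, ← trace_add]
    congr 2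
    simp only [YL, BL]
    rw [bw]
    noncomm_ring
  · refine core2s _ (fun k m => 4 ^ k * M2 (hd k) (lv cA a * (4 ^ k)⁻¹) (lv cB b * (4 ^ k)⁻¹)
      (bl k (A k) m.1 m.2.1) (bl k (B k) m.2.1 m.2.2))
      (fun k m => 4 ^ k * M2 (hd k) (lv cC e * (4 ^ k)⁻¹) (lv cA a * (4 ^ k)⁻¹)
      (bl k (C k) m.1 m.2.2)ᵀ (bl k (A k) m.1 m.2.1))
      (by positivity) (fun k m => mul_nonneg (by positivity)
        (M2_nonneg (hd_symm _) (mul_nonneg a0.le (hk4 _).le) (mul_nonneg a1.le (hk4 _).le) _ _))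
      (fun k m => mul_nonneg (by positivity)
        (M2_nonneg (hd_symm _) (mul_nonneg a2.le (hk4 _).le) (mul_nonneg a0.le (hk4 _).le) _ _))
      ?_ ?_ ?_
    · intro k hk m hm
      have hb := astep_sq_le (hd_symm k) (hd_sq k) (mul_pos h₀ (hk4 k)) (mul_pos h₁ (hk4 k))
        (mul_pos h₂ (hk4 k)) (cap_one hA (capA k hk m hm)) (cap_one hB (capB k hk m hm))
        (cap_one hC (capC k hk m hm)) (hS k hk m hm) a b e
      simp only [lw_mul'] at hb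
      rw [← ew]
      exact scale_sq a0 a1 a2 hb
    · refine le_trans (sum_le_sum fun k hk => sum_le_sum_of_subset_of_nonneg (hs k hk)
        fun m _ _ => mul_nonneg (by positivity)
        (M2_nonneg (hd_symm _) (mul_nonneg a0.le (hk4 _).le) (mul_nonneg a1.le (hk4 _).le) _ _))
        ((le_of_eq ?_).trans hp)
      exact sum_congr rfl fun k _ => (mnk_two N R k (c k) a0.le a1.le (A k) (B k)).symm
    · refine le_trans (sum_le_sum fun k hk => sum_le_sum_of_subset_of_nonneg (hs k hk)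
        fun m _ _ => mul_nonneg (by positivity)
        (M2_nonneg (hd_symm _) (mul_nonneg a2.le (hk4 _).le) (mul_nonneg a0.le (hk4 _).le) _ _))
        ((le_of_eq ?_).trans hr)
      exact sum_congr rfl fun k _ => (mnk_one N R k (c k) a0.le a2.le (A k) (C k)).symm

theorem LP_le_zero (b e : ℕ) : LP N s cB cC B C S b e ≤ LP N s cB cC B C S 0 0 := by
  refine sum_le_sum fun k _ => sum_le_sum fun m _ =>
    mul_le_mul_of_nonneg_left ?_ (by positivity)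
  have h₁ : 0 ≤ (cB ^ 2)⁻¹ * ((4 : ℝ) ^ k)⁻¹ := by positivity
  have h₂ : 0 ≤ (cC ^ 2)⁻¹ * ((4 : ℝ) ^ k)⁻¹ := by positivity
  have h := trace_contr_le (Z := bl k (C k) m.1 m.2.2 * hd k * S k m * (bl k (B k) m.2.1 m.2.2)ᵀ)
    (one_sub_lo_sq h₂ (bl k (C k) m.1 m.2.2) e) (one_sub_lo_sq h₁ (bl k (B k) m.2.1 m.2.2) b)
  have e1 : ∀ b e, ZL cB cC B C S b e k m =
      lo ((cC ^ 2)⁻¹ * (4 ^ k)⁻¹) (bl k (C k) m.1 m.2.2) e *
        (bl k (C k) m.1 m.2.2 * hd k * S k m * (bl k (B k) m.2.1 m.2.2)ᵀ) *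
        (lo ((cB ^ 2)⁻¹ * (4 ^ k)⁻¹) (bl k (B k) m.2.1 m.2.2) b)ᵀ := by
    intro b e
    rw [ZL, CL, BL, ← lo_mul h₂, ← lo_mul h₁ (bl k (B k) m.2.1 m.2.2) b, transpose_mul]
    simp only [Matrix.mul_assoc]
  rw [e1 b e, show ZL cB cC B C S 0 0 k m =
    bl k (C k) m.1 m.2.2 * hd k * S k m * (bl k (B k) m.2.1 m.2.2)ᵀ from rfl]
  exact h

/-- `LP` by the saturated Gram matrices on the common variable, `S` between them. -/
theorem LP_le_phi (hB : 0 < cB) (hC : 0 < cC)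
    (capB : ∀ k ∈ Icc 1 N, ∀ m ∈ s k, Cap k m.2.1 m.2.2 cB (B k))
    (capC : ∀ k ∈ Icc 1 N, ∀ m ∈ s k, Cap k m.1 m.2.2 cC (C k)) (b e : ℕ) :
    LP N s cB cC B C S b e ≤ 16 * (cB / 2 ^ (b - 1)) ^ 2 * (cC / 2 ^ (e - 1)) ^ 2 *
      ∑ k ∈ Icc 1 N, ∑ m ∈ s k, 4 ^ k *
        (phi (gramC (lv cC e * (4 ^ k)⁻¹) (bl k (C k) m.1 m.2.2)) *
          (hd k * S k m * phi (gramC (lv cB b * (4 ^ k)⁻¹) (bl k (B k) m.2.1 m.2.2)) *
            (S k m)ᵀ * hd k)).trace := by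
  unfold LP
  rw [mul_sum]
  refine sum_le_sum fun k hk => ?_
  rw [mul_sum]
  refine sum_le_sum fun m hm => ?_
  have hk4 : (0 : ℝ) < (4 ^ k)⁻¹ := by positivity
  have h₁ : 0 < (cB ^ 2)⁻¹ * ((4 : ℝ) ^ k)⁻¹ := by positivity
  have h₂ : 0 < (cC ^ 2)⁻¹ * ((4 : ℝ) ^ k)⁻¹ := by positivity
  have h := sub_le_phi h₁ h₂ (hd_symm k) (cap_one hC (capC k hk m hm))
    (cap_one hB (capB k hk m hm)) (S k m) b e
  simp only [lw_mul'] at h
  refine (mul_le_mul_of_nonneg_left h hk4.le).trans (le_of_eq ?_)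
  rw [← inv_lv hB b, ← inv_lv hC e]
  have a1 := (lv_pos hB b).ne'
  have a2 := (lv_pos hC e).ne'
  change (4 ^ k)⁻¹ * (16 * (lv cC e * (4 ^ k)⁻¹ * (lv cB b * (4 ^ k)⁻¹))⁻¹ *
    (phi (gramC (lv cC e * (4 ^ k)⁻¹) (bl k (C k) m.1 m.2.2)) *
      (hd k * S k m * phi (gramC (lv cB b * (4 ^ k)⁻¹) (bl k (B k) m.2.1 m.2.2)) *
        (S k m)ᵀ * hd k)).trace) = _
  generalize (phi (gramC (lv cC e * (4 ^ k)⁻¹) (bl k (C k) m.1 m.2.2)) *
      (hd k * S k m * phi (gramC (lv cB b * (4 ^ k)⁻¹) (bl k (B k) m.2.1 m.2.2)) *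
        (S k m)ᵀ * hd k)).trace = T
  field_simp

/-- The trivial bound: decay in the sum of the three indices. -/
theorem U3_tail (hA : 0 < cA) (hB : 0 < cB) (hC : 0 < cC)
    (capA : ∀ k ∈ Icc 1 N, ∀ m ∈ s k, Cap k m.1 m.2.1 cA (A k))
    (capB : ∀ k ∈ Icc 1 N, ∀ m ∈ s k, Cap k m.2.1 m.2.2 cB (B k))
    (capC : ∀ k ∈ Icc 1 N, ∀ m ∈ s k, Cap k m.1 m.2.2 cC (C k))
    (hS : ∀ k ∈ Icc 1 N, ∀ m ∈ s k, (1 - (S k m)ᵀ * S k m).PosSemidef) :
    ∃ K : ℝ, 0 ≤ K ∧ ∀ a b e : ℕ,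
      U3 N s cA cB cC A B C S a b e ≤ K * (2 ^ (a + b + e))⁻¹ := by
  have h₀ : 0 < (cA ^ 2)⁻¹ := by positivity
  have h₁ : 0 < (cB ^ 2)⁻¹ := by positivity
  have h₂ : 0 < (cC ^ 2)⁻¹ := by positivity
  have q : ∀ k : ℕ, (0 : ℝ) < (4 ^ k)⁻¹ := fun k => by positivity
  set κ : ℝ → ℕ → ℝ := fun x k =>
    √(4 * ((x ^ 2)⁻¹ * (4 ^ k)⁻¹)⁻¹ * (Fintype.card (Ix k) : ℝ)) with hκ
  set κ' : ℝ → ℕ → ℝ := fun x k => √(4 * ((x ^ 2)⁻¹ * (4 ^ k)⁻¹)⁻¹) with hκ'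
  have nκ : ∀ x k, 0 ≤ κ x k := fun x k => Real.sqrt_nonneg _
  have nκ' : ∀ x k, 0 ≤ κ' x k := fun x k => Real.sqrt_nonneg _
  refine ⟨∑ k ∈ Icc 1 N, ∑ m ∈ s k, (2 ^ k : ℝ)⁻¹ * (κ cA k * (κ cB k * κ' cC k)),
    sum_nonneg fun k _ => sum_nonneg fun m _ => ?_, fun a b e => ?_⟩
  · have := nκ cA k
    have := nκ cB k
    have := nκ' cC k
    positivity
  unfold U3 UW
  rw [sum_mul]
  refine sum_le_sum fun k hk => ?_
  rw [sum_mul]
  refine sum_le_sum fun m hm => ?_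
  have h2k : (0 : ℝ) < (2 ^ k)⁻¹ := by positivity
  rw [abs_mul, abs_of_pos h2k, mul_assoc ((2 ^ k : ℝ)⁻¹)]
  refine mul_le_mul_of_nonneg_left ?_ h2k.le
  have kA := cap_one hA (capA k hk m hm)
  have kB := cap_one hB (capB k hk m hm)
  have kC := cap_one hC (capC k hk m hm)
  have dA := hs_rg_decay (mul_pos h₀ (q k)) kA a
  have dB := hs_rg_decay (mul_pos h₁ (q k)) kB b
  have oC := rg_op (mul_pos h₂ (q k)) kC e
  have dC : √(4 * ((4 : ℝ) ^ e * ((cC ^ 2)⁻¹ * (4 ^ k)⁻¹))⁻¹) =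
      κ' cC k * (2 ^ e)⁻¹ := by
    have h4 : ((4 : ℝ) ^ e)⁻¹ = ((2 ^ e)⁻¹) ^ 2 := by
      rw [inv_pow, ← pow_mul, mul_comm e 2, pow_mul]; norm_num
    have e1 : 4 * ((4 : ℝ) ^ e * ((cC ^ 2)⁻¹ * (4 ^ k)⁻¹))⁻¹ =
        (4 * ((cC ^ 2)⁻¹ * (4 ^ k)⁻¹)⁻¹) * ((2 ^ e)⁻¹) ^ 2 := by
      rw [mul_inv, h4]
      ring
    rw [e1, Real.sqrt_mul (by positivity), Real.sqrt_sq (by positivity)]
  set F := rg ((cA ^ 2)⁻¹ * (4 ^ k)⁻¹) (bl k (A k) m.1 m.2.1) a with hF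
  set G := rg ((cB ^ 2)⁻¹ * (4 ^ k)⁻¹) (bl k (B k) m.2.1 m.2.2) b with hG
  set H := rg ((cC ^ 2)⁻¹ * (4 ^ k)⁻¹) (bl k (C k) m.1 m.2.2) e with hH
  set cH : ℝ := 4 * ((4 : ℝ) ^ e * ((cC ^ 2)⁻¹ * (4 ^ k)⁻¹))⁻¹ with hcH
  have cH0 : 0 ≤ cH := by positivity
  have e1 : (YL cB B S b k m * (bl k (A k) m.1 m.2.1)ᵀ *
      lo ((cA ^ 2)⁻¹ * (4 ^ k)⁻¹) (bl k (A k) m.1 m.2.1) a * hd k * H).trace =
      ((H * (hd k * (S k m * Gᵀ))) * (hd k * Fᵀ * hd k)).trace := by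
    have e0 : (bl k (A k) m.1 m.2.1)ᵀ * lo ((cA ^ 2)⁻¹ * (4 ^ k)⁻¹) (bl k (A k) m.1 m.2.1) a =
        Fᵀ := by
      rw [hF, ← lo_mul (mul_pos h₀ (q k)).le, transpose_mul, lo_symm (mul_pos h₀ (q k)).le]
    rw [show YL cB B S b k m * (bl k (A k) m.1 m.2.1)ᵀ *
      lo ((cA ^ 2)⁻¹ * (4 ^ k)⁻¹) (bl k (A k) m.1 m.2.1) a * hd k * H =
      (YL cB B S b k m * ((bl k (A k) m.1 m.2.1)ᵀ *
      lo ((cA ^ 2)⁻¹ * (4 ^ k)⁻¹) (bl k (A k) m.1 m.2.1) a) * hd k) * H by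
        simp only [Matrix.mul_assoc], e0, trace_mul_comm, YL, BL, ← hG]
    simp only [Matrix.mul_assoc]
  rw [e1]
  have t0 := trace_mul_sq_le (H * (hd k * (S k m * Gᵀ))) (hd k * Fᵀ * hd k)
  have hr := hd_symm k
  have hr2 := hd_sq k
  have t1 : ((H * (hd k * (S k m * Gᵀ))) * (H * (hd k * (S k m * Gᵀ)))ᵀ).trace ≤
      cH * (Gᵀ * G).trace := by
    have e2 : ((H * (hd k * (S k m * Gᵀ))) * (H * (hd k * (S k m * Gᵀ)))ᵀ).trace =
        ((hd k * (S k m * (Gᵀ * G) * (S k m)ᵀ) * hd k) * (Hᵀ * H)).trace := by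
      simp only [transpose_mul, transpose_transpose, hr]
      rw [show H * (hd k * (S k m * Gᵀ)) * (G * (S k m)ᵀ * hd k * Hᵀ) =
        H * (hd k * (S k m * (Gᵀ * G) * (S k m)ᵀ) * hd k * Hᵀ) by
          simp only [Matrix.mul_assoc], trace_mul_comm]
      simp only [Matrix.mul_assoc]
    have p1 : (hd k * (S k m * (Gᵀ * G) * (S k m)ᵀ) * hd k).PosSemidef :=
      psd_conj_symm (psd_conj (psd_transpose_mul G) _) hr
    have h3 := trace_mul_le_right p1 oC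
    rw [Matrix.mul_smul, Matrix.mul_one, trace_smul, smul_eq_mul] at h3
    have e3 : (hd k * (S k m * (Gᵀ * G) * (S k m)ᵀ) * hd k).trace =
        ((Gᵀ * G) * ((S k m)ᵀ * S k m)).trace := by
      rw [trace_mul_comm, ← Matrix.mul_assoc, hr2, Matrix.one_mul,
        show S k m * (Gᵀ * G) * (S k m)ᵀ = S k m * ((Gᵀ * G) * (S k m)ᵀ) by
          simp only [Matrix.mul_assoc], trace_mul_comm]
      simp only [Matrix.mul_assoc]
    have h4 := trace_mul_le_right (psd_transpose_mul G) (hS k hk m hm)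
    rw [Matrix.mul_one] at h4
    rw [e3] at h3
    rw [e2]
    exact h3.trans (mul_le_mul_of_nonneg_left h4 cH0)
  have t2 : ((hd k * Fᵀ * hd k) * (hd k * Fᵀ * hd k)ᵀ).trace = (Fᵀ * F).trace := by
    simp only [transpose_mul, transpose_transpose, hr]
    rw [show hd k * Fᵀ * hd k * (hd k * (F * hd k)) =
      hd k * (Fᵀ * (hd k * hd k) * F * hd k) by simp only [Matrix.mul_assoc], hr2,
      Matrix.mul_one, trace_mul_comm, Matrix.mul_assoc, hr2, Matrix.mul_one]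
  rw [t2] at t0
  have gF : 0 ≤ (Fᵀ * F).trace := (psd_transpose_mul F).trace_nonneg
  have gG : 0 ≤ (Gᵀ * G).trace := (psd_transpose_mul G).trace_nonneg
  have t3 : ((H * (hd k * (S k m * Gᵀ))) * (hd k * Fᵀ * hd k)).trace ^ 2 ≤
      (√(Fᵀ * F).trace * (√(Gᵀ * G).trace * √cH)) ^ 2 := by
    rw [mul_pow, mul_pow, Real.sq_sqrt gF, Real.sq_sqrt gG, Real.sq_sqrt cH0]
    refine t0.trans ((mul_le_mul_of_nonneg_right t1 gF).trans (le_of_eq ?_))
    ring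
  refine (abs_le_of_sq_le_sq t3 (by positivity)).trans ?_
  have m1 := mul_le_mul dB dC.le (Real.sqrt_nonneg _) (by positivity)
  have m2 := mul_le_mul dA m1 (by positivity) (by positivity)
  refine m2.trans (le_of_eq ?_)
  rw [hκ]
  simp only
  rw [pow_add, pow_add, mul_inv, mul_inv]
  ring

end

/-- **The three-index induction**: at every state one of the three steps. -/
theorem ind3 {f : ℕ → ℕ → ℕ → ℝ} {κA κB κC : ℕ → ℝ} (nA : ∀ j, 0 ≤ κA j)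
    (nB : ∀ j, 0 ≤ κB j) (nC : ∀ j, 0 ≤ κC j) {K : ℝ}
    (ht : ∀ a b e, f a b e ≤ K * (2 ^ (a + b + e))⁻¹) {a₀ b₀ e₀ : ℕ}
    (h : ∀ a b e, a₀ ≤ a → b₀ ≤ b → e₀ ≤ e → f a b e ≤ f (a + 1) b e + κA a ∨
      f a b e ≤ f a (b + 1) e + κB b ∨ f a b e ≤ f a b (e + 1) + κC e) {SA SB SC : ℝ}
    (hA : ∀ L, ∑ j ∈ range L, κA (a₀ + j) ≤ SA) (hB : ∀ L, ∑ j ∈ range L, κB (b₀ + j) ≤ SB)
    (hC : ∀ L, ∑ j ∈ range L, κC (e₀ + j) ≤ SC) : f a₀ b₀ e₀ ≤ SA + SB + SC := by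
  have main : ∀ L a b e, a₀ ≤ a → b₀ ≤ b → e₀ ≤ e → f a b e ≤ ∑ j ∈ range L, κA (a + j) +
      ∑ j ∈ range L, κB (b + j) + ∑ j ∈ range L, κC (e + j) +
        K * (2 ^ (a + b + e + L))⁻¹ := by
    intro L
    induction L with
    | zero =>
      intro a b e _ _ _
      simpa using ht a b e
    | succ L ih =>
      intro a b e h1 h2 h3
      have up : ∀ (κ : ℕ → ℝ) (_ : ∀ j, 0 ≤ κ j) (a : ℕ), ∑ j ∈ range L, κ (a + j) ≤
          ∑ j ∈ range (L + 1), κ (a + j) := fun κ hκ a =>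
        sum_le_sum_of_subset_of_nonneg (range_mono (Nat.le_succ L)) fun j _ _ => hκ _
      have sc : ∀ (κ : ℕ → ℝ) (a : ℕ), ∑ j ∈ range (L + 1), κ (a + j) =
          κ a + ∑ j ∈ range L, κ (a + 1 + j) := by
        intro κ a
        rw [sum_range_succ', add_zero, add_comm]
        congr 1
        exact sum_congr rfl fun j _ => by rw [show a + (j + 1) = a + 1 + j by ring]
      rcases h a b e h1 h2 h3 with h4 | h4 | h4
      · have h5 := ih (a + 1) b e (by omega) h2 h3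
        rw [show a + 1 + b + e + L = a + b + e + (L + 1) by ring] at h5
        rw [sc κA a]
        have := up κB nB b
        have := up κC nC e
        linarith
      · have h5 := ih a (b + 1) e h1 (by omega) h3
        rw [show a + (b + 1) + e + L = a + b + e + (L + 1) by ring] at h5
        rw [sc κB b]
        have := up κA nA a
        have := up κC nC e
        linarith
      · have h5 := ih a b (e + 1) h1 h2 (by omega)
        rw [show a + b + (e + 1) + L = a + b + e + (L + 1) by ring] at h5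
        rw [sc κC e]
        have := up κA nA a
        have := up κB nB b
        linarith
  refine Vale.Agent.P141.H958.lim_le (K := K * (2 ^ (a₀ + b₀ + e₀))⁻¹) fun L => ?_
  have h1 := main L a₀ b₀ e₀ le_rfl le_rfl le_rfl
  rw [pow_add, mul_inv, ← mul_assoc] at h1
  have := hA L
  have := hB L
  have := hC L
  linarith

end

end Vale.Agent.P141.H609
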